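import Crest.Agent.R316.Main

/-!
# Row 316 (S0488): `∃∀`-theory of the reals is in the counting hierarchy.  Blueprint (owner helper1)

1. `CH`, `CF`: internal counting hierarchy over encodable types (done).  `CF` is a `fun_prop` property containing `PT`,
   closed under exponential sums, counts, quantifiers, minimisation, guessing.
2. `Defs`, `Nrm`, `EV`, `EVbig`, `EH`, `Coeff`, `ModP`: families of polynomials over `ℤ` (iterated polynomial rings)
   of exponential degree and doubly exponential height whose values modulo large primes are `CF`; closed under ring
   operations, exponential sums/products (discrete logarithms), substitution and coefficient extraction.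
3. `Primes`, `SignA`, `Sign`, `ZT`: the sign of an `EV` integer is `CF` (Chinese remainders + doubling search).
4. `NewtonA`, `Newton`: product from power sums.  `Res1`, `Res1b`, `Res2`, `Eig`, `Kl`, `Elim`: for `A Xᵢ^D = gᵢ`
   (`deg gᵢ < D`) the traces are residues, i.e. explicit coefficients; this gives an `EV` eliminant.
   `PSum`, `Norm`, `Gap`: products/sums over tuples of roots of an integer polynomial, gap bounds.
5. `CritA`, `CritS`, `CritB`, `CritC`, `Sample`, `Strata`, `Gsig`, `Psi1`, `Psi`, `Witness`: critical points of
   `G + ε ∑ yᵢ^(2d)`; solvability of `G(x, ·) = 0` is locally constant on the strata of one `EV` polynomial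
   `Θ(x; η)`; limits of critical points are roots of trailing coefficients.  Hence `∃ x ∀ y` may be restricted to
   real roots of two `EV` polynomials `ψ₁, ψ₂ ∈ ℤ[T]`.
6. `Newman`, `Rank`, `Root0`, `Root`, `EvalRat`, `Names`, `Prec`, `Decide`: root finding in constant depth: the rank of a
   root for a generic real-linear form is computed with Newman's rational approximation of the sign function;
   signs at tuples of roots by approximation and the gap bound.
7. `Syntax`, `SyntaxPT`, `Circuit`, `CircuitEV`, `Main`: guessing the parse, circuits.
-/
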