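import Crest.Agent.R316.CH

/-!
# Row 316 (S0488): functions computable in the counting hierarchy  (owner helper1)

`CF f` is a `fun_prop` property; `PT f → CF f` is a transition theorem, so `fun_prop` proves `CF` for
everything built from `PT` operations and `CF` hypotheses.  Predicates are functions to `Prop`.
Numbers produced by `CF` functions have polynomially many bits (exponential value).
-/

set_option autoImplicit false

namespace Crest.Agent.R316

open Crest.Agent.Lib.PolyTime

/-- `f` is computable in the counting hierarchy -/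
@[fun_prop] def CF {α β : Type} [Enc α] [Enc β] (f : α → β) : Prop :=
  PB (fun a => esize (f a)) ∧
    ∀ (δ : Type) [Enc δ] (h : δ → α) (Q : δ × β → Prop), PT h → CH Q → CH fun d => Q (d, f (h d))

variable {α β γ : Type} [Enc α] [Enc β] [Enc γ]

@[fun_prop] theorem CF.of_PT {f : α → β} (hf : PT f) : CF f :=
  ⟨PB.esize hf, fun _ _ h _ hh hQ => hQ.comp (f := fun d => (d, f (h d))) (by fun_prop)⟩

namespace CF

theorem of_eq {f g : α → β} (h : CF f) (e : ∀ a, f a = g a) : CF g := funext e ▸ h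
theorem of_iff {p q : α → Prop} (h : CF p) (e : ∀ a, p a ↔ q a) : CF q :=
  h.of_eq fun a => propext (e a)

theorem esize_pb {f : α → β} (h : CF f) : PB fun a => esize (f a) := h.1

@[fun_prop] theorem id' : CF fun a : α => a := of_PT PT.id'
@[fun_prop] theorem const (c : β) : CF fun _ : α => c := of_PT (PT.const c)

@[fun_prop] theorem comp {g : β → γ} {f : α → β} (hg : CF g) (hf : CF f) : CF fun a => g (f a) :=
  ⟨hg.1.comp_of_esize hf.1, fun δ _ h Q hh hQ =>
    hf.2 δ h (fun p => Q (p.1, g p.2)) hh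
      (hg.2 (δ × β) Prod.snd (fun q => Q (q.1.1, q.2)) PT.snd' (hQ.comp (by fun_prop)))⟩

@[fun_prop] theorem prodMk {f : α → β} {g : α → γ} (hf : CF f) (hg : CF g) :
    CF fun a => (f a, g a) :=
  ⟨((hf.1.add hg.1).add (PB.const 1)).mono fun a => by simp, fun δ _ h Q hh hQ =>
    hf.2 δ h (fun p => Q (p.1, (p.2, g (h p.1)))) hh
      (hg.2 (δ × β) (fun p => h p.1) (fun q => Q (q.1.1, (q.1.2, q.2))) (by fun_prop)
        (hQ.comp (by fun_prop)))⟩

@[fun_prop] theorem fst {f : α → β × γ} (hf : CF f) : CF fun a => (f a).1 :=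
  (of_PT PT.fst').comp hf
@[fun_prop] theorem snd {f : α → β × γ} (hf : CF f) : CF fun a => (f a).2 :=
  (of_PT PT.snd').comp hf

theorem toCH {P : α → Prop} (h : CF P) : CH P :=
  h.2 α (fun a => a) (fun p => p.2) PT.id' (CH.of_PT PT.snd')

theorem ofCH {P : α → Prop} (h : CH P) : CF P :=
  ⟨(PB.const 3).mono fun _ => esize_prop_le _, fun _ _ g Q hg hQ =>
    (((h.comp hg).and (hQ.comp (f := fun d => (d, True)) (by fun_prop))).or
      ((h.comp hg).not.and (hQ.comp (f := fun d => (d, False)) (by fun_prop)))).congr fun d => by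
      by_cases hp : P (g d) <;> simp [hp]⟩

/-- The end of the road. -/
theorem mem_level {P : List Bool → Prop} (h : CF P) :
    ∃ j, {w | P w} ∈ Crest.CountHier.level j :=
  let ⟨j, h⟩ := h.toCH; ⟨j, h.mem_level j⟩

end CF

/-- polynomial bounds compose with `CF` functions -/
theorem PB.compCF {g : β → ℕ} {f : α → β} (hg : PB g) (hf : CF f) : PB fun a => g (f a) :=
  hg.comp_of_esize hf.1

theorem PB.lengthCF {l : α → List β} (hl : CF l) : PB fun a => (l a).length :=
  hl.1.mono fun _ => (length_lt_esize _).le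

theorem PB.sizeCF {f : α → ℕ} (hf : CF f) : PB fun a => (f a).size :=
  hf.1.mono fun _ => (size_lt_esize _).le

/-- every polynomially bounded function has a polynomial-time polynomially bounded majorant -/
theorem PB.exists_PT {g : α → ℕ} (hg : PB g) : ∃ k : α → ℕ, PT k ∧ PB k ∧ ∀ a, g a ≤ k a := by
  obtain ⟨c, hc⟩ := hg
  have h1 : PT fun a : α => esize a := PT.esize' PT.id'
  exact ⟨fun a => (esize a + 1) ^ c, by fun_prop, ⟨c, fun _ => le_rfl⟩, hc⟩

/-- `CF` numbers are exponentially bounded -/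
theorem CF.exists_lt_two_pow {f : α → ℕ} (hf : CF f) :
    ∃ k : α → ℕ, PT k ∧ PB k ∧ ∀ a, f a < 2 ^ k a := by
  obtain ⟨k, h1, h2, h3⟩ := PB.exists_PT hf.1
  exact ⟨k, h1, h2, fun a => (lt_two_pow_esize _).trans_le (Nat.pow_le_pow_right (by omega) (h3 a))⟩

/-- a polynomial bound is uniform over the numbers below a `CF` number -/
theorem PB.exists_unif {g : α × ℕ → ℕ} {n : α → ℕ} (hg : PB g) (hn : CF n) :
    ∃ k : α → ℕ, PT k ∧ PB k ∧ ∀ a, ∀ i ≤ n a, g (a, i) ≤ k a := by
  obtain ⟨B, hB, h⟩ := hg.exists_bound (α := α) (s := fun a => esize a + esize (n a) + 1)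
    ((PB.esize_id.add hn.1).add (PB.const 1))
  obtain ⟨k, h1, h2, h3⟩ := PB.exists_PT hB
  exact ⟨k, h1, h2, fun a i hi => (h a _ (by
    have := esize_nat_mono hi; simp only [esize_pair]; omega)).trans (h3 a)⟩

/-- a polynomial bound is uniform over the values of polynomially bounded size -/
theorem PB.exists_unif' {g : α × β → ℕ} {s : α → ℕ} (hg : PB g) (hs : PB s) :
    ∃ k : α → ℕ, PT k ∧ PB k ∧ ∀ a b, esize b ≤ s a → g (a, b) ≤ k a := by
  obtain ⟨B, hB, h⟩ := hg.exists_bound (α := α) (s := fun a => esize a + s a + 1)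
    ((PB.esize_id.add hs).add (PB.const 1))
  obtain ⟨k, h1, h2, h3⟩ := PB.exists_PT hB
  exact ⟨k, h1, h2, fun a i hi => (h a _ (by simp only [esize_pair]; omega)).trans (h3 a)⟩

/-- a `CF` number is uniformly exponentially bounded over the numbers below a `CF` number -/
theorem CF.exists_unif {f : α × ℕ → ℕ} {n : α → ℕ} (hf : CF f) (hn : CF n) :
    ∃ k : α → ℕ, PT k ∧ PB k ∧ ∀ a, ∀ i ≤ n a, f (a, i) < 2 ^ k a := by
  obtain ⟨k, h1, h2, h3⟩ := PB.exists_unif hf.1 hn
  exact ⟨k, h1, h2, fun a i hi =>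
    (lt_two_pow_esize _).trans_le (Nat.pow_le_pow_right (by omega) (h3 a i hi))⟩

/-- Types whose values can be guessed. -/
class Dec (β : Type) [Enc β] : Prop where
  out : ∃ c : β → List Bool, Parses (fun (_ : Unit) => c) (fun _ _ => True) ∧ (∀ b, c b ≠ []) ∧
    PB fun b => (c b).length

instance : Dec ℕ := ⟨⟨Crest.Enc.natCode, Parses.nat, natCode_ne_nil, by fun_prop⟩⟩
instance : Dec ℤ := ⟨⟨Crest.Enc.intCode, Parses.int, intCode_ne_nil, by fun_prop⟩⟩
instance : Dec Bool := ⟨⟨fun b => [b], Parses.bool, by simp, by fun_prop⟩⟩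
instance : Dec Unit := ⟨⟨fun _ => [true], (Parses.bool.map (fun _ _ => ()) (by fun_prop)
  (fun _ _ => true)).congr fun _ _ _ => ⟨⟨trivial, rfl⟩, rfl⟩, by simp, by fun_prop⟩⟩
open Classical in
instance : Dec Prop := ⟨⟨fun p => [decide p], (Parses.bool.map (fun _ b => b = true) (by fun_prop)
  (fun _ p => decide p)).congr fun _ _ _ => ⟨⟨trivial, by simp⟩, rfl⟩, by simp, by fun_prop⟩⟩
instance [Dec β] [Dec γ] : Dec (β × γ) := by
  obtain ⟨c, h1, h2, h3⟩ := Dec.out (β := β)
  obtain ⟨c', h1', h2', h3'⟩ := Dec.out (β := γ)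
  refine ⟨⟨fun p => c p.1 ++ c' p.2, (h1.seq (h1'.reindex (φ := fun _ : Unit × β => ())
    (by fun_prop))).congr fun _ _ _ => ⟨⟨trivial, trivial⟩, rfl⟩, fun p => by simp [h2], ?_⟩⟩
  simp only [List.length_append]
  exact (h3.comp PT.fst').add (h3'.comp PT.snd')
instance [Dec β] : Dec (List β) := by
  obtain ⟨c, h1, h2, h3⟩ := Dec.out (β := β)
  refine ⟨⟨fun l => Crest.Enc.natCode l.length ++ (l.map c).flatten,
    h1.list.congr fun _ _ _ => ⟨fun a _ => ⟨trivial, h2 a⟩, rfl⟩,
    fun l => by simp [natCode_ne_nil], ?_⟩⟩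
  simp only [List.length_append, List.length_flatten, List.map_map]
  exact PB.add (by fun_prop) (PB.sum_map (g := fun _ b => (c b).length) PT.id' (h3.comp PT.snd'))

theorem Dec.exists_dec (β : Type) [Enc β] [Dec β] : ∃ (dec : ℕ → β) (k : β → ℕ), PT dec ∧ PB k ∧
    ∀ b, ∃ i < 2 ^ k b, dec i = b := by
  obtain ⟨c, ⟨run, h1, -, h2⟩, -, h3⟩ := Dec.out (β := β)
  refine ⟨fun i => (run ((), i.bits)).1, fun b => (c b).length + 1, by fun_prop, by fun_prop,
    fun b => ⟨ofBits (c b ++ [true]), by simpa using ofBits_lt (c b ++ [true]), ?_⟩⟩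
  have key : ∀ l : List Bool, ofBits (l ++ [true]) ≠ 0 ∧ (ofBits (l ++ [true])).bits = l ++ [true] := by
    intro l
    induction l with
    | nil => simp [Nat.bit]
    | cons x l ih =>
      refine ⟨by simp [Nat.bit_eq_zero_iff, ih.1], ?_⟩
      rw [List.cons_append, ofBits_cons, Nat.bits_append_bit _ _ (fun h => absurd h ih.1), ih.2]
  simp only [(key (c b)).2, h2 () b [true] trivial]

namespace CF

@[fun_prop] theorem not {p : α → Prop} (hp : CF p) : CF fun a => ¬ p a := ofCH hp.toCH.not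
@[fun_prop] theorem and {p q : α → Prop} (hp : CF p) (hq : CF q) : CF fun a => p a ∧ q a :=
  ofCH (hp.toCH.and hq.toCH)
@[fun_prop] theorem or {p q : α → Prop} (hp : CF p) (hq : CF q) : CF fun a => p a ∨ q a :=
  ofCH (hp.toCH.or hq.toCH)
@[fun_prop] theorem iff {p q : α → Prop} (hp : CF p) (hq : CF q) : CF fun a => p a ↔ q a :=
  ((hp.and hq).or (hp.not.and hq.not)).of_iff fun _ => by tauto
theorem imp {p q : α → Prop} (hp : CF p) (hq : CF q) : CF fun a => p a → q a :=
  (hp.not.or hq).of_iff fun _ => by tauto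

@[fun_prop] theorem decide {p : α → Prop} [∀ a, Decidable (p a)] (hp : CF p) :
    CF fun a => decide (p a) := by
  classical
  exact ((of_PT (PT.decide (p := fun q : Prop => q) PT.id')).comp hp).of_eq fun a => by congr

@[fun_prop] theorem ite {c : α → Prop} [∀ a, Decidable (c a)] {f g : α → β} (hc : CF c)
    (hf : CF f) (hg : CF g) : CF fun a => if c a then f a else g a := by
  classical
  exact ((of_PT (f := fun p : Prop × β × β => if p.1 then p.2.1 else p.2.2) (by fun_prop)).comp
    (hc.prodMk (hf.prodMk hg))).of_eq fun a => by congr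

theorem lt_cnt {P : α × ℕ → Prop} {n t : α → ℕ} (hP : CF P) (hn : CF n) (ht : CF t) :
    CF fun a => t a < cnt (n a) fun i => P (a, i) :=
  (ofCH (CH.lt_cnt (α := α × ℕ × ℕ) (Q := fun q => P (q.1.1, q.2)) (n := fun p => p.2.1)
    (t := fun p => p.2.2) (hP.toCH.comp (by fun_prop)) (by fun_prop) (by fun_prop))).comp
    (id'.prodMk (hn.prodMk ht))

/-- bounded existential quantifier, exponential range -/
@[fun_prop] theorem exists_lt {n : α → ℕ} {p : α → ℕ → Prop} (hn : CF n)
    (hp : CF fun x : α × ℕ => p x.1 x.2) : CF fun a => ∃ i < n a, p a i :=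
  (hp.lt_cnt hn (const 0)).of_iff fun _ => cnt_pos

/-- bounded universal quantifier, exponential range (apply it by hand) -/
theorem forall_lt {n : α → ℕ} {p : α → ℕ → Prop} (hn : CF n)
    (hp : CF fun x : α × ℕ => p x.1 x.2) : CF fun a => ∀ i < n a, p a i :=
  (exists_lt (p := fun a i => ¬ p a i) hn hp.not).not.of_iff fun _ => by simp

theorem exists_le {n : α → ℕ} {p : α → ℕ → Prop} (hn : CF n)
    (hp : CF fun x : α × ℕ => p x.1 x.2) : CF fun a => ∃ i ≤ n a, p a i :=
  (exists_lt (n := fun a => n a + 1) (by fun_prop) hp).of_iff fun _ => by simp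

theorem forall_le {n : α → ℕ} {p : α → ℕ → Prop} (hn : CF n)
    (hp : CF fun x : α × ℕ => p x.1 x.2) : CF fun a => ∀ i ≤ n a, p a i :=
  (forall_lt (n := fun a => n a + 1) (by fun_prop) hp).of_iff fun _ => by simp

/-- guessing a value of polynomial size -/
theorem exists_dec [Dec β] {s : α → ℕ} {p : α → β → Prop} (hs : PB s)
    (hp : CF fun x : α × β => p x.1 x.2) (hb : ∀ a b, p a b → esize b ≤ s a) :
    CF fun a => ∃ b, p a b := by
  obtain ⟨dec, k, h1, h2, h3⟩ := Dec.exists_dec β
  obtain ⟨B, hB, h4⟩ := h2.exists_bound hs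
  obtain ⟨K, hK1, hK2, hK3⟩ := PB.exists_PT hB
  refine (exists_lt (n := fun a => 2 ^ K a) (p := fun a i => p a (dec i)) (of_PT (by fun_prop))
    (hp.comp (f := fun x : α × ℕ => (x.1, dec x.2)) (by fun_prop))).of_iff fun a => ⟨?_, ?_⟩
  · rintro ⟨i, -, hi⟩
    exact ⟨_, hi⟩
  · rintro ⟨b, hpb⟩
    obtain ⟨i, hi, rfl⟩ := h3 b
    exact ⟨i, hi.trans_le (Nat.pow_le_pow_right (by omega)
      ((h4 a _ (hb a _ hpb)).trans (hK3 a))), hpb⟩

/-- universal quantifier over the values of polynomial size -/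
theorem forall_dec [Dec β] {s : α → ℕ} {p q : α → β → Prop} (hs : PB s)
    (hp : CF fun x : α × β => p x.1 x.2) (hq : CF fun x : α × β => q x.1 x.2)
    (hb : ∀ a b, p a b → esize b ≤ s a) : CF fun a => ∀ b, p a b → q a b :=
  (exists_dec (p := fun a b => p a b ∧ ¬ q a b) hs (hp.and hq.not)
    fun a b h => hb a b h.1).not.of_iff fun _ => by simp

/-- a function of polynomial output size with a `CF` graph -/
theorem of_graph [Dec β] {f : α → β} (hs : PB fun a => esize (f a))
    (hg : CF fun x : α × β => x.2 = f x.1) : CF f := by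
  refine ⟨hs, fun δ _ h Q hh hQ => ?_⟩
  have hQ' := ofCH hQ
  have hh' := of_PT hh
  refine (exists_dec (s := fun d => esize (f (h d))) (p := fun d b => b = f (h d) ∧ Q (d, b))
    (hs.comp hh) (and (hg.comp (f := fun x : δ × β => (h x.1, x.2)) (by fun_prop))
      (by fun_prop)) fun d b hb => hb.1 ▸ le_rfl).toCH.congr fun d => by simp

theorem of_rel [Dec β] {f : α → β} {R : α → β → Prop} (hs : PB fun a => esize (f a))
    (hR : CF fun x : α × β => R x.1 x.2) (h : ∀ a b, R a b ↔ b = f a) : CF f :=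
  of_graph hs (hR.of_iff fun x => h x.1 x.2)

/-- counting, exponential range -/
@[fun_prop] theorem cnt {n : α → ℕ} {p : α → ℕ → Prop} (hn : CF n)
    (hp : CF fun x : α × ℕ => p x.1 x.2) : CF fun a => cnt (n a) (p a) := by
  have h1 : CF fun x : α × ℕ => x.2 < R316.cnt (n x.1) (p x.1) :=
    lt_cnt (P := fun y : (α × ℕ) × ℕ => p y.1.1 y.2)
      (hp.comp (f := fun y : (α × ℕ) × ℕ => (y.1.1, y.2)) (by fun_prop)) (by fun_prop)
      (by fun_prop)
  have h2 : CF fun x : α × ℕ => x.2 - 1 < R316.cnt (n x.1) (p x.1) :=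
    h1.comp (f := fun x : α × ℕ => (x.1, x.2 - 1)) (by fun_prop)
  refine of_rel (R := fun a v => ¬ v < R316.cnt (n a) (p a) ∧
    (v = 0 ∨ v - 1 < R316.cnt (n a) (p a))) (hn.1.mono fun a => esize_nat_mono (cnt_le _ _))
    (h1.not.and (or (by fun_prop) h2)) fun a v => by omega

theorem card_filter_range {n : α → ℕ} {p : α → ℕ → Prop} [∀ a, DecidablePred (p a)] (hn : CF n)
    (hp : CF fun x : α × ℕ => p x.1 x.2) :
    CF fun a => ((Finset.range (n a)).filter (p a)).card :=
  (cnt hn hp).of_eq fun _ => cnt_eq_card _ _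

/-- a polynomially bounded `CF` number in unary -/
theorem unary {g : α → ℕ} (hg : CF g) (hg' : PB g) : CF fun a => List.replicate (g a) () := by
  obtain ⟨k, h1, h2, h3⟩ := PB.exists_PT hg'
  have h4 : PT fun x : α × ℕ => List.replicate (min x.2 (k x.1)) () := by fun_prop
  exact ((of_PT h4).comp (id'.prodMk hg)).of_eq fun a => by simp [h3 a]

@[fun_prop] theorem range {g : α → ℕ} (hg : CF g) (hg' : PB g) :
    CF fun a => List.range (g a) :=
  ((of_PT (f := fun l : List Unit => List.range l.length) (by fun_prop)).comp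
    (unary hg hg')).of_eq fun a => by simp

@[fun_prop] theorem replicate {g : α → ℕ} {x : α → β} (hg : CF g) (hg' : PB g) (hx : CF x) :
    CF fun a => List.replicate (g a) (x a) :=
  ((of_PT (f := fun l : List Unit × β => List.replicate l.1.length l.2) (by fun_prop)).comp
    ((unary hg hg').prodMk hx)).of_eq fun a => by simp

@[fun_prop] theorem nat_pow {f g : α → ℕ} (hf : CF f) (hg : CF g) (hg' : PB g) :
    CF fun a => f a ^ g a :=
  ((of_PT (f := fun l : ℕ × List Unit => l.1 ^ l.2.length) (by fun_prop)).comp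
    (hf.prodMk (unary hg hg'))).of_eq fun a => by simp

@[fun_prop] theorem int_pow {f : α → ℤ} {g : α → ℕ} (hf : CF f) (hg : CF g) (hg' : PB g) :
    CF fun a => f a ^ g a :=
  ((of_PT (f := fun l : ℤ × List Unit => l.1 ^ l.2.length) (by fun_prop)).comp
    (hf.prodMk (unary hg hg'))).of_eq fun a => by simp

theorem cnt_mul (n B : ℕ) (f : ℕ → ℕ) (hf : ∀ i < n, f i ≤ B) :
    R316.cnt (n * B) (fun c => c % B < f (c / B)) = ∑ i ∈ Finset.range n, f i := by
  induction n with
  | zero => simp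
  | succ n ih =>
    rw [Nat.succ_mul, cnt_add, ih fun i hi => hf i (by omega), Finset.sum_range_succ,
      cnt_congr (Q := fun i => i < f n) fun i hi => by
        rw [mul_comm, Nat.mul_add_mod, Nat.mod_eq_of_lt hi, Nat.mul_add_div (by omega),
          Nat.div_eq_of_lt hi, add_zero], cnt_lt (hf n (by omega))]

/-- sums of exponentially many numbers -/
@[fun_prop] theorem sum_range {n : α → ℕ} {f : α → ℕ → ℕ} (hn : CF n)
    (hf : CF fun x : α × ℕ => f x.1 x.2) : CF fun a => ∑ i ∈ Finset.range (n a), f a i := by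
  obtain ⟨k, h1, h2, h3⟩ := hf.exists_unif hn
  have h4 : CF fun a => 2 ^ k a := of_PT (by fun_prop)
  have h5 : CF fun x : α × ℕ => f x.1 (x.2 / 2 ^ k x.1) :=
    hf.comp (f := fun x : α × ℕ => (x.1, x.2 / 2 ^ k x.1)) (of_PT (by fun_prop))
  have h6 : CF fun x : α × ℕ => x.2 % 2 ^ k x.1 := of_PT (by fun_prop)
  exact (cnt (n := fun a => n a * 2 ^ k a) (p := fun a c => c % 2 ^ k a < f a (c / 2 ^ k a))
    (by fun_prop) (by fun_prop)).of_eq fun a => cnt_mul _ _ _ fun i hi => (h3 a i hi.le).le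

/-- bounded minimisation (`0` when there is no witness) -/
theorem sInf {n : α → ℕ} {p : α → ℕ → Prop} (hn : CF n) (hp : CF fun x : α × ℕ => p x.1 x.2) :
    CF fun a => sInf {i | i < n a ∧ p a i} := by
  have h1 : CF fun x : α × ℕ => ∀ j < x.2, ¬ p x.1 j :=
    forall_lt (by fun_prop) (hp.comp (f := fun y : (α × ℕ) × ℕ => (y.1.1, y.2)) (by fun_prop)).not
  have h2 : CF fun a => ∃ i < n a, p a i := exists_lt hn hp
  refine of_rel (R := fun a v => (v < n a ∧ p a v ∧ ∀ j < v, ¬ p a j) ∨
    (v = 0 ∧ ¬ ∃ i < n a, p a i)) (hn.1.mono fun a => esize_nat_mono ?_) (by fun_prop)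
    fun a v => ?_
  · by_cases h : {i | i < n a ∧ p a i}.Nonempty
    · exact (Nat.sInf_mem h).1.le
    · rw [Set.not_nonempty_iff_eq_empty.1 h]; simp
  · by_cases h : {i | i < n a ∧ p a i}.Nonempty
    · have h3 := Nat.sInf_mem h
      have h4 : ∃ i < n a, p a i := h
      simp only [h4, not_true, and_false, or_false]
      constructor
      · rintro ⟨h5, h6, h7⟩
        exact le_antisymm (not_lt.1 fun h8 => h7 _ h8 h3.2) (Nat.sInf_le ⟨h5, h6⟩)
      · rintro rfl
        exact ⟨h3.1, h3.2, fun j hj h5 => Nat.notMem_of_lt_sInf hj ⟨hj.trans h3.1, h5⟩⟩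
    · have h4 : ¬ ∃ i < n a, p a i := h
      rw [Set.not_nonempty_iff_eq_empty.1 h]
      simp only [h4, not_false_eq_true, and_true, Nat.sInf_empty, or_iff_right_iff_imp]
      exact fun h5 => absurd ⟨v, h5.1, h5.2.1⟩ h4

/-- tables of polynomial length -/
theorem map_range [Dec β] {n : α → ℕ} {f : α → ℕ → β} (hn : CF n) (hn' : PB n)
    (hf : CF fun x : α × ℕ => f x.1 x.2) : CF fun a => (List.range (n a)).map (f a) := by
  obtain ⟨k, h1, h2, h3⟩ := PB.exists_unif hf.1 hn
  have h4 : CF fun x : α × List β => ∀ i < n x.1, x.2[i]? = some (f x.1 i) :=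
    forall_lt (by fun_prop) (by
      have : CF fun y : (α × List β) × ℕ => f y.1.1 y.2 :=
        hf.comp (f := fun y : (α × List β) × ℕ => (y.1.1, y.2)) (by fun_prop)
      fun_prop)
  refine of_rel (R := fun a l => l.length = n a ∧ ∀ i < n a, l[i]? = some (f a i))
    (((hn'.mul (h2.add (PB.const 1))).add (PB.const 1)).mono fun a => ?_) (by fun_prop)
    fun a l => ⟨fun h => ?_, ?_⟩
  · have := esize_list_le (l := (List.range (n a)).map (f a)) (B := k a) fun b hb => by
      obtain ⟨i, hi, rfl⟩ := List.mem_map.1 hb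
      exact h3 a i (List.mem_range.1 hi).le
    simpa using this
  · refine List.ext_getElem? fun i => ?_
    by_cases hi : i < n a
    · rw [h.2 i hi]; simp [hi]
    · rw [List.getElem?_eq_none (by omega), List.getElem?_eq_none (by simpa using hi)]
  · rintro rfl
    exact ⟨by simp, fun i hi => by simp [hi]⟩

@[fun_prop] theorem map [Inhabited β] [Dec γ] {l : α → List β} {f : α → β → γ} (hl : CF l)
    (hf : CF fun x : α × β => f x.1 x.2) : CF fun a => (l a).map (f a) :=
  (map_range (n := fun a => (l a).length) (f := fun a i => f a ((l a).getD i default))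
    (by fun_prop) (PB.lengthCF hl)
    (hf.comp (f := fun x : α × ℕ => (x.1, (l x.1).getD x.2 default)) (by fun_prop))).of_eq
    fun a => List.ext_getElem (by simp) fun i h1 h2 => by
      simp only [List.length_map, List.length_range] at h1
      simp [h1]

@[fun_prop] theorem exists_mem [Inhabited β] {l : α → List β} {p : α → β → Prop} (hl : CF l)
    (hp : CF fun x : α × β => p x.1 x.2) : CF fun a => ∃ b ∈ l a, p a b :=
  (exists_lt (n := fun a => (l a).length) (p := fun a i => p a ((l a).getD i default))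
    (by fun_prop)
    (hp.comp (f := fun x : α × ℕ => (x.1, (l x.1).getD x.2 default)) (by fun_prop))).of_iff
    fun a => by
      constructor
      · rintro ⟨i, hi, h⟩
        exact ⟨_, List.getElem_mem hi, by simpa [hi] using h⟩
      · rintro ⟨b, hb, h⟩
        obtain ⟨i, hi, rfl⟩ := List.getElem_of_mem hb
        exact ⟨i, hi, by simpa [hi] using h⟩

theorem forall_mem [Inhabited β] {l : α → List β} {p : α → β → Prop} (hl : CF l)
    (hp : CF fun x : α × β => p x.1 x.2) : CF fun a => ∀ b ∈ l a, p a b :=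
  (exists_mem (p := fun a b => ¬ p a b) hl hp.not).not.of_iff fun _ => by simp

end CF

/-- the `n` lowest digits of `c` in base `K` -/
def digs (K n c : ℕ) : List ℕ := (List.range n).map fun i => c / K ^ i % K

@[simp] theorem length_digs (K n c : ℕ) : (digs K n c).length = n := by simp [digs]

@[fun_prop] theorem CF.digs {K n c : α → ℕ} (hK : CF K) (hn : CF n) (hn' : PB n) (hc : CF c) :
    CF fun a => digs (K a) (n a) (c a) := by
  have h : PT fun x : ℕ × List Unit × ℕ =>
      (List.range x.2.1.length).map fun i => x.2.2 / x.1 ^ min i x.2.1.length % x.1 := by fun_prop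
  refine ((CF.of_PT h).comp (hK.prodMk ((CF.unary hn hn').prodMk hc))).of_eq fun a => ?_
  simp only [List.length_replicate, R316.digs]
  exact List.map_congr_left fun i hi => by rw [min_eq_left (List.mem_range.1 hi).le]

theorem digs_symm (K n : ℕ) (c : Fin (K ^ n)) :
    digs K n c = List.ofFn fun i => ((finFunctionFinEquiv.symm c : Fin n → Fin K) i : ℕ) :=
  (ofFn_eq_map_range _ _ fun _ => rfl).symm

/-- sums over tuples are sums over numbers -/
theorem sum_digs {M : Type} [AddCommMonoid M] (K n : ℕ) (F : List ℕ → M) :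
    ∑ c ∈ Finset.range (K ^ n), F (digs K n c) =
      ∑ κ : Fin n → Fin K, F (List.ofFn fun i => (κ i : ℕ)) := by
  rw [Finset.sum_range, ← Equiv.sum_comp finFunctionFinEquiv.symm]
  exact Finset.sum_congr rfl fun c _ => by rw [digs_symm]

theorem prod_digs {M : Type} [CommMonoid M] (K n : ℕ) (F : List ℕ → M) :
    ∏ c ∈ Finset.range (K ^ n), F (digs K n c) =
      ∏ κ : Fin n → Fin K, F (List.ofFn fun i => (κ i : ℕ)) := by
  rw [Finset.prod_range, ← Equiv.prod_comp finFunctionFinEquiv.symm]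
  exact Finset.prod_congr rfl fun c _ => by rw [digs_symm]

theorem exists_digs (K n : ℕ) (P : List ℕ → Prop) :
    (∃ c < K ^ n, P (digs K n c)) ↔ ∃ κ : Fin n → Fin K, P (List.ofFn fun i => (κ i : ℕ)) := by
  constructor
  · rintro ⟨c, hc, h⟩
    exact ⟨_, digs_symm K n ⟨c, hc⟩ ▸ h⟩
  · rintro ⟨κ, h⟩
    refine ⟨finFunctionFinEquiv κ, (finFunctionFinEquiv κ).2, ?_⟩
    rw [digs_symm, Equiv.symm_apply_apply]
    exact h

theorem forall_digs (K n : ℕ) (P : List ℕ → Prop) :
    (∀ c < K ^ n, P (digs K n c)) ↔ ∀ κ : Fin n → Fin K, P (List.ofFn fun i => (κ i : ℕ)) := by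
  have := exists_digs K n fun l => ¬ P l
  constructor
  · intro h κ
    by_contra h'
    obtain ⟨c, hc, h''⟩ := this.2 ⟨κ, h'⟩
    exact h'' (h c hc)
  · intro h c hc
    by_contra h'
    obtain ⟨κ, h''⟩ := this.1 ⟨c, hc, h'⟩
    exact h'' (h κ)

section tests
example {f : α × ℕ → ℕ} {n : α → ℕ} (hf : CF f) (hn : CF n) :
    CF fun a => (∑ i ∈ Finset.range (n a + 3), if f (a, i) % 2 = 0 then i * f (a, i + 1) else 7) / 2 := by
  fun_prop
example {f : α → ℕ → ℕ} {n : α → ℕ} (hf : CF fun x : α × ℕ => f x.1 x.2) (hn : CF n) :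
    CF fun a => ∃ i < n a, ∃ j < i, f a j + j = f a i := by
  fun_prop
end tests

end Crest.Agent.R316
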