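import Crest.Agent.Lib.PolyTime.More
import Crest.Prelude.Def_CountHier

/-!
# Row 316 (S0488): the counting hierarchy over encodable types  (owner helper1)

`CHl j α P`: internal levels (threshold counting over numbers); `CH P = ∃ j, CHl j α P`;
`CF f`: functions (and predicates, `β = Prop`) computable in the counting hierarchy; a `fun_prop`
property, every `PT` function is `CF`.
-/

set_option autoImplicit false

namespace Crest.Agent.R316

open Crest.Agent.Lib.PolyTime

open Classical in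
/-- number of `i < n` with `P i` -/
noncomputable def cnt (n : ℕ) (P : ℕ → Prop) : ℕ := ((Finset.range n).filter P).card

theorem cnt_le (n : ℕ) (P : ℕ → Prop) : cnt n P ≤ n := by
  classical
  exact (Finset.card_filter_le _ _).trans (by simp)

theorem cnt_congr {n : ℕ} {P Q : ℕ → Prop} (h : ∀ i < n, P i ↔ Q i) : cnt n P = cnt n Q := by
  unfold cnt
  congr 1
  ext i
  simp only [Finset.mem_filter, Finset.mem_range]
  exact ⟨fun h' => ⟨h'.1, (h i h'.1).1 h'.2⟩, fun h' => ⟨h'.1, (h i h'.1).2 h'.2⟩⟩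

theorem cnt_eq_card (n : ℕ) (P : ℕ → Prop) [DecidablePred P] :
    cnt n P = ((Finset.range n).filter P).card := by
  unfold cnt; congr

theorem cnt_eq_sum (n : ℕ) (P : ℕ → Prop) [DecidablePred P] :
    cnt n P = ∑ i ∈ Finset.range n, if P i then 1 else 0 := by
  rw [cnt_eq_card, Finset.card_filter]

@[simp] theorem cnt_zero (P : ℕ → Prop) : cnt 0 P = 0 := by simp [cnt]

theorem cnt_succ (n : ℕ) (P : ℕ → Prop) [Decidable (P n)] :
    cnt (n + 1) P = cnt n P + if P n then 1 else 0 := by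
  classical
  rw [cnt_eq_sum, cnt_eq_sum, Finset.sum_range_succ]
  congr

theorem cnt_add (m n : ℕ) (P : ℕ → Prop) :
    cnt (m + n) P = cnt m P + cnt n fun i => P (m + i) := by
  classical
  rw [cnt_eq_sum, cnt_eq_sum, cnt_eq_sum, Finset.sum_range_add]

theorem cnt_not (n : ℕ) (P : ℕ → Prop) : cnt n P + cnt n (fun i => ¬ P i) = n := by
  classical
  rw [cnt_eq_card, cnt_eq_card, Finset.card_filter_add_card_filter_not]
  simp

theorem cnt_pos {n : ℕ} {P : ℕ → Prop} : 0 < cnt n P ↔ ∃ i < n, P i := by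
  classical
  rw [cnt_eq_card, Finset.card_pos]
  simp [Finset.Nonempty]

theorem cnt_lt {n t : ℕ} (h : t ≤ n) : cnt n (fun i => i < t) = t := by
  rw [cnt_eq_card]
  have : (Finset.range n).filter (fun i => i < t) = Finset.range t := by
    ext i; simp only [Finset.mem_filter, Finset.mem_range]; omega
  rw [this, Finset.card_range]

theorem cnt_and_lt {n m : ℕ} (h : n ≤ m) (P : ℕ → Prop) :
    cnt m (fun i => i < n ∧ P i) = cnt n P := by
  unfold cnt
  congr 1
  ext i
  simp only [Finset.mem_filter, Finset.mem_range]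
  exact ⟨fun h' => h'.2, fun h' => ⟨by omega, h'⟩⟩

/-- internal levels of the counting hierarchy -/
def CHl : ℕ → ∀ (α : Type) [Enc α], (α → Prop) → Prop
  | 0, _, _, P => PT P
  | j + 1, α, _, P => ∃ (Q : α × ℕ → Prop) (n t : α → ℕ), CHl j (α × ℕ) Q ∧ PT n ∧ PT t ∧
      ∀ a, P a ↔ t a < cnt (n a) fun i => Q (a, i)

namespace CHl

theorem comp : ∀ (j : ℕ) {α β : Type} [Enc α] [Enc β] {P : β → Prop} {f : α → β},
    CHl j β P → PT f → CHl j α fun a => P (f a)
  | 0, _, _, _, _, _, _, h, hf => PT.comp h hf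
  | j + 1, α, _, _, _, _, f, ⟨Q, n, t, hQ, hn, ht, h⟩, hf =>
    ⟨fun p : α × ℕ => Q (f p.1, p.2), fun a => n (f a), fun a => t (f a),
      comp j hQ (by fun_prop), hn.comp hf, ht.comp hf, fun a => h (f a)⟩

theorem congr {j : ℕ} {α : Type} [Enc α] {P Q : α → Prop} (h : CHl j α P) (e : ∀ a, P a ↔ Q a) :
    CHl j α Q := (funext fun a => propext (e a) : P = Q) ▸ h

theorem succ {j : ℕ} {α : Type} [Enc α] {P : α → Prop} (h : CHl j α P) : CHl (j + 1) α P :=
  ⟨fun p => P p.1, fun _ => 1, fun _ => 0, comp j h (by fun_prop), by fun_prop, by fun_prop,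
    fun a => by rw [cnt_pos]; simp⟩

theorem mono {j j' : ℕ} {α : Type} [Enc α] {P : α → Prop} (h : CHl j α P) (hj : j ≤ j') :
    CHl j' α P := by
  induction hj with
  | refl => exact h
  | step _ ih => exact ih.succ

theorem of_PT (j : ℕ) {α : Type} [Enc α] {P : α → Prop} (h : PT P) : CHl j α P :=
  mono (j := 0) h (Nat.zero_le j)

theorem ite : ∀ (j : ℕ) {α : Type} [Enc α] {c P P' : α → Prop}, PT c → CHl j α P → CHl j α P' →
    CHl j α fun a => (c a ∧ P a) ∨ (¬ c a ∧ P' a)
  | 0, _, _, _, _, _, hc, h, h' => by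
    have h1 : PT _ := h
    have h2 : PT _ := h'
    show PT _
    fun_prop
  | j + 1, α, _, c, P, P', hc, ⟨Q, n, t, hQ, hn, ht, h⟩, ⟨Q', n', t', hQ', hn', ht', h'⟩ => by
    classical
    refine ⟨fun p : α × ℕ => (c p.1 ∧ Q p) ∨ (¬ c p.1 ∧ Q' p), fun a => if c a then n a else n' a,
      fun a => if c a then t a else t' a, ite j (by fun_prop) hQ hQ', by fun_prop, by fun_prop,
      fun a => ?_⟩
    by_cases hca : c a <;> simp [hca, h, h']

theorem not : ∀ (j : ℕ) {α : Type} [Enc α] {P : α → Prop}, CHl j α P → CHl j α fun a => ¬ P a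
  | 0, _, _, _, h => PT.not h
  | j + 1, α, _, P, ⟨Q, n, t, hQ, hn, ht, h⟩ => by
    classical
    refine ⟨fun p : α × ℕ => (p.2 = n p.1 ∧ True) ∨ (¬ p.2 = n p.1 ∧ ¬ Q p), fun a => n a + 1,
      fun a => n a - t a, ite j (by fun_prop) (of_PT j (by fun_prop)) (not j hQ), by fun_prop,
      by fun_prop, fun a => ?_⟩
    rw [cnt_succ, cnt_congr (Q := fun i => ¬ Q (a, i)) fun i hi => by simp [hi.ne]]
    have h1 := cnt_not (n a) fun i => Q (a, i)
    simp only [and_true, true_or, if_true, h]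
    omega

theorem and {j : ℕ} {α : Type} [Enc α] {P P' : α → Prop} (h : CHl j α P) (h' : CHl j α P') :
    CHl (j + 1) α fun a => P a ∧ P' a := by
  classical
  refine ⟨fun p : α × ℕ => (p.2 = 0 ∧ P p.1) ∨ (¬ p.2 = 0 ∧ P' p.1), fun _ => 2, fun _ => 1,
    ite j (by fun_prop) (comp j h (by fun_prop)) (comp j h' (by fun_prop)), by fun_prop,
    by fun_prop, fun a => ?_⟩
  rw [cnt_succ, cnt_succ]
  by_cases h1 : P a <;> by_cases h2 : P' a <;> simp [h1, h2]

end CHl

/-- predicates in the counting hierarchy -/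
def CH {α : Type} [Enc α] (P : α → Prop) : Prop := ∃ j, CHl j α P

namespace CH
variable {α β : Type} [Enc α] [Enc β] {P P' : α → Prop}

theorem of_PT (h : PT P) : CH P := ⟨0, h⟩
theorem comp {Q : β → Prop} {f : α → β} (h : CH Q) (hf : PT f) : CH fun a => Q (f a) :=
  let ⟨j, h⟩ := h; ⟨j, h.comp j hf⟩
theorem congr (h : CH P) (e : ∀ a, P a ↔ P' a) : CH P' := let ⟨j, h⟩ := h; ⟨j, h.congr e⟩
theorem not (h : CH P) : CH fun a => ¬ P a := let ⟨j, h⟩ := h; ⟨j, h.not j⟩
theorem and (h : CH P) (h' : CH P') : CH fun a => P a ∧ P' a :=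
  let ⟨j, h⟩ := h; let ⟨j', h'⟩ := h'
  ⟨max j j' + 1, (h.mono (le_max_left _ _)).and (h'.mono (le_max_right _ _))⟩
theorem or (h : CH P) (h' : CH P') : CH fun a => P a ∨ P' a :=
  (h.not.and h'.not).not.congr fun _ => by tauto
theorem lt_cnt {Q : α × ℕ → Prop} {n t : α → ℕ} (hQ : CH Q) (hn : PT n) (ht : PT t) :
    CH fun a => t a < cnt (n a) fun i => Q (a, i) :=
  let ⟨j, h⟩ := hQ; ⟨j + 1, Q, n, t, h, hn, ht, fun _ => Iff.rfl⟩
theorem exists_lt {Q : α × ℕ → Prop} {n : α → ℕ} (hQ : CH Q) (hn : PT n) :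
    CH fun a => ∃ i < n a, Q (a, i) :=
  (hQ.lt_cnt hn (PT.const 0)).congr fun _ => cnt_pos

end CH

/-! ### The bridge to `Crest.CountHier.level` -/

theorem PT.esize' {α β : Type} [Enc α] [Enc β] {f : α → β} (hf : PT f) :
    PT fun a => esize (f a) := hf.encBits.length.of_eq fun _ => Tr.length_bits _

/-- inverse of `pairBits` -/
def unpairBits (z : List Bool) : List Bool × List Bool :=
  (((pairUp (z ++ [false])).takeWhile fun q => q.1).map Prod.snd,
    z.drop (2 * ((pairUp (z ++ [false])).takeWhile fun q => q.1).length + 1))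

theorem unpairBits_pt : PT unpairBits := by unfold unpairBits; fun_prop

theorem unpairBits_pairBits (x y : List Bool) :
    unpairBits (Crest.CountHier.pairBits x y) = (x, y) := by
  have key : ∀ l : List Bool, (pairUp ((l.flatMap fun b => [true, b]) ++ false :: y ++ [false])).takeWhile
      (fun q => q.1) = l.map fun b => (true, b) := by
    intro l
    induction l with
    | nil => cases y <;> simp [pairUp_cons_cons]
    | cons b l ih =>
      simp only [List.flatMap_cons, List.cons_append, List.nil_append, pairUp_cons_cons,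
        List.map_cons] at ih ⊢
      rw [List.takeWhile_cons_of_pos (by simp), ih]
  have hl : (x.flatMap fun b => [true, b]).length = 2 * x.length := by
    simp [List.length_flatMap, Nat.mul_comm]
  unfold unpairBits Crest.CountHier.pairBits
  rw [key]
  simp [Function.comp_def, List.drop_append, hl]

theorem ofBits_injOn : ∀ (y y' : List Bool), y.length = y'.length → ofBits y = ofBits y' → y = y'
  | [], [], _, _ => rfl
  | [], _ :: _, h, _ => by simp at h
  | _ :: _, [], h, _ => by simp at h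
  | b :: y, b' :: y', h, e => by
    simp only [ofBits_cons] at e
    have h1 := congrArg Nat.bodd e
    have h2 := congrArg Nat.div2 e
    simp only [Nat.bodd_bit, Nat.div2_bit] at h1 h2
    rw [h1, ofBits_injOn y y' (by simpa using h) h2]

theorem exists_ofBits : ∀ (m i : ℕ), i < 2 ^ m → ∃ y : List Bool, y.length = m ∧ ofBits y = i
  | 0, i, h => ⟨[], rfl, by simp at h; simp [h]⟩
  | m + 1, i, h => by
    obtain ⟨y, h1, h2⟩ := exists_ofBits m i.div2 (by rw [Nat.div2_val]; omega)
    exact ⟨i.bodd :: y, by simp [h1], by simp [h2, Nat.bit_bodd_div2]⟩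

theorem ncard_eq_cnt (m : ℕ) (P : ℕ → Prop) :
    {y : List Bool | y.length = m ∧ P (ofBits y)}.ncard = cnt (2 ^ m) P := by
  classical
  rw [cnt_eq_card, ← Set.ncard_coe_finset]
  refine Set.ncard_congr (fun y _ => ofBits y) (fun y hy => ?_) (fun y y' hy hy' e => ?_)
    fun i hi => ?_
  · simp only [Finset.coe_filter, Finset.mem_range, Set.mem_ofPred_eq]
    exact ⟨hy.1 ▸ ofBits_lt y, hy.2⟩
  · exact ofBits_injOn y y' (hy.1.trans hy'.1.symm) e
  · simp only [Finset.coe_filter, Finset.mem_range, Set.mem_ofPred_eq] at hi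
    obtain ⟨y, h1, h2⟩ := exists_ofBits m i hi.1
    exact ⟨y, ⟨h1, h2 ▸ hi.2⟩, h2⟩

theorem CHl.mem_level : ∀ (j : ℕ) {P : List Bool → Prop}, CHl j (List Bool) P →
    {w | P w} ∈ Crest.CountHier.level j
  | 0, _, h => PT.inP h
  | j + 1, P, ⟨Q, n, t, hQ, hn, ht, h⟩ => by
    classical
    obtain ⟨k, hk⟩ : PB fun x => esize (n x) + esize (t x) := by fun_prop
    let R : List Bool × List Bool → Prop := fun p =>
      (ofBits p.2 < 2 ^ (p.2.length - 1) ∧ ((ofBits p.2 < n p.1 ∧ Q (p.1, ofBits p.2)) ∨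
        (¬ ofBits p.2 < n p.1 ∧ False))) ∨
      (¬ ofBits p.2 < 2 ^ (p.2.length - 1) ∧ ¬ (ofBits p.2 - 2 ^ (p.2.length - 1) < t p.1))
    have hR : CHl j _ R := CHl.ite j (by fun_prop) (CHl.ite j (by fun_prop)
      (hQ.comp j (f := fun p : List Bool × List Bool => (p.1, ofBits p.2)) (by fun_prop))
      (CHl.of_PT j (by fun_prop))) (CHl.of_PT j (by fun_prop))
    refine ⟨_, CHl.mem_level j (hR.comp j unpairBits_pt), (4 * Polynomial.X + 2) ^ k + 1,
      fun x => ?_⟩
    have hm : esize (n x) + esize (t x) ≤ (4 * x.length + 2) ^ k :=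
      (hk x).trans (Nat.pow_le_pow_left (by have := esize_boolList_le x; omega) k)
    have he : ((4 * Polynomial.X + 2) ^ k + 1 : Polynomial ℕ).eval x.length =
        (4 * x.length + 2) ^ k + 1 := by simp
    rw [he]
    generalize (4 * x.length + 2) ^ k = m at hm
    have hn' : n x ≤ 2 ^ m := (lt_two_pow_esize _).le.trans (Nat.pow_le_pow_right (by omega) (by omega))
    have ht' : t x ≤ 2 ^ m := (lt_two_pow_esize _).le.trans (Nat.pow_le_pow_right (by omega) (by omega))
    have e : {y : List Bool | y.length = m + 1 ∧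
        Crest.CountHier.pairBits x y ∈ {w | R (unpairBits w)}} =
        {y : List Bool | y.length = m + 1 ∧ (fun i => (i < 2 ^ m ∧ i < n x ∧ Q (x, i)) ∨
          (¬ i < 2 ^ m ∧ ¬ (i - 2 ^ m < t x))) (ofBits y)} := by
      ext y
      simp only [Set.mem_ofPred_eq, unpairBits_pairBits, R]
      refine and_congr_right fun hy => ?_
      simp [hy]
    rw [e, ncard_eq_cnt (m + 1) fun i => (i < 2 ^ m ∧ i < n x ∧ Q (x, i)) ∨
          (¬ i < 2 ^ m ∧ ¬ (i - 2 ^ m < t x)), pow_succ, mul_two, cnt_add,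
      cnt_congr (Q := fun i => i < n x ∧ Q (x, i)) fun i hi => by simp [hi],
      cnt_and_lt hn', cnt_congr (P := fun i => _ ∨ _) (Q := fun i => ¬ i < t x)
        fun i hi => by simp]
    have h1 := cnt_not (2 ^ m) fun i => i < t x
    rw [cnt_lt ht'] at h1
    rw [Set.mem_ofPred_eq, h]
    omega

end Crest.Agent.R316
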