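import Crest.Agent.R316.Coeff

/-!
# Row 316 (S0488): Gsig
The small witness theorem.
`exists_gsig`: split the variables by `sp = eval₂Hom (Int.castRingHom _)
(fun i => if i < n + n then (if i < n then C (X i) else X (i - n)) else 0)` (`EH.mvEval₂`), `P t = sp (p (a,t))`,
digit `s t = σ / 3^t % 3`, `G (a,σ) = ∑_{t<n} (if s t = 0 then P t else if s t = 1 then P t * X (n+t)^2 - 1
else P t * X (n+t)^2 + 1)^2`; (`s t = (digs 3 n σ).getD t 0`; for the converse use `exists_digs` and
`τ_t = 1/√|P t|`).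
`exists_witness`: `T x := ∀ y, B (sg x y)` is equivalent to `∀ σ < 3^n, (∃ z, G_σ(x; z) = 0) → B (digs 3 n σ)`;
apply `exists_strata`, `exists_psi1`, `exists_psi2` (inner variables: `n + n`).
-/

set_option autoImplicit false

open Polynomial Filter Topology

noncomputable section

namespace Crest.Agent.R316

open Crest.Agent.Lib.PolyTime
variable {α R S : Type} [Enc α] [CommRing R] [PR R] [CommRing S] [PR S]


/-- the list of the sign codes -/
def sgl {n : ℕ} (p : ℕ → MvPolynomial ℕ ℤ) (x y : Fin n → ℝ) : List ℕ :=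
  List.ofFn fun t : Fin n => sgc (ivl (Fin.append x y) (p t))

/-- splitting the variables into coefficients and inner variables -/
def gsigSp (n : ℕ) : MvPolynomial ℕ ℤ →+* MvPolynomial ℕ (MvPolynomial ℕ ℤ) :=
  MvPolynomial.eval₂Hom (Int.castRingHom _) fun i => if i < n + n then
    (if i < n then MvPolynomial.C (MvPolynomial.X i) else MvPolynomial.X (i - n)) else 0

/-- the equation which expresses a sign condition -/
def gsigT {K : Type} [CommRing K] (s : ℕ) (P τ : K) : K :=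
  if s = 0 then P else if s = 1 then P * τ ^ 2 - 1 else P * τ ^ 2 + 1

theorem gsig_map {K L : Type} [CommRing K] [CommRing L] (φ : K →+* L) (s : ℕ) (P τ : K) :
    φ (gsigT s P τ) = gsigT s (φ P) (φ τ) := by
  unfold gsigT
  split_ifs <;> simp

theorem gsig_evl_sp {n : ℕ} (x : Fin n → ℝ) (z : Fin (n + n) → ℝ) (f : MvPolynomial ℕ ℤ) :
    evl (ivl x) z (gsigSp n f) = ivl (Fin.append x fun i => z (Fin.castAdd n i)) f := by
  have : (evl (ivl x) z).comp (gsigSp n) = ivl (Fin.append x fun i => z (Fin.castAdd n i)) := by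
    refine MvPolynomial.ringHom_ext (fun r => by simp) fun i => ?_
    rw [RingHom.comp_apply, gsigSp, MvPolynomial.eval₂Hom_X', evl_X]
    split_ifs with h1 h2
    · rw [evl_C, evl_X, ext0_append_left _ _ h2]
    · obtain ⟨j, rfl⟩ := Nat.exists_eq_add_of_le (not_lt.1 h2)
      have hj : j < n := by omega
      rw [evl_X, Nat.add_sub_cancel_left, ext0_append_right, ext0_of_lt _ hj,
        ext0_of_lt _ (show j < n + n by omega)]
      rfl
    · rw [map_zero, ext0_of_le _ (not_lt.1 h1)]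
  exact RingHom.congr_fun this f

theorem gsig_lt (P : ℝ) : sgc P < 3 := by
  unfold sgc
  split_ifs <;> norm_num

theorem gsig_sgc {s : ℕ} (hs : s < 3) {P τ : ℝ} (h : gsigT s P τ = 0) : sgc P = s := by
  unfold gsigT at h
  unfold sgc
  have h0 := sq_nonneg τ
  split_ifs at h with h1 h2
  · simp [h, h1]
  · rw [if_pos (by by_contra h3; nlinarith), h2]
  · have h3 : P < 0 := by
      by_contra h3
      nlinarith
    rw [if_neg h3.not_gt, if_pos h3]
    omega

theorem gsig_exists (P : ℝ) : ∃ τ, gsigT (sgc P) P τ = 0 := by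
  unfold gsigT sgc
  rcases lt_trichotomy P 0 with h | h | h
  · refine ⟨Real.sqrt (-P)⁻¹, ?_⟩
    rw [if_neg h.not_gt, if_pos h, if_neg (by norm_num), if_neg (by norm_num),
      Real.sq_sqrt (inv_nonneg.2 (by linarith)), inv_neg, mul_neg, mul_inv_cancel₀ h.ne,
      neg_add_cancel]
  · exact ⟨0, by simp [h]⟩
  · refine ⟨Real.sqrt P⁻¹, ?_⟩
    rw [if_pos h, if_neg (by norm_num), if_pos rfl, Real.sq_sqrt (inv_nonneg.2 h.le),
      mul_inv_cancel₀ h.ne', sub_self]

theorem exists_gsig {n : α → ℕ} {p : α × ℕ → MvPolynomial ℕ ℤ} (hn : CF n) (hn' : PB n)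
    (hp : EV p) : ∃ G : α × ℕ → MvPolynomial ℕ (MvPolynomial ℕ ℤ), EV G ∧ ∀ a,
      (∀ σ (x : Fin (n a) → ℝ) (z : Fin (n a + n a) → ℝ), 0 ≤ evl (ivl x) z (G (a, σ))) ∧
      (∀ σ (x : Fin (n a) → ℝ) (z : Fin (n a + n a) → ℝ), evl (ivl x) z (G (a, σ)) = 0 →
        sgl (fun t => p (a, t)) x (fun i => z (Fin.castAdd (n a) i)) = digs 3 (n a) σ) ∧
      ∀ x y : Fin (n a) → ℝ, ∃ σ < 3 ^ n a, ∃ z : Fin (n a + n a) → ℝ,
        (fun i => z (Fin.castAdd (n a) i)) = y ∧ evl (ivl x) z (G (a, σ)) = 0 := by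
  have hd : CF fun x : (α × ℕ) × ℕ => (digs 3 (n x.1.1) x.1.2).getD x.2 0 :=
    (CF.of_PT (f := fun z : List ℕ × ℕ => z.1.getD z.2 0) (by fun_prop)).comp
      ((CF.digs (CF.const 3) (hn.comp (by fun_prop)) (hn'.comp (by fun_prop))
        (by fun_prop)).prodMk (by fun_prop))
  have hsp : EH fun a : α => gsigSp (n a) :=
    EH.mvEval₂ (m := fun a => n a + n a)
      (g := fun a i => if i < n a then MvPolynomial.C (MvPolynomial.X i) else MvPolynomial.X (i - n a))
      EH.intCast (by fun_prop) (hn'.add hn')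
      (EV.ite (by fun_prop) (EV.mvC (EV.mvX (by fun_prop))) (EV.mvX (by fun_prop)))
  have hP : EV fun x : (α × ℕ) × ℕ => gsigSp (n x.1.1) (p (x.1.1, x.2)) :=
    EV.hom (hsp.reindex (f := fun x : (α × ℕ) × ℕ => x.1.1) (by fun_prop)) (hp.comp (by fun_prop))
  have hX : EV fun x : (α × ℕ) × ℕ =>
      (MvPolynomial.X (n x.1.1 + x.2) : MvPolynomial ℕ (MvPolynomial ℕ ℤ)) := EV.mvX (by fun_prop)
  have hQ := hP.mul (hX.pow (CF.const 2))
  refine ⟨fun x => ∑ t ∈ Finset.range (n x.1), gsigT ((digs 3 (n x.1) x.2).getD t 0)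
    (gsigSp (n x.1) (p (x.1, t))) (MvPolynomial.X (n x.1 + t)) ^ 2,
    EV.sum_range (hn.comp (by fun_prop)) (EV.pow ?_ (CF.const 2)), fun a => ?_⟩
  · exact EV.ite ((CF.of_PT (f := fun z : ℕ => z = 0) (by fun_prop)).comp hd) hP
      (EV.ite ((CF.of_PT (f := fun z : ℕ => z = 1) (by fun_prop)).comp hd)
        (hQ.sub (EV.const 1)) (hQ.add (EV.const 1)))
  simp only [map_sum, map_pow, gsig_map, gsig_evl_sp, evl_X]
  refine ⟨fun σ x z => Finset.sum_nonneg fun t _ => sq_nonneg _, fun σ x z h => ?_, fun x y => ?_⟩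
  · refine List.ext_getElem (by simp [sgl]) fun t h1 h2 => ?_
    have ht : t < n a := by simpa using h2
    have h3 := (Finset.sum_eq_zero_iff_of_nonneg fun t _ => sq_nonneg _).1 h t
      (Finset.mem_range.2 ht)
    rw [List.getD_eq_getElem _ _ h2] at h3
    simp only [sgl, List.getElem_ofFn]
    refine gsig_sgc ?_ (pow_eq_zero_iff (by norm_num) |>.1 h3)
    simp only [digs, List.getElem_map]
    exact Nat.mod_lt _ (by norm_num)
  · obtain ⟨σ, hσ, h⟩ := (exists_digs 3 (n a) fun l => l = sgl (fun t => p (a, t)) x y).2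
      ⟨fun t => ⟨sgc (ivl (Fin.append x y) (p (a, t))), gsig_lt _⟩, rfl⟩
    choose τ hτ using gsig_exists
    have e : (fun i => Fin.append y (fun t : Fin (n a) => τ (ivl (Fin.append x y) (p (a, t))))
        (Fin.castAdd (n a) i)) = y := funext fun i => Fin.append_left _ _ i
    refine ⟨σ, hσ, Fin.append y fun t => τ (ivl (Fin.append x y) (p (a, t))), e,
      Finset.sum_eq_zero fun t ht => ?_⟩
    have ht' := Finset.mem_range.1 ht
    rw [e, h, ext0_append_right, ext0_of_lt _ ht', List.getD_eq_getElem _ _ (by simpa [sgl] using ht')]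
    simp only [sgl, List.getElem_ofFn, hτ]
    norm_num

end Crest.Agent.R316
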