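import Crest.Agent.R316.Syntax
import Crest.Agent.R316.Gsig

/-!
# Row 316 (S0488): Circuit
The polynomials of the atoms, with the variables renamed to small indices.
`cpoly_ev`: use `EV.mv_iff`.  `E (a,p,l,_)` is the last entry of the fold over the gates computing the residues
`% p` in `ℕ` (`-v` is `(p-1) v`; `PT.foldl_inv`/`foldl_grow`, entries `< p` or `p = 0`: reduce modulo `p - 1 + 1`);
its entries cast to `ZMod p` are `cVals` in `ZMod p`, use `map_cVal`.  Norm: with `B = 2^(esize c + 1)` all entries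
of `cVals` of a circuit prefix of length `t` have norm `≤ B^(2^t)`.
`isTrue_iff`: (→) from `x₀ : Fin r → ℝ` take `x j = extend x₀ ((nums d).getD j 0)`, from `y` take
`y₀ i = ext0 y (idxOf i)`; (←) symmetrically; `cVal_congr`, `holds_iff`, `map_cVal` with `ivl (Fin.append x y)`,
`ext0_append_left/right`.  (For items with an empty circuit all values are `0`.)
-/

set_option autoImplicit false

noncomputable section

namespace Crest.Agent.R316

open Crest.Agent.Lib.PolyTime Crest.RealEA

/-- all first arguments of gates -/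
def nums (d : Data) : List ℕ := d.2.2.flatMap fun it => it.2.map fun g => g.2.1

/-- number of variables of each kind and of atoms -/
def nvar (d : Data) : ℕ := (nums d).length + d.2.2.length

/-- polynomial of the `t`-th item -/
def cpoly (d : Data) (t : ℕ) : MvPolynomial ℕ ℤ :=
  cVal (fun i => MvPolynomial.X ((nums d).idxOf i))
    (fun i => MvPolynomial.X (nvar d + (nums d).idxOf i)) (d.2.2.getD t (0, [])).2

/-- truth value of the formula given the sign codes -/
def bform (d : Data) (l : List ℕ) : Prop :=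
  (evalF ((d.2.2.map Prod.fst).zip l)).headD false = true

theorem circuit_map_gtVal {K K' : Type} [CommRing K] [CommRing K'] (φ : K →+* K') (x y : ℕ → K)
    (prev : List K) (g : Gt) :
    φ (gtVal x y prev g) = gtVal (fun i => φ (x i)) (fun i => φ (y i)) (prev.map φ) g := by
  have h : ∀ i, (prev.map φ).getD i 0 = φ (prev.getD i 0) := fun i => by
    rw [← List.getD_map prev 0 φ, map_zero]
  unfold gtVal
  simp only [h]
  split_ifs <;> simp only [map_natCast, map_neg, map_add, map_sub, map_mul]

theorem circuit_foldl_map {K K' : Type} [CommRing K] [CommRing K'] (φ : K →+* K') (x y : ℕ → K)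
    (c : List Gt) (prev : List K) :
    (c.foldl (fun p g => p ++ [gtVal x y p g]) prev).map φ =
      c.foldl (fun p g => p ++ [gtVal (fun i => φ (x i)) (fun i => φ (y i)) p g]) (prev.map φ) := by
  induction c generalizing prev with
  | nil => rfl
  | cons g c ih =>
    rw [List.foldl_cons, List.foldl_cons, ih, List.map_append, List.map_singleton,
      circuit_map_gtVal]

theorem map_cVal {K K' : Type} [CommRing K] [CommRing K'] (φ : K →+* K') (x y : ℕ → K)
    (c : List Gt) : φ (cVal x y c) = cVal (fun i => φ (x i)) (fun i => φ (y i)) c := by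
  unfold cVal cVals
  have h := circuit_foldl_map φ x y c []
  rw [List.map_nil] at h
  rw [← h, ← List.getLastD_map (f := φ), map_zero]

theorem cVal_congr {K : Type} [CommRing K] {x y x' y' : ℕ → K} {c : List Gt}
    (hx : ∀ g ∈ c, g.1 = 1 → x g.2.1 = x' g.2.1) (hy : ∀ g ∈ c, g.1 = 2 → y g.2.1 = y' g.2.1) :
    cVal x y c = cVal x' y' c := by
  unfold cVal cVals
  congr 1
  refine List.foldl_ext _ _ _ fun prev g hg => ?_
  unfold gtVal
  split_ifs with h0 h0' h1 h2
  · rfl
  · rfl
  · rw [hx g hg h1]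
  · rw [hy g hg h2]
  all_goals rfl

theorem circuit_mem_nums {d : Data} {it : Item} (hit : it ∈ d.2.2) {g : Gt} (hg : g ∈ it.2) :
    g.2.1 ∈ nums d :=
  List.mem_flatMap.2 ⟨it, hit, List.mem_map.2 ⟨g, hg, rfl⟩⟩

theorem circuit_idx_lt {d : Data} {it : Item} (hit : it ∈ d.2.2) {g : Gt} (hg : g ∈ it.2) :
    (nums d).idxOf g.2.1 < nvar d :=
  (List.idxOf_lt_length_of_mem (circuit_mem_nums hit hg)).trans_le (Nat.le_add_right _ _)

theorem circuit_ext {d : Data} (X : ℕ → ℝ) {it : Item} (hit : it ∈ d.2.2) {g : Gt} (hg : g ∈ it.2) :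
    X g.2.1 = ext0 (fun j : Fin (nvar d) => X ((nums d).getD j 0)) ((nums d).idxOf g.2.1) := by
  have h := List.idxOf_lt_length_of_mem (circuit_mem_nums hit hg)
  rw [ext0_of_lt _ (circuit_idx_lt hit hg), List.getD_eq_getElem _ _ h, List.getElem_idxOf]

theorem circuit_wf {r s : ℕ} {it : Item} (h : itemOK r s it) :
    ∀ g ∈ it.2, (g.1 = 1 → g.2.1 < r) ∧ (g.1 = 2 → g.2.1 < s) := by
  intro g hg
  rcases h with ⟨-, -, h⟩ | ⟨-, h⟩
  · obtain ⟨t, ht, rfl⟩ := List.getElem_of_mem hg
    have h1 := h t ht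
    rw [List.getD_eq_getElem _ _ ht] at h1
    unfold gtOK at h1
    omega
  · rw [h] at hg
    exact absurd hg List.not_mem_nil

theorem circuit_bform {d : Data} {x y : Fin (nvar d) → ℝ} {X Y : ℕ → ℝ}
    (hX : ∀ it ∈ d.2.2, ∀ g ∈ it.2, g.1 = 1 → X g.2.1 = ext0 x ((nums d).idxOf g.2.1))
    (hY : ∀ it ∈ d.2.2, ∀ g ∈ it.2, g.1 = 2 → Y g.2.1 = ext0 y ((nums d).idxOf g.2.1)) :
    (evalF (d.2.2.map fun it => (it.1, sgc (cVal X Y it.2)))).headD false = true ↔
      bform d (sgl (cpoly d) x y) := by
  have h : (d.2.2.map Prod.fst).zip (sgl (cpoly d) x y) =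
      d.2.2.map fun it => (it.1, sgc (cVal X Y it.2)) := by
    refine List.ext_getElem (by simp [sgl, nvar]) fun t h1 h2 => ?_
    have ht : t < d.2.2.length := by simpa using h2
    have hit := List.getElem_mem ht
    simp only [List.getElem_zip, List.getElem_map, sgl, List.getElem_ofFn, cpoly]
    rw [List.getD_eq_getElem _ _ ht, map_cVal]
    congr 2
    refine cVal_congr (fun g hg h1 => ?_) fun g hg h2 => ?_
    · rw [evl_X, ext0_append_left _ _ (circuit_idx_lt hit hg), hX _ hit g hg h1]
    · rw [evl_X, ext0_append_right, hY _ hit g hg h2]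
  unfold bform
  rw [h]

theorem isTrue_iff {S : Sentence} (h : S.WF) : S.IsTrue ↔
    ∃ x : Fin (nvar (dataOf S)) → ℝ, ∀ y : Fin (nvar (dataOf S)) → ℝ,
      bform (dataOf S) (sgl (cpoly (dataOf S)) x y) := by
  have hwf := fun it hit => circuit_wf (syntax_itemOK h it hit)
  constructor
  · rintro ⟨x₀, h₀⟩
    refine ⟨fun j => extend x₀ ((nums (dataOf S)).getD j 0), fun y => ?_⟩
    rw [← circuit_bform (X := extend x₀)
      (Y := extend fun i : Fin S.s => ext0 y ((nums (dataOf S)).idxOf (i : ℕ)))]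
    · exact (holds_iff _ _ _).1 (h₀ _)
    · exact fun it hit g hg _ => circuit_ext (extend x₀) hit hg
    · exact fun it hit g hg h2 => dif_pos ((hwf it hit g hg).2 h2)
  · rintro ⟨x, hx⟩
    refine ⟨fun i => ext0 x ((nums (dataOf S)).idxOf (i : ℕ)), fun y₀ => (holds_iff _ _ _).2 ?_⟩
    refine (circuit_bform (d := dataOf S) ?_ ?_).2
      (hx fun j => extend y₀ ((nums (dataOf S)).getD j 0))
    · exact fun it hit g hg h1 => dif_pos ((hwf it hit g hg).1 h1)
    · exact fun it hit g hg _ => circuit_ext (extend y₀) hit hg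

end Crest.Agent.R316
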