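import Crest.Agent.R316.Syntax

/-!
# Row 316 (S0488): SyntaxPT
Sentences as plain data.  The formula is the list of its prefix-order items; it is checked and evaluated from
right to left with a stack.
`exists_of_valid`: by induction on the item list `l` (from the right): if all items are `itemOK` and
`(depth l).1 = true` then there is a list `fs` of well-formed formulas of length `(depth l).2` with
`l = fs.flatMap itemsOf`.  `holds_iff`: `evalF (items φ ++ rest) = decide (Holds φ) :: evalF rest` by induction on `φ`.
`esize_le_of_valid`: every number of the data is printed (or is `0`/a tag), `natBits k` has length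
`2 size k + 2`, `esize k = 6 size k + 1`.
-/

set_option autoImplicit false

noncomputable section

namespace Crest.Agent.R316

open Crest.Agent.Lib.PolyTime Crest.RealEA

section
variable {α : Type} [Enc α]

@[fun_prop] theorem SyntaxPT_natBits {f : α → ℕ} (hf : PT f) : PT fun a => natBits (f a) := by
  unfold natBits; pt

@[fun_prop] theorem SyntaxPT_gtNats {f : α → Gt} (hf : PT f) : PT fun a => gtNats (f a) := by
  unfold gtNats; pt

@[fun_prop] theorem SyntaxPT_itemNats {f : α → Item} (hf : PT f) : PT fun a => itemNats (f a) := by
  unfold itemNats; pt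

@[fun_prop] theorem SyntaxPT_gtOK {r s t : α → ℕ} {f : α → Gt} (hr : PT r) (hs : PT s) (ht : PT t)
    (hf : PT f) : PT fun a => gtOK (r a) (s a) (t a) (f a) := by
  unfold gtOK; pt

@[fun_prop] theorem SyntaxPT_itemOK {r s : α → ℕ} {f : α → Item} (hr : PT r) (hs : PT s)
    (hf : PT f) : PT fun a => itemOK (r a) (s a) (f a) := by
  unfold itemOK; pt

@[fun_prop] theorem SyntaxPT_depth {l : α → List Item} (hl : PT l) : PT fun a => depth (l a) := by
  unfold depth
  refine PT.foldr_grow (f := fun _ (it : Item) (st : Bool × ℕ) =>
    if it.1 = 6 ∨ it.1 = 7 then (st.1, st.2 + 1)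
    else if it.1 = 10 then (st.1 && decide (1 ≤ st.2), st.2)
    else (st.1 && decide (2 ≤ st.2), st.2 - 1)) (fun _ => 6) hl (by fun_prop) (by pt)
    (PB.const 6) fun a x c _ => ?_
  have h1 := esize_nat_succ_le c.2
  have h2 := esize_nat_mono (Nat.sub_le c.2 1)
  have h3 := esize_pos c.1
  have h4 := esize_bool_le (c.1 && decide (1 ≤ c.2))
  have h5 := esize_bool_le (c.1 && decide (2 ≤ c.2))
  rw [esize_prod c]
  split_ifs <;> rw [esize_pair] <;> omega

end

theorem print_pt : PT print := by
  unfold print; pt

theorem valid_pt : PT valid := by
  unfold valid; pt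

theorem evalF_pt : PT evalF := by
  unfold evalF
  refine PT.foldr_grow (f := fun _ (it : ℕ × ℕ) (st : List Bool) =>
    if it.1 = 6 then decide (it.2 = 0) :: st
    else if it.1 = 7 then decide (it.2 = 1) :: st
    else if it.1 = 8 then (st.headD false && st.tail.headD false) :: st.tail.tail
    else if it.1 = 9 then (st.headD false || st.tail.headD false) :: st.tail.tail
    else (!st.headD false) :: st.tail) (fun _ => 4) PT.id' (by fun_prop) (by pt)
    (PB.const 4) fun a x c _ => ?_
  have h1 := esize_sublist (List.tail_sublist c)
  have h2 := esize_sublist (List.tail_sublist c.tail)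
  have h3 : ∀ (b : Bool) (l : List Bool), esize l ≤ esize c → esize (b :: l) ≤ esize c + 4 :=
    fun b l h => by have := esize_bool_le b; rw [esize_cons]; omega
  split_ifs <;> exact h3 _ _ (by omega)

theorem SyntaxPT_len (k : ℕ) : 3 * (natBits k).length = esize k + 5 := by
  have h : ∀ l : List Bool, (l.flatMap fun d => [true, d]).length = 2 * l.length := by
    intro l
    induction l with
    | nil => rfl
    | cons d l ih => simp only [List.flatMap_cons, List.length_append, ih, List.length_cons,
        List.length_nil]; omega
  rw [natBits, List.length_append, h, esize_nat, Nat.size_eq_bits_len]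
  simp only [List.length_cons, List.length_nil]
  omega

theorem SyntaxPT_list {β : Type} [Enc β] (f : β → List ℕ) (l : List β)
    (h : ∀ b ∈ l, esize b + 1 ≤ 3 * ((f b).flatMap natBits).length) :
    esize l ≤ 3 * ((l.flatMap f).flatMap natBits).length + 1 := by
  induction l with
  | nil => simp
  | cons b l ih =>
    have h1 := h b (by simp)
    have h2 := ih fun b' hb' => h b' (by simp [hb'])
    rw [esize_cons, List.flatMap_cons, List.flatMap_append, List.length_append]
    omega

theorem SyntaxPT_gate {r s t : ℕ} {g : Gt} (h : gtOK r s t g) :
    esize g + 1 ≤ 3 * ((gtNats g).flatMap natBits).length := by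
  obtain ⟨a, b, c⟩ := g
  have h1 := SyntaxPT_len a
  have h2 := SyntaxPT_len b
  have h3 := SyntaxPT_len c
  unfold gtNats
  split_ifs with hg
  · have hc : c = 0 := by
      simp only [gtOK] at h hg
      omega
    subst hc
    simp only [esize_pair, List.flatMap_cons, List.flatMap_nil, List.length_append,
      List.length_nil, esize_nat_zero]
    omega
  · simp only [esize_pair, List.flatMap_cons, List.flatMap_nil, List.length_append,
      List.length_nil]
    omega

theorem SyntaxPT_item {r s : ℕ} {it : Item} (h : itemOK r s it) :
    esize it + 1 ≤ 3 * ((itemNats it).flatMap natBits).length := by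
  obtain ⟨a, c⟩ := it
  have h1 := SyntaxPT_len a
  have h2 := SyntaxPT_len c.length
  unfold itemNats
  rcases h with ⟨ha, -, hc⟩ | ⟨ha, hc⟩
  · have h3 := SyntaxPT_list gtNats c fun g hg => by
      obtain ⟨t, ht, rfl⟩ := List.getElem_of_mem hg
      have := hc t ht
      rw [List.getD_eq_getElem _ _ ht] at this
      exact SyntaxPT_gate this
    rw [if_pos ha]
    simp only [esize_pair, List.flatMap_cons, List.length_append]
    omega
  · simp only at ha hc
    subst hc
    rw [if_neg (by simp only; omega)]
    simp only [esize_pair, List.flatMap_cons, List.flatMap_nil, List.length_append,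
      List.length_nil, esize_nil]
    omega

theorem esize_le_of_valid {d : Data} (h : valid d) : esize d ≤ 20 * (print d).length + 20 := by
  obtain ⟨r, s, l⟩ := d
  have h1 := SyntaxPT_len r
  have h2 := SyntaxPT_len s
  have h3 := SyntaxPT_list itemNats l fun it hit => SyntaxPT_item (h.1 it hit)
  simp only [print, esize_pair, List.flatMap_cons, List.length_append]
  omega

end Crest.Agent.R316
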