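import Crest.Agent.R316.Circuit
import Crest.Agent.R316.SyntaxPT

/-!
# Row 316 (S0488): CircuitEV
The polynomials of the atoms, with the variables renamed to small indices.
`cpoly_ev`: use `EV.mv_iff`.  `E (a,p,l,_)` is the last entry of the fold over the gates computing the residues
`% p` in `ℕ` (`-v` is `(p-1) v`; `PT.foldl_inv`/`foldl_grow`, entries `< p` or `p = 0`: reduce modulo `p - 1 + 1`);
its entries cast to `ZMod p` are `cVals` in `ZMod p`, use `map_cVal`.  Norm: with `B = 2^(esize c + 1)` all entries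
of `cVals` of a circuit prefix of length `t` have norm `≤ B^(2^t)`.
`isTrue_iff`: (→) from `x₀ : Fin r → ℝ` take `x j = extend x₀ ((nums d).getD j 0)`, from `y` take
`y₀ i = ext0 y (idxOf i)`; (←) symmetrically; `cVal_congr`, `holds_iff`, `map_cVal` with `ivl (Fin.append x y)`,
`ext0_append_left/right`.  (For items with an empty circuit all values are `0`.)
-/

set_option autoImplicit false

noncomputable section

namespace Crest.Agent.R316

open Crest.Agent.Lib.PolyTime Crest.RealEA

theorem cev_nums_pt : PT nums := by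
  unfold nums
  fun_prop

theorem nvar_pt : PT nvar := by
  have := cev_nums_pt
  unfold nvar
  fun_prop

theorem nvar_pb : PB nvar := by
  have := cev_nums_pt
  unfold nvar
  fun_prop

theorem cev_evalF_pt : PT evalF := by
  unfold evalF
  refine PT.foldr_grow (l := fun l : List (ℕ × ℕ) => l) (ini := fun _ => ([] : List Bool))
    (f := fun _ it st => if it.1 = 6 then decide (it.2 = 0) :: st
      else if it.1 = 7 then decide (it.2 = 1) :: st
      else if it.1 = 8 then (st.headD false && st.tail.headD false) :: st.tail.tail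
      else if it.1 = 9 then (st.headD false || st.tail.headD false) :: st.tail.tail
      else (!st.headD false) :: st.tail) (fun _ => 4) (by fun_prop) (by fun_prop) (by fun_prop)
    (by fun_prop) fun _ it st _ => ?_
  have h1 := esize_sublist (List.tail_sublist st)
  have h2 := esize_sublist (List.tail_sublist st.tail)
  have h3 : ∀ (b : Bool) (l : List Bool), esize (b :: l) ≤ esize l + 4 := fun b l => by
    have := esize_bool_le b
    rw [esize_cons]
    omega
  split_ifs <;> exact (h3 _ _).trans (by omega)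

theorem bform_pt : PT fun x : Data × List ℕ => bform x.1 x.2 := by
  have := cev_evalF_pt
  unfold bform
  exact PT.eq_true (by fun_prop)

/-- value of a gate modulo `p` -/
def cevGt (p : ℕ) (x y : ℕ) (prev : List ℕ) (g : Gt) : ℕ :=
  (if g.1 = 0 then (if g.2.1 = 0 then g.2.2 else (p - 1) * g.2.2)
  else if g.1 = 1 then x else if g.1 = 2 then y
  else if g.1 = 3 then prev.getD g.2.1 0 + prev.getD g.2.2 0
  else if g.1 = 4 then prev.getD g.2.1 0 + (p - 1) * prev.getD g.2.2 0
  else prev.getD g.2.1 0 * prev.getD g.2.2 0) % (p - 1 + 1)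

theorem cev_cast {p : ℕ} (hp : p.Prime) (x y : ℕ → ℕ) (prev : List ℕ) (g : Gt) :
    (cevGt p (x g.2.1) (y g.2.1) prev g : ZMod p) =
      gtVal (fun i => (x i : ZMod p)) (fun i => (y i : ZMod p)) (prev.map Nat.cast) g := by
  have h : ∀ i, (prev.map (Nat.cast : ℕ → ZMod p)).getD i 0 = (prev.getD i 0 : ℕ) := fun i => by
    rw [← List.getD_map prev 0 (Nat.cast : ℕ → ZMod p), Nat.cast_zero]
  unfold cevGt gtVal
  rw [Nat.sub_add_cancel hp.one_le, ZMod.natCast_mod, h, h]
  split_ifs <;> simp only [Nat.cast_add, Nat.cast_mul, coeff_cast_pred hp, neg_one_mul, sub_eq_add_neg]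

theorem cev_fold {p : ℕ} (hp : p.Prime) (x y : ℕ → ℕ) (c : List Gt) (prev : List ℕ) :
    (c.foldl (fun prev g => prev ++ [cevGt p (x g.2.1) (y g.2.1) prev g]) prev).map Nat.cast =
      c.foldl (fun prev g => prev ++
        [gtVal (fun i => (x i : ZMod p)) (fun i => (y i : ZMod p)) prev g]) (prev.map Nat.cast) := by
  induction c generalizing prev with
  | nil => rfl
  | cons g c ih => rw [List.foldl_cons, List.foldl_cons, ih, List.map_append, List.map_singleton,
      cev_cast hp]

theorem cev_nrm {R : Type} [CommRing R] [PR R] (x y : ℕ → R) (c : List Gt) (prev : List R) {M : ℕ}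
    (hM : 2 ≤ M) (hx : ∀ i, nrm (x i) ≤ M) (hy : ∀ i, nrm (y i) ≤ M) (hc : ∀ g ∈ c, g.2.2 ≤ M)
    (hp : ∀ v ∈ prev, nrm v ≤ M) :
    ∀ v ∈ c.foldl (fun prev g => prev ++ [gtVal x y prev g]) prev, nrm v ≤ M ^ 2 ^ c.length := by
  induction c generalizing prev M with
  | nil => simpa using hp
  | cons g c ih =>
    have h1 : M + M ≤ M ^ 2 := by nlinarith
    have h2 : M ≤ M ^ 2 := by omega
    have h3 : ∀ i, nrm (prev.getD i 0) ≤ M := fun i => by
      by_cases hi : i < prev.length
      · rw [List.getD_eq_getElem _ _ hi]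
        exact hp _ (List.getElem_mem hi)
      · rw [List.getD_eq_default _ _ (not_lt.1 hi), nrm_zero]
        omega
    have h4 := (nrm_natCast_le (R := R) g.2.2).trans (hc g List.mem_cons_self)
    rw [List.foldl_cons, List.length_cons, pow_succ', pow_mul]
    refine ih _ (hM.trans h2) (fun i => (hx i).trans h2) (fun i => (hy i).trans h2)
      (fun g' hg' => (hc g' (List.mem_cons_of_mem _ hg')).trans h2) fun v hv => ?_
    rcases List.mem_append.1 hv with hv | hv
    · exact (hp v hv).trans h2
    · rw [List.mem_singleton.1 hv]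
      unfold gtVal
      split_ifs
      · exact h4.trans h2
      · rw [nrm_neg]
        exact h4.trans h2
      · exact (hx _).trans h2
      · exact (hy _).trans h2
      · exact (nrm_add_le _ _).trans ((add_le_add (h3 _) (h3 _)).trans h1)
      · exact (nrm_sub_le _ _).trans ((add_le_add (h3 _) (h3 _)).trans h1)
      · exact (nrm_mul_le _ _).trans ((Nat.mul_le_mul (h3 _) (h3 _)).trans (sq M).ge)

theorem cpoly_ev : EV fun x : Data × ℕ => cpoly x.1 x.2 := by
  have h1 := cev_nums_pt
  have h2 := nvar_pt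
  have h3 : PT fun z : (Data × ℕ) × ℕ × List ℕ × Unit =>
      (z.1.1.2.2.getD z.1.2 (0, [])).2.foldl (fun prev g => prev ++
        [cevGt z.2.1 (z.2.2.1.getD ((nums z.1.1).idxOf g.2.1) 0)
          (z.2.2.1.getD (nvar z.1.1 + (nums z.1.1).idxOf g.2.1) 0) prev g]) [] := by
    refine PT.foldl_grow (f := fun (z : (Data × ℕ) × ℕ × List ℕ × Unit) prev (g : Gt) => prev ++
        [cevGt z.2.1 (z.2.2.1.getD ((nums z.1.1).idxOf g.2.1) 0)
          (z.2.2.1.getD (nvar z.1.1 + (nums z.1.1).idxOf g.2.1) 0) prev g])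
      (fun w => esize w.1.2.1 + 2) (by fun_prop) (by fun_prop) (by unfold cevGt; fun_prop)
      (by fun_prop) fun z prev g _ => ?_
    refine (esize_append_le _ _).trans (Nat.add_le_add_left ?_ _)
    rw [esize_cons, esize_nil]
    refine Nat.add_le_add_right (k := 2) (esize_nat_mono ?_)
    unfold cevGt
    exact (Nat.lt_succ_iff.1 (Nat.mod_lt _ (Nat.succ_pos _))).trans (Nat.sub_le _ _)
  refine EV.mv_iff.2 ⟨fun x => 2 * esize (x.1.2.2.getD x.2 (0, [])).2, _, by fun_prop,
    CF.of_PT (PT.getLastD h3 (PT.const 0)), fun x => ?_, fun x p l t hp _ => ?_⟩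
  · set c := (x.1.2.2.getD x.2 (0, [])).2 with hc
    have h4 : 2 ≤ 2 ^ esize c := by
      have := esize_pos c
      calc 2 = 2 ^ 1 := rfl
        _ ≤ _ := Nat.pow_le_pow_right two_pos this
    have h5 := cev_nrm (fun i => (MvPolynomial.X ((nums x.1).idxOf i) : MvPolynomial ℕ ℤ))
      (fun i => MvPolynomial.X (nvar x.1 + (nums x.1).idxOf i)) c [] h4
      (fun _ => (nrm_mvX_le _).trans h4) (fun _ => (nrm_mvX_le _).trans h4)
      (fun g hg => by
        have h6 := esize_lt_of_mem hg
        rw [esize_prod g, esize_prod g.2] at h6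
        exact (lt_two_pow_esize _).le.trans (Nat.pow_le_pow_right two_pos (by omega)))
      (by simp)
    have h6 : (2 ^ esize c) ^ 2 ^ c.length ≤ 2 ^ 2 ^ (2 * esize c) := by
      rw [← pow_mul, two_mul, pow_add]
      exact Nat.pow_le_pow_right two_pos (Nat.mul_le_mul Nat.lt_two_pow_self.le
        (Nat.pow_le_pow_right two_pos (length_lt_esize c).le))
    unfold cpoly cVal cVals
    rw [← hc, List.getLastD_eq_getLast?]
    rcases h : List.getLast? _ with _ | v
    · simp
    · exact (h5 v (List.mem_of_getLast? h)).trans h6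
  · have h4 := map_cVal (MvPolynomial.eval₂Hom (PR.ev (R := ℤ) p t)
      fun i => ((l.getD i 0 : ℕ) : ZMod p)) (fun i => MvPolynomial.X ((nums x.1).idxOf i))
      (fun i => MvPolynomial.X (nvar x.1 + (nums x.1).idxOf i)) (x.1.2.2.getD x.2 (0, [])).2
    simp only [MvPolynomial.eval₂Hom_X'] at h4
    refine Eq.trans ?_ h4.symm
    unfold cVal cVals
    have h5 := cev_fold hp (fun i => l.getD ((nums x.1).idxOf i) 0)
      (fun i => l.getD (nvar x.1 + (nums x.1).idxOf i) 0) (x.1.2.2.getD x.2 (0, [])).2 []
    rw [List.map_nil] at h5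
    rw [← h5, ← Nat.cast_zero (R := ZMod p), List.getLastD_map]

end Crest.Agent.R316
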