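import Crest.Agent.R316.CF

/-!
# Row 316 (S0488): ModP
Modular exponentiation is polynomial-time (`PT.binRec` on the exponent with
`g a n = b a ^ n % m a`; for `m = 0` the value `b ^ e` is huge, so the statement uses `m + 1`).
Primality: `2 ≤ p ∧ ∀ d < p, d ∣ p → d = 1` (`CF.forall_lt`).
Products of exponentially many residues: if some factor is `0 mod p` the product is `0`; otherwise let
`g = sInf {g | g < p ∧ ∀ x < p, x = 0 ∨ ∃ e < p, g ^ e % p = x}` (a generator exists:
`IsCyclic (ZMod p)ˣ`), `lg x = sInf {e | e < p ∧ g ^ e % p = x % p}` (`CF.sInf`), and the product is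
`g ^ (∑ i, lg (f i)) % p` (`CF.sum_range`, `CF.pow_mod`; no reduction of the exponent is needed).
-/

set_option autoImplicit false



noncomputable section

namespace Crest.Agent.R316

open Crest.Agent.Lib.PolyTime
variable {α : Type} [Enc α]


theorem PT.pow_mod_succ {b e m : α → ℕ} (hb : PT b) (he : PT e) (hm : PT m) :
    PT fun a => b a ^ e a % (m a + 1) := by
  refine PT.binRec (g := fun a n => b a ^ n % (m a + 1))
    (step := fun a x s => (s * s * (bif x then b a else 1)) % (m a + 1))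
    (fun a => esize (m a)) he (by fun_prop) (by fun_prop) (fun a x n => ?_) (PB.esize hm)
    fun a n _ => esize_nat_mono (Nat.lt_succ_iff.1 (Nat.mod_lt _ (Nat.succ_pos _)))
  have h : ∀ c : ℕ, (b a ^ n % (m a + 1) * (b a ^ n % (m a + 1)) * c) % (m a + 1) =
      (b a ^ n * b a ^ n * c) % (m a + 1) := fun c =>
    ((Nat.mod_modEq _ _).mul (Nat.mod_modEq _ _)).mul_right c
  simp only [h]
  cases x
  · simp [Nat.bit, two_mul, pow_add]
  · simp [Nat.bit, two_mul, pow_add]

/-- `b ^ e mod m` (and `0` for `m = 0`) -/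
def powMod (b e m : ℕ) : ℕ := if m = 0 then 0 else b ^ e % m

@[fun_prop] theorem CF.powMod {b e m : α → ℕ} (hb : CF b) (he : CF e) (hm : CF m) :
    CF fun a => powMod (b a) (e a) (m a) := by
  have h1 : PT fun x : ℕ × ℕ × ℕ => x.1 ^ x.2.1 % (x.2.2 - 1 + 1) :=
    PT.pow_mod_succ (by fun_prop) (by fun_prop) (by fun_prop)
  have h2 : PT fun x : ℕ × ℕ × ℕ =>
      if x.2.2 = 0 then 0 else x.1 ^ x.2.1 % (x.2.2 - 1 + 1) := by fun_prop
  refine ((CF.of_PT h2).comp (hb.prodMk (he.prodMk hm))).of_eq fun a => ?_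
  simp only [R316.powMod]
  split_ifs with h
  · rfl
  · rw [Nat.sub_add_cancel (Nat.pos_of_ne_zero h)]

theorem cast_powMod (b e : ℕ) {m : ℕ} (hm : m ≠ 0) : (powMod b e m : ZMod m) = (b : ZMod m) ^ e := by
  simp [powMod, hm]

@[fun_prop] theorem CF.prime {f : α → ℕ} (hf : CF f) : CF fun a => (f a).Prime := by
  have h1 : CF fun a => ∀ d < f a, d ∣ f a → d = 1 :=
    CF.forall_lt hf (CF.imp (by fun_prop) (by fun_prop))
  have h2 : CF fun a => 2 ≤ f a := by fun_prop
  exact (h2.and h1).of_iff fun a => Nat.prime_def_lt.symm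

/-- the least generator of `(ℤ/p)ˣ` -/
def modP_gen (p : ℕ) : ℕ := sInf {g | g < p ∧ ∀ x < p, x = 0 ∨ ∃ e < p, powMod g e p = x}

/-- the discrete logarithm -/
def modP_log (p x : ℕ) : ℕ := sInf {e | e < p ∧ powMod (modP_gen p) e p = x % p}

theorem modP_gen_spec {p : ℕ} (hp : p.Prime) :
    ∀ x < p, x = 0 ∨ ∃ e < p, powMod (modP_gen p) e p = x := by
  have := Fact.mk hp
  have hne : {g | g < p ∧ ∀ x < p, x = 0 ∨ ∃ e < p, powMod g e p = x}.Nonempty := by
    obtain ⟨g, hg⟩ := IsCyclic.exists_generator (α := (ZMod p)ˣ)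
    refine ⟨(g : ZMod p).val, ZMod.val_lt _, fun x hx => ?_⟩
    by_cases h0 : x = 0
    · exact Or.inl h0
    right
    have hx0 : (x : ZMod p) ≠ 0 := by
      rw [Ne, ZMod.natCast_eq_zero_iff]
      exact Nat.not_dvd_of_pos_of_lt (Nat.pos_of_ne_zero h0) hx
    have hmem : Units.mk0 (x : ZMod p) hx0 ∈ Submonoid.powers g :=
      (mem_powers_iff_mem_zpowers).2 (hg _)
    rw [mem_powers_iff_mem_range_orderOf] at hmem
    obtain ⟨e, he, hge⟩ := Finset.mem_image.1 hmem
    have hord : orderOf g ≤ p - 1 := by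
      have := orderOf_le_card_univ (x := g)
      rwa [ZMod.card_units] at this
    refine ⟨e, by have := Finset.mem_range.1 he; have := hp.pos; omega, ?_⟩
    have h1 : (powMod (g : ZMod p).val e p : ZMod p) = (x : ZMod p) := by
      rw [cast_powMod _ _ hp.ne_zero, ZMod.natCast_zmod_val, ← Units.val_pow_eq_pow_val, hge,
        Units.val_mk0]
    have h2 : powMod (g : ZMod p).val e p < p := by
      simp only [powMod, hp.ne_zero, if_false]
      exact Nat.mod_lt _ hp.pos
    have h3 := (ZMod.natCast_eq_natCast_iff' _ _ _).1 h1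
    rwa [Nat.mod_eq_of_lt h2, Nat.mod_eq_of_lt hx] at h3
  exact (Nat.sInf_mem hne).2

theorem modP_log_spec {p x : ℕ} (hp : p.Prime) (hx : x % p ≠ 0) :
    ((modP_gen p : ℕ) : ZMod p) ^ modP_log p x = (x : ZMod p) := by
  have hne : {e | e < p ∧ powMod (modP_gen p) e p = x % p}.Nonempty :=
    (modP_gen_spec hp (x % p) (Nat.mod_lt _ hp.pos)).resolve_left hx
  have h := (Nat.sInf_mem hne).2
  rw [← cast_powMod _ _ hp.ne_zero, modP_log, h, ZMod.natCast_mod]

theorem CF.modP_gen {p : α → ℕ} (hp : CF p) : CF fun a => modP_gen (p a) := by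
  have h1 : CF fun x : α × ℕ => ∀ y < p x.1, y = 0 ∨ ∃ e < p x.1, R316.powMod x.2 e (p x.1) = y :=
    CF.forall_lt (by fun_prop) (by fun_prop)
  exact CF.sInf (p := fun a g => ∀ y < p a, y = 0 ∨ ∃ e < p a, R316.powMod g e (p a) = y) hp h1

theorem CF.modP_log {p x : α → ℕ} (hp : CF p) (hx : CF x) : CF fun a => modP_log (p a) (x a) := by
  have h1 : CF fun a => R316.modP_gen (p a) := hp.modP_gen
  generalize hg : (fun a => R316.modP_gen (p a)) = g at h1
  have h2 : CF fun y : α × ℕ => R316.powMod (g y.1) y.2 (p y.1) = x y.1 % p y.1 := by fun_prop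
  subst hg
  exact CF.sInf (p := fun a e => R316.powMod (R316.modP_gen (p a)) e (p a) = x a % p a) hp h2

theorem CF.exists_prodMod {n p : α → ℕ} {f : α → ℕ → ℕ} (hn : CF n) (hp : CF p)
    (hf : CF fun x : α × ℕ => f x.1 x.2) : ∃ E : α → ℕ, CF E ∧ ∀ a, (p a).Prime →
      (E a : ZMod (p a)) = ∏ i ∈ Finset.range (n a), (f a i : ZMod (p a)) := by
  classical
  have hp' : CF fun x : α × ℕ => p x.1 := by fun_prop
  have h1 : CF fun a => ∃ i < n a, f a i % p a = 0 :=
    CF.exists_lt hn (by fun_prop)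
  have h2 : CF fun a => ∑ i ∈ Finset.range (n a), R316.modP_log (p a) (f a i) :=
    CF.sum_range hn (hp'.modP_log hf)
  refine ⟨fun a => if ∃ i < n a, f a i % p a = 0 then 0 else
    R316.powMod (R316.modP_gen (p a)) (∑ i ∈ Finset.range (n a), R316.modP_log (p a) (f a i)) (p a),
    h1.ite (CF.const 0) (hp.modP_gen.powMod h2 hp), fun a ha => ?_⟩
  dsimp only
  split_ifs with h
  · obtain ⟨i, hi, h0⟩ := h
    rw [Nat.cast_zero, eq_comm]
    refine Finset.prod_eq_zero (Finset.mem_range.2 hi) ?_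
    rw [ZMod.natCast_eq_zero_iff]
    exact Nat.dvd_of_mod_eq_zero h0
  · rw [cast_powMod _ _ ha.ne_zero, ← Finset.prod_pow_eq_pow_sum]
    exact Finset.prod_congr rfl fun i hi =>
      modP_log_spec ha fun h0 => h ⟨i, Finset.mem_range.1 hi, h0⟩

end Crest.Agent.R316
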