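import Crest.Agent.R316.EV
import Crest.Agent.R316.ModP

/-!
# Row 316 (S0488): EVbig
Closure properties of `EV`.  Pattern: take `k, E` from the hypotheses, the new `k` is a polynomial in the old
ones (`PB.exists_unif`, `CF.exists_lt_two_pow`, `CF.exists_unif`, `PB.compCF`), the new `E` is built with
`fun_prop`.  Negation: `E' = (p - 1) * E`.  Sums: `CF.sum_range` (no reduction is needed: `CF` bounds the
size).  Products: `CF.exists_prodMod`.  Norms: `n * 2^2^k ≤ 2^2^(k + k')`, `(2^2^k)^n ≤ 2^2^(k + k')` when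
`n < 2^k'`.  `sum_fun`, `prod_fun`: `sum_digs`, `prod_digs`, `CF.digs`.
-/

set_option autoImplicit false

open Polynomial

noncomputable section

namespace Crest.Agent.R316

open Crest.Agent.Lib.PolyTime
variable {α R S : Type} [Enc α] [CommRing R] [PR R] [CommRing S] [PR S]

theorem EVbig_mul_le {n K k : ℕ} (h : n < 2 ^ k) : n * 2 ^ 2 ^ K ≤ 2 ^ 2 ^ (K + k) := by
  have h1 : k + 2 ^ K ≤ 2 ^ (K + k) := by
    have h2 : k + 1 ≤ 2 ^ k := Nat.lt_two_pow_self
    have h3 : 1 ≤ 2 ^ K := Nat.one_le_two_pow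
    rw [pow_add]
    nlinarith
  calc n * 2 ^ 2 ^ K ≤ 2 ^ k * 2 ^ 2 ^ K := Nat.mul_le_mul_right _ h.le
    _ = 2 ^ (k + 2 ^ K) := (pow_add _ _ _).symm
    _ ≤ _ := Nat.pow_le_pow_right (by omega) h1

theorem EVbig_pow_le {n K k : ℕ} (h : n < 2 ^ k) : (2 ^ 2 ^ K) ^ n ≤ 2 ^ 2 ^ (K + k) := by
  rw [← pow_mul, pow_add]
  exact Nat.pow_le_pow_right (by omega) (Nat.mul_le_mul_left _ h.le)

/-- uniform version of the data of an evaluable family indexed by numbers below `n` -/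
theorem EVbig_unif {n : α → ℕ} {F : α → ℕ → R} (hn : CF n)
    (hF : EV fun x : α × ℕ => F x.1 x.2) :
    ∃ (K k : α → ℕ) (E : α × ℕ × PR.A R → ℕ → ℕ), PB K ∧ PB k ∧
      (CF fun y : (α × ℕ × PR.A R) × ℕ => E y.1 y.2) ∧ (∀ a, n a < 2 ^ k a) ∧
      (∀ a, ∀ i ∈ Finset.range (n a), nrm (F a i) ≤ 2 ^ 2 ^ K a) ∧
      ∀ a p t, p.Prime → 2 ^ (K a + k a) ≤ p → ∀ i ∈ Finset.range (n a),
        (E (a, p, t) i : ZMod p) = PR.ev p t (F a i) := by
  obtain ⟨k, E, hk, hE, hN, hev⟩ := hF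
  obtain ⟨K, -, hK, hK'⟩ := PB.exists_unif hk hn
  obtain ⟨k', -, hk', hn'⟩ := hn.exists_lt_two_pow
  refine ⟨K, k', fun x i => E ((x.1, i), x.2), hK, hk',
    hE.comp (f := fun y : (α × ℕ × PR.A R) × ℕ => ((y.1.1, y.2), y.1.2)) (by fun_prop), hn',
    fun a i hi => (hN (a, i)).trans (Nat.pow_le_pow_right (by omega)
      (Nat.pow_le_pow_right (by omega) (hK' a i (Finset.mem_range.1 hi).le))),
    fun a p t hp hle i hi => hev (a, i) p t hp (le_trans (Nat.pow_le_pow_right (by omega) ?_) hle)⟩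
  exact (hK' a i (Finset.mem_range.1 hi).le).trans (Nat.le_add_right _ _)

@[fun_prop] theorem EV.sum_range {n : α → ℕ} {F : α → ℕ → R} (hn : CF n)
    (hF : EV fun x : α × ℕ => F x.1 x.2) : EV fun a => ∑ i ∈ Finset.range (n a), F a i := by
  obtain ⟨K, k, E, hK, hk, hE, hn', hN, hev⟩ := EVbig_unif hn hF
  refine ⟨fun a => K a + k a, fun x => ∑ i ∈ Finset.range (n x.1), E x i, hK.add hk,
    CF.sum_range (hn.comp (by fun_prop)) hE, fun a => ?_, fun a p t hp hle => ?_⟩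
  · refine (nrm_sum_le _ _).trans (le_trans ?_ (EVbig_mul_le (hn' a)))
    simpa using Finset.sum_le_card_nsmul _ _ _ (hN a)
  · rw [map_sum, Nat.cast_sum]
    exact Finset.sum_congr rfl (hev a p t hp hle)

@[fun_prop] theorem EV.prod_range {n : α → ℕ} {F : α → ℕ → R} (hn : CF n)
    (hF : EV fun x : α × ℕ => F x.1 x.2) : EV fun a => ∏ i ∈ Finset.range (n a), F a i := by
  obtain ⟨K, k, E, hK, hk, hE, hn', hN, hev⟩ := EVbig_unif hn hF
  obtain ⟨E', hE', h⟩ := CF.exists_prodMod (α := α × ℕ × PR.A R) (n := fun x => n x.1)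
    (p := fun x => x.2.1) (f := E) (hn.comp (by fun_prop)) (by fun_prop) hE
  refine ⟨fun a => K a + k a, E', hK.add hk, hE', fun a => ?_, fun a p t hp hle => ?_⟩
  · refine (nrm_prod_le _ _).trans (le_trans ?_ (EVbig_pow_le (hn' a)))
    simpa using Finset.prod_le_pow_card _ _ _ (hN a)
  · rw [map_prod]
    exact (h (a, p, t) hp).trans (Finset.prod_congr rfl (hev a p t hp hle))

@[fun_prop] theorem EV.pow {F : α → R} {n : α → ℕ} (hF : EV F) (hn : CF n) :
    EV fun a => F a ^ n a :=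
  (EV.prod_range (F := fun a _ => F a) hn
    (hF.comp (f := fun x : α × ℕ => x.1) (by fun_prop))).of_eq fun a => by simp

theorem EV.two_pow {n : α → ℕ} (hn : CF n) : EV fun a => (2 : R) ^ n a := EV.two.pow hn

theorem EVbig_digs {n K : α → ℕ} {F : α → List ℕ → R} (hn : CF n) (hn' : PB n) (hK : CF K)
    (hF : EV fun x : α × List ℕ => F x.1 x.2) :
    EV fun x : α × ℕ => F x.1 (digs (K x.1) (n x.1) x.2) :=
  hF.comp (f := fun x : α × ℕ => (x.1, digs (K x.1) (n x.1) x.2))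
    (CF.prodMk (by fun_prop) (CF.digs (hK.comp (by fun_prop)) (hn.comp (by fun_prop))
      (hn'.comp PT.fst') (by fun_prop)))

theorem EV.sum_fun {n K : α → ℕ} {F : α → List ℕ → R} (hn : CF n) (hn' : PB n) (hK : CF K)
    (hF : EV fun x : α × List ℕ => F x.1 x.2) :
    EV fun a => ∑ κ : Fin (n a) → Fin (K a), F a (List.ofFn fun i => (κ i : ℕ)) :=
  (EV.sum_range (F := fun a c => F a (digs (K a) (n a) c)) (CF.nat_pow hK hn hn')
    (EVbig_digs hn hn' hK hF)).of_eq fun a => sum_digs (K a) (n a) (F a)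

theorem EV.prod_fun {n K : α → ℕ} {F : α → List ℕ → R} (hn : CF n) (hn' : PB n) (hK : CF K)
    (hF : EV fun x : α × List ℕ => F x.1 x.2) :
    EV fun a => ∏ κ : Fin (n a) → Fin (K a), F a (List.ofFn fun i => (κ i : ℕ)) :=
  (EV.prod_range (F := fun a c => F a (digs (K a) (n a) c)) (CF.nat_pow hK hn hn')
    (EVbig_digs hn hn' hK hF)).of_eq fun a => prod_digs (K a) (n a) (F a)

end Crest.Agent.R316
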