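import Crest.Agent.R316.Nrm

/-!
# Row 316 (S0488): NrmA
Properties of the norms.  Everything follows from the class axioms and `nrm_poly`, `nrm_mv`,
`polyNrm_eq`, `mvNrm_eq`, `polyNrm_monomial`, `mvNrm_monomial` (`Defs.lean`).
Root bounds: `Polynomial.IsRoot.norm_lt_cauchyBound` or directly: if `‖z‖ > nrm ψ + 1 ≥ 1` the top term
dominates (`|lc| ≥ 1`, the other coefficients have total size `≤ nrm ψ`); if `‖z‖ < 1/(nrm ψ + 1)` the
trailing term dominates.  Lipschitz bound: monomial by monomial,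
`|∏ xᵢ^eᵢ - ∏ yᵢ^eᵢ| ≤ |e| B^|e| ε ≤ 2^|e| B^deg ε`.
-/

set_option autoImplicit false

open Polynomial

noncomputable section

namespace Crest.Agent.R316

open Crest.Agent.Lib.PolyTime
variable {α R S : Type} [Enc α] [CommRing R] [PR R] [CommRing S] [PR S]


theorem abs_coeff_le_nrm (ψ : ℤ[X]) (k : ℕ) : (|ψ.coeff k| : ℤ) ≤ nrm ψ := by
  by_cases hk : k ∈ ψ.support
  · have h1 : nrm (ψ.coeff k) * 2 ^ k ≤ nrm ψ := by
      rw [nrm_poly]
      exact Finset.single_le_sum (f := fun k => nrm (ψ.coeff k) * 2 ^ k)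
        (fun _ _ => Nat.zero_le _) hk
    have h2 : (ψ.coeff k).natAbs ≤ nrm ψ :=
      (Nat.le_mul_of_pos_right _ (Nat.two_pow_pos k)).trans h1
    rw [← Int.natCast_natAbs]
    exact_mod_cast h2
  · rw [Polynomial.notMem_support_iff.1 hk]; simp
theorem NrmA_dom {ψ : ℤ[X]} {z : ℂ} (hz : zev z ψ = 0) (h0 : z ≠ 0) {k0 : ℕ}
    (hk0 : k0 ∈ ψ.support) {θ : ℝ} (hθ : 0 ≤ θ)
    (h : ∀ k ∈ ψ.support, k ≠ k0 → ‖z‖ ^ k ≤ θ * ‖z‖ ^ k0) : 1 ≤ nrm ψ * θ := by
  have hp : 0 < ‖z‖ ^ k0 := pow_pos (norm_pos_iff.2 h0) _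
  have h1 : ∑ k ∈ ψ.support, (ψ.coeff k : ℂ) * z ^ k = 0 := by
    rw [← hz]
    simp [zev, Polynomial.eval₂_eq_sum, Polynomial.sum]
  rw [← Finset.add_sum_erase _ _ hk0, add_eq_zero_iff_eq_neg] at h1
  have h2 : ‖z‖ ^ k0 ≤ ‖(ψ.coeff k0 : ℂ) * z ^ k0‖ := by
    rw [norm_mul, norm_pow, Complex.norm_intCast]
    have : (1 : ℝ) ≤ |(ψ.coeff k0 : ℝ)| := by
      exact_mod_cast Int.one_le_abs (Polynomial.mem_support_iff.1 hk0)
    nlinarith
  have h3 : ‖(ψ.coeff k0 : ℂ) * z ^ k0‖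
      ≤ ∑ k ∈ ψ.support.erase k0, ((nrm (ψ.coeff k) * 2 ^ k : ℕ) : ℝ) * (θ * ‖z‖ ^ k0) := by
    rw [h1, norm_neg]
    refine (norm_sum_le _ _).trans (Finset.sum_le_sum fun k hk => ?_)
    rw [norm_mul, norm_pow, Complex.norm_intCast]
    refine mul_le_mul ?_ (h k (Finset.mem_of_mem_erase hk) (Finset.ne_of_mem_erase hk))
      (by positivity) (by positivity)
    have : (ψ.coeff k).natAbs ≤ nrm (ψ.coeff k) * 2 ^ k :=
      Nat.le_mul_of_pos_right _ (Nat.two_pow_pos k)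
    rw [← Int.cast_abs, ← Int.natCast_natAbs, Int.cast_natCast]
    exact_mod_cast this
  have h4 : ∑ k ∈ ψ.support.erase k0, ((nrm (ψ.coeff k) * 2 ^ k : ℕ) : ℝ) ≤ nrm ψ := by
    rw [nrm_poly, ← Nat.cast_sum]
    exact_mod_cast Finset.sum_le_sum_of_subset (Finset.erase_subset _ _)
  rw [← Finset.sum_mul] at h3
  have h5 := (h2.trans h3).trans (mul_le_mul_of_nonneg_right h4 (by positivity))
  rw [← mul_assoc] at h5
  exact le_of_mul_le_mul_right (by simpa using h5) hp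

theorem norm_root_le {ψ : ℤ[X]} (hψ : ψ ≠ 0) {z : ℂ} (hz : zev z ψ = 0) : ‖z‖ ≤ nrm ψ + 1 := by
  by_contra hc
  have hn : (0 : ℝ) ≤ nrm ψ := Nat.cast_nonneg _
  have h1 : 1 < ‖z‖ := by linarith [not_le.1 hc]
  have h0 : 0 < ‖z‖ := by linarith
  have h2 := NrmA_dom hz (norm_pos_iff.1 h0) (Polynomial.natDegree_mem_support_of_nonzero hψ)
    (θ := ‖z‖⁻¹) (by positivity) fun k hk hne => by
      have hlt : k + 1 ≤ ψ.natDegree :=
        lt_of_le_of_ne (Polynomial.le_natDegree_of_mem_supp k hk) hne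
      rw [le_inv_mul_iff₀ h0, ← pow_succ']
      exact pow_le_pow_right₀ h1.le hlt
  rw [le_mul_inv_iff₀ h0] at h2
  linarith [not_le.1 hc]
theorem le_norm_root {ψ : ℤ[X]} (hψ : ψ ≠ 0) {z : ℂ} (hz : zev z ψ = 0) (h0 : z ≠ 0) :
    ((nrm ψ : ℝ) + 1)⁻¹ ≤ ‖z‖ := by
  have hn : (0 : ℝ) ≤ nrm ψ := Nat.cast_nonneg _
  have hp : 0 < ‖z‖ := norm_pos_iff.2 h0
  rw [inv_le_iff_one_le_mul₀' (by positivity)]
  rcases le_total 1 ‖z‖ with h1 | h1
  · nlinarith
  have h2 := NrmA_dom hz h0 (Polynomial.natTrailingDegree_mem_support_of_nonzero hψ)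
    (θ := ‖z‖) hp.le fun k hk hne => by
      have hlt : ψ.natTrailingDegree + 1 ≤ k :=
        lt_of_le_of_ne (Polynomial.natTrailingDegree_le_of_mem_supp k hk) hne.symm
      rw [← pow_succ']
      exact pow_le_pow_of_le_one hp.le h1 hlt
  nlinarith
/-- bounds for a product of `n` factors -/
def NrmA_P (B ε a b : ℝ) (n : ℕ) : Prop := |a| ≤ B ^ n ∧ |b| ≤ B ^ n ∧ |a - b| ≤ n * B ^ n * ε

theorem NrmA_P_one (B ε : ℝ) : NrmA_P B ε 1 1 0 := by simp [NrmA_P]

theorem NrmA_P_mul {B ε a b a' b' : ℝ} {n n' : ℕ} (h : NrmA_P B ε a b n)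
    (h' : NrmA_P B ε a' b' n') : NrmA_P B ε (a * a') (b * b') (n + n') := by
  obtain ⟨h1, h2, h3⟩ := h
  obtain ⟨h1', h2', h3'⟩ := h'
  have p1 := (abs_nonneg _).trans h1
  refine ⟨?_, ?_, ?_⟩
  · rw [abs_mul, pow_add]; exact mul_le_mul h1 h1' (abs_nonneg _) p1
  · rw [abs_mul, pow_add]; exact mul_le_mul h2 h2' (abs_nonneg _) p1
  · have e : a * a' - b * b' = (a - b) * a' + b * (a' - b') := by ring
    rw [e]
    refine (abs_add_le _ _).trans ?_
    rw [abs_mul, abs_mul]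
    have e1 := mul_le_mul h3 h1' (abs_nonneg _) ((abs_nonneg _).trans h3)
    have e2 := mul_le_mul h2 h3' (abs_nonneg _) p1
    refine (add_le_add e1 e2).trans (le_of_eq ?_)
    push_cast; ring

theorem NrmA_P_pow {B ε a b : ℝ} (h : NrmA_P B ε a b 1) (n : ℕ) :
    NrmA_P B ε (a ^ n) (b ^ n) n := by
  induction n with
  | zero => simpa using NrmA_P_one B ε
  | succ n ih => rw [pow_succ, pow_succ]; exact NrmA_P_mul ih h

theorem NrmA_P_prod {B ε : ℝ} {x y : ℕ → ℝ} (h : ∀ i, NrmA_P B ε (x i) (y i) 1) (e : ℕ → ℕ)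
    (s : Finset ℕ) : NrmA_P B ε (∏ i ∈ s, x i ^ e i) (∏ i ∈ s, y i ^ e i) (∑ i ∈ s, e i) := by
  induction s using Finset.induction_on with
  | empty => simpa using NrmA_P_one B ε
  | insert i s hi ih =>
    rw [Finset.prod_insert hi, Finset.prod_insert hi, Finset.sum_insert hi]
    exact NrmA_P_mul (NrmA_P_pow (h i) _) ih

theorem abs_ivl_sub_le {m : ℕ} (q : MvPolynomial ℕ ℤ) {x y : Fin m → ℝ} {B ε : ℝ} (hB : 1 ≤ B)
    (hε : 0 ≤ ε) (hx : ∀ i, |x i| ≤ B) (hy : ∀ i, |y i| ≤ B) (h : ∀ i, |x i - y i| ≤ ε) :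
    |ivl x q - ivl y q| ≤ nrm q * B ^ q.totalDegree * ε := by
  have h1 : ∀ i, NrmA_P B ε (ext0 x i) (ext0 y i) 1 := by
    intro i
    unfold ext0 NrmA_P
    split_ifs with hi
    · refine ⟨by simpa using hx _, by simpa using hy _, (h _).trans ?_⟩
      simp only [Nat.cast_one, pow_one, one_mul]
      nlinarith
    · simp only [abs_zero, pow_one, sub_self, Nat.cast_one, one_mul]
      exact ⟨by linarith, by linarith, by positivity⟩
  have h2 : ∀ v : Fin m → ℝ, ivl v q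
      = ∑ e ∈ q.support, ((q.coeff e : ℤ) : ℝ) * ∏ i ∈ e.support, ext0 v i ^ e i := fun v => by
    simp [ivl, evl, MvPolynomial.eval₂_eq]
  rw [h2, h2, ← Finset.sum_sub_distrib, nrm_mv, Nat.cast_sum, Finset.sum_mul, Finset.sum_mul]
  refine (Finset.abs_sum_le_sum_abs _ _).trans (Finset.sum_le_sum fun e he => ?_)
  rw [← mul_sub, abs_mul, nrm_int, Nat.cast_mul, Nat.cast_natAbs, Int.cast_abs, mul_assoc,
    mul_assoc]
  refine mul_le_mul_of_nonneg_left ((NrmA_P_prod h1 e e.support).2.2.trans ?_) (abs_nonneg _)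
  rw [← mul_assoc]
  refine mul_le_mul_of_nonneg_right ?_ hε
  have hd : ∑ i ∈ e.support, e i = e.degree := rfl
  refine mul_le_mul ?_ (pow_le_pow_right₀ hB (MvPolynomial.le_totalDegree he)) (by positivity)
    (by positivity)
  rw [hd]
  exact_mod_cast (Nat.lt_two_pow_self).le

/-! basic facts about `ext0`, `evl`, `zev` -/
@[simp] theorem ext0_val {K : Type} [Zero K] {n : ℕ} (v : Fin n → K) (i : Fin n) :
    ext0 v i = v i := by
  simp [ext0]
theorem ext0_of_lt {K : Type} [Zero K] {n : ℕ} (v : Fin n → K) {i : ℕ} (h : i < n) :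
    ext0 v i = v ⟨i, h⟩ := by
  simp [ext0, h]
theorem ext0_of_le {K : Type} [Zero K] {n : ℕ} (v : Fin n → K) {i : ℕ} (h : n ≤ i) :
    ext0 v i = 0 := by
  simp [ext0, not_lt.2 h]
theorem ext0_append_left {K : Type} [Zero K] {n m : ℕ} (x : Fin n → K) (y : Fin m → K) {i : ℕ}
    (h : i < n) : ext0 (Fin.append x y) i = ext0 x i := by
  rw [ext0_of_lt x h, ext0_of_lt _ (show i < n + m by omega)]
  exact Fin.append_left x y ⟨i, h⟩
theorem ext0_append_right {K : Type} [Zero K] {n m : ℕ} (x : Fin n → K) (y : Fin m → K) (i : ℕ) :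
    ext0 (Fin.append x y) (n + i) = ext0 y i := by
  by_cases h : i < m
  · rw [ext0_of_lt y h, ext0_of_lt _ (show n + i < n + m by omega)]
    exact Fin.append_right x y ⟨i, h⟩
  · rw [ext0_of_le y (not_lt.1 h), ext0_of_le _ (show n + m ≤ n + i by omega)]
section
variable {A K L : Type} [CommRing A] [CommRing K] [CommRing L]
@[simp] theorem evl_C (φ : A →+* K) {n : ℕ} (v : Fin n → K) (c : A) :
    evl φ v (MvPolynomial.C c) = φ c := by
  simp [evl]
@[simp] theorem evl_X (φ : A →+* K) {n : ℕ} (v : Fin n → K) (i : ℕ) :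
    evl φ v (MvPolynomial.X i) = ext0 v i := by
  simp [evl]
theorem map_evl (φ : A →+* K) (χ : K →+* L) {n : ℕ} (v : Fin n → K) (f : MvPolynomial ℕ A) :
    χ (evl φ v f) = evl (χ.comp φ) (fun i => χ (v i)) f := by
  have : χ.comp (evl φ v) = evl (χ.comp φ) (fun i => χ (v i)) := by
    refine MvPolynomial.ringHom_ext (fun c => by simp) fun i => ?_
    simp only [RingHom.comp_apply, evl_X, ext0]
    split_ifs <;> simp
  exact RingHom.congr_fun this f
theorem evl_map {A' : Type} [CommRing A'] (θ : A →+* A') (φ : A' →+* K) {n : ℕ} (v : Fin n → K)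
    (f : MvPolynomial ℕ A) : evl φ v (MvPolynomial.map θ f) = evl (φ.comp θ) v f := by
  have : (evl φ v).comp (MvPolynomial.map θ) = evl (φ.comp θ) v :=
    MvPolynomial.ringHom_ext (fun c => by simp) fun i => by simp
  exact RingHom.congr_fun this f
theorem map_zev (χ : K →+* L) (x : K) (ψ : ℤ[X]) : χ (zev x ψ) = zev (χ x) ψ := by
  have : χ.comp (zev x) = zev (χ x) :=
    Polynomial.ringHom_ext (fun c => by simp [zev]) (by simp [zev])
  exact RingHom.congr_fun this ψ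
theorem zev_eq_eval_map (x : K) (ψ : ℤ[X]) : zev x ψ = (ψ.map (Int.castRingHom K)).eval x := by
  rw [Polynomial.eval_map]; rfl
theorem ofReal_ivl {n : ℕ} (v : Fin n → ℝ) (q : MvPolynomial ℕ ℤ) :
    ((ivl v q : ℝ) : ℂ) = ivl (fun i => (v i : ℂ)) q := by
  have := map_evl (Int.castRingHom ℝ) Complex.ofRealHom v q
  rw [Subsingleton.elim (Complex.ofRealHom.comp (Int.castRingHom ℝ)) (Int.castRingHom ℂ)] at this
  exact this
theorem ofReal_zev (x : ℝ) (ψ : ℤ[X]) : ((zev x ψ : ℝ) : ℂ) = zev (x : ℂ) ψ := by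
  exact map_zev Complex.ofRealHom x ψ
end

end Crest.Agent.R316
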