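import Crest.Agent.R316.EH
import Crest.Agent.R316.EVbig
import Crest.Agent.R316.NrmA

/-!
# Row 316 (S0488): Coeff
Coefficient extraction.  For a prime `p` with `natDegree f < p - 1` and `k < p - 1`:
`coeff k f = - ∑_{s = 1}^{p-1} s^(p-1-k) f(s)` in `ZMod p` (`∑_{s ≠ 0} s^j = -1` if `p - 1 ∣ j`, else `0`:
`FiniteField.sum_pow_units`, apply it to `f.map (ev p t)`); for `k ≥ p - 1` the coefficient is `0`.  Raise the
threshold `k a` so that `2^(k a) ≥ natDegree + 2` (`natDegree_le_of_nrm_le`).  Several variables: with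
`n = l.length`, sum over the tuples `s ∈ {1,…,p-1}^n` (`sum_digs (p-1) n`, add `1` to the digits) of
`∏ s_i^(p-1-l_i) * f(s)`, sign `(-1)^n`; the variables `≥ n` are evaluated at `0`, which kills exactly the
monomials not supported in `range n`; the answer is `0` if some `l_i ≥ p - 1`.  The product of the `n`
modular powers is `CF` (`CF.map_range`/`CF.map`, then a `PT` list product).
`pderiv i f` is the coefficient of `X^1` in `EH.shift` applied to `f` (induction on `f`).
-/

set_option autoImplicit false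

open Polynomial

noncomputable section

namespace Crest.Agent.R316

open Crest.Agent.Lib.PolyTime
variable {α R S : Type} [Enc α] [CommRing R] [PR R] [CommRing S] [PR S]


theorem l2f_apply (l : List ℕ) (i : ℕ) : l2f l i = l.getD i 0 := List.toFinsupp_apply l i

theorem l2f_ofFn {n : ℕ} (e : Fin n → ℕ) :
    l2f (List.ofFn e) = Finsupp.mapDomain Fin.val (Finsupp.equivFunOnFinite.symm e) := by
  ext i
  rw [l2f_apply]
  by_cases hi : i < n
  · rw [show i = (⟨i, hi⟩ : Fin n).val from rfl, Finsupp.mapDomain_apply Fin.val_injective]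
    simp [hi]
  · rw [Finsupp.mapDomain_of_notMem_range _ _ (by rintro ⟨j, rfl⟩; exact hi j.2),
      List.getD_eq_default _ _ (by simpa using hi)]

theorem degree_l2f (l : List ℕ) : (l2f l).degree = l.sum := by
  have h := l2f_ofFn l.get
  rw [List.ofFn_get] at h
  rw [h, Finsupp.degree_mapDomain, Finsupp.degree_eq_sum, ← List.sum_ofFn]
  simp

theorem coeff_sum_fin {p : ℕ} (hp : p.Prime) {k m : ℕ} (hk : k < p - 1) (hm : m < p - 1) :
    ∑ s : Fin p, -((s : ℕ) : ZMod p) ^ (p - 1 - k) * ((s : ℕ) : ZMod p) ^ m =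
      if m = k then 1 else 0 := by
  classical
  have := Fact.mk hp
  have h1 : ∀ i, i ≠ 0 → ∑ x : ZMod p, x ^ i = if p - 1 ∣ i then -1 else 0 := fun i hi => by
    let φ : (ZMod p)ˣ ↪ ZMod p := ⟨fun x ↦ x, Units.val_injective⟩
    have : Finset.univ.map φ = Finset.univ \ {0} := by
      ext x
      simpa only [Finset.mem_map, Finset.mem_univ, Function.Embedding.coeFn_mk, true_and,
        Finset.mem_sdiff, Finset.mem_singleton, φ] using! isUnit_iff_ne_zero
    rw [← Finset.sum_sdiff ({0} : Finset (ZMod p)).subset_univ, Finset.sum_singleton, zero_pow hi,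
      add_zero, ← this, Finset.sum_map]
    have h2 := FiniteField.sum_pow_units (ZMod p) i
    rw [ZMod.card] at h2
    exact h2
  have h3 : ∑ s : Fin p, ((s : ℕ) : ZMod p) ^ (p - 1 - k + m) = ∑ x : ZMod p, x ^ (p - 1 - k + m) := by
    obtain ⟨q, rfl⟩ : ∃ q, p = q + 1 := ⟨p - 1, by omega⟩
    exact Finset.sum_congr rfl fun s _ =>
      congrArg (· ^ (q + 1 - 1 - k + m)) (ZMod.natCast_zmod_val (n := q + 1) s)
  simp only [neg_mul, ← pow_add, Finset.sum_neg_distrib]
  rw [h3, h1 _ (by omega)]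
  by_cases h : m = k
  · rw [if_pos h, if_pos ⟨1, by omega⟩, neg_neg]
  · rw [if_neg h, if_neg, neg_zero]
    rintro ⟨c, hc⟩
    rcases c with _ | _ | c
    · omega
    · omega
    · have : (p - 1) * (c + 1 + 1) = (p - 1) * c + 2 * (p - 1) := by ring
      omega

omit [PR R] in
theorem coeff_poly {p : ℕ} (hp : p.Prime) (φ : R →+* ZMod p) {f : R[X]} {k : ℕ} (hk : k < p - 1)
    (hf : f.natDegree < p - 1) :
    ∑ s : Fin p, -((s : ℕ) : ZMod p) ^ (p - 1 - k) * f.eval₂ φ ((s : ℕ) : ZMod p) =
      φ (f.coeff k) := by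
  simp only [eval₂_eq_sum_range' φ hf, Finset.mul_sum]
  rw [Finset.sum_comm]
  simp only [mul_left_comm _ (φ _), ← Finset.mul_sum]
  rw [Finset.sum_congr rfl fun m hm => by rw [coeff_sum_fin hp hk (Finset.mem_range.1 hm)]]
  simp [hk]

omit [PR R] in
theorem coeff_mv {p : ℕ} (hp : p.Prime) (φ : R →+* ZMod p) {f : MvPolynomial ℕ R} {l : List ℕ}
    (hl : l.sum < p - 1) (hf : f.totalDegree < p - 1) :
    ∑ κ : Fin l.length → Fin p, (∏ i : Fin l.length, -((κ i : ℕ) : ZMod p) ^ (p - 1 - l.getD i 0)) *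
      f.eval₂ φ (fun j => (((List.ofFn fun i => (κ i : ℕ)).getD j 0 : ℕ) : ZMod p)) =
      φ (f.coeff (l2f l)) := by
  classical
  have key : ∀ e ∈ f.support, ∑ κ : Fin l.length → Fin p,
      (∏ i : Fin l.length, -((κ i : ℕ) : ZMod p) ^ (p - 1 - l.getD i 0)) *
        ∏ j ∈ e.support, (((List.ofFn fun i => (κ i : ℕ)).getD j 0 : ℕ) : ZMod p) ^ e j =
      if e = l2f l then 1 else 0 := fun e he => by
    by_cases hs : ∀ j ∈ e.support, j < l.length
    · have h1 : ∀ κ : Fin l.length → Fin p,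
          ∏ j ∈ e.support, (((List.ofFn fun i => (κ i : ℕ)).getD j 0 : ℕ) : ZMod p) ^ e j =
            ∏ i : Fin l.length, ((κ i : ℕ) : ZMod p) ^ e i := fun κ => by
        rw [Finset.prod_subset (s₂ := Finset.range l.length)
          (fun j hj => Finset.mem_range.2 (hs j hj))
          (fun j _ hj => by rw [Finsupp.notMem_support_iff.1 hj, pow_zero]), Finset.prod_range]
        exact Finset.prod_congr rfl fun i _ => by simp
      simp only [h1, ← Finset.prod_mul_distrib]
      rw [← Fintype.piFinset_univ, ← Finset.prod_univ_sum (fun _ => Finset.univ)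
        fun (i : Fin l.length) (s : Fin p) =>
          -((s : ℕ) : ZMod p) ^ (p - 1 - l.getD i 0) * ((s : ℕ) : ZMod p) ^ e i]
      rw [Finset.prod_congr rfl fun (i : Fin l.length) _ => coeff_sum_fin hp (k := l.getD i 0) (m := e i)
        (by
          rw [← l2f_apply]
          exact ((Finsupp.le_degree _ _).trans (degree_l2f l).le).trans_lt hl)
        (((Finsupp.le_degree _ _).trans (MvPolynomial.le_totalDegree he)).trans_lt hf)]
      rw [Finset.prod_boole]
      congr 1
      refine propext ⟨fun h => ?_, fun h i _ => by rw [h, l2f_apply]⟩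
      ext j
      rw [l2f_apply]
      by_cases hj : j < l.length
      · exact h ⟨j, hj⟩ (Finset.mem_univ _)
      · rw [List.getD_eq_default _ _ (not_lt.1 hj)]
        exact Finsupp.notMem_support_iff.1 fun h' => hj (hs j h')
    · push Not at hs
      obtain ⟨j, hj, hj'⟩ := hs
      have hj0 := Finsupp.mem_support_iff.1 hj
      rw [if_neg (by
        rintro rfl
        exact hj0 (by rw [l2f_apply, List.getD_eq_default _ _ hj']))]
      refine Finset.sum_eq_zero fun κ _ => ?_
      rw [Finset.prod_eq_zero hj (by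
        rw [List.getD_eq_default _ _ (by simpa using hj'), Nat.cast_zero, zero_pow hj0]), mul_zero]
  simp only [MvPolynomial.eval₂_eq, Finset.mul_sum]
  rw [Finset.sum_comm]
  simp only [mul_left_comm _ (φ _), ← Finset.mul_sum]
  rw [Finset.sum_congr rfl fun e he => by rw [key e he]]
  simp only [mul_ite, mul_one, mul_zero, Finset.sum_ite_eq']
  split_ifs with h
  · rfl
  · rw [MvPolynomial.notMem_support_iff.1 h, map_zero]

theorem coeff_thr {k p : ℕ} (h : 2 ^ (k + 2) ≤ p) : 2 ^ k ≤ p ∧ 2 ^ k < p - 1 := by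
  have := Nat.one_le_two_pow (n := k)
  rw [pow_add] at h
  omega

theorem coeff_cast_pred {p : ℕ} (hp : p.Prime) : ((p - 1 : ℕ) : ZMod p) = -1 := by
  rw [Nat.cast_sub hp.one_le]
  simp

@[fun_prop] theorem EV.coeff {F : α → R[X]} {k : α → ℕ} (hF : EV F) (hk : CF k) :
    EV fun a => (F a).coeff (k a) := by
  obtain ⟨K, E, h1, h2, h3, h4⟩ := EV.poly_iff.1 hF
  refine ⟨fun a => K a + 2, fun x : α × ℕ × PR.A R => if k x.1 < x.2.1 - 1 then
    ∑ s ∈ Finset.range x.2.1, (x.2.1 - 1) * powMod s (x.2.1 - 1 - k x.1) x.2.1 *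
      E (x.1, x.2.1, s, x.2.2) else 0, h1.add (PB.const 2), by fun_prop, fun a => ?_,
    fun a p t hp hK => ?_⟩
  · refine ((Nat.le_mul_of_pos_right _ (by positivity)).trans (nrm_coeff_le _ _)).trans
      ((h3 a).trans ?_)
    exact Nat.pow_le_pow_right two_pos (Nat.pow_le_pow_right two_pos (Nat.le_add_right _ _))
  · obtain ⟨h5, h6⟩ := coeff_thr hK
    have h7 := (natDegree_le_of_nrm_le (h3 a)).trans_lt h6
    dsimp only
    split_ifs with h
    · rw [← coeff_poly hp _ h h7, Nat.cast_sum, Finset.sum_range]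
      refine Finset.sum_congr rfl fun s _ => ?_
      rw [Nat.cast_mul, Nat.cast_mul, coeff_cast_pred hp, cast_powMod _ _ hp.ne_zero,
        h4 a p s t hp h5, neg_one_mul]
    · rw [coeff_eq_zero_of_natDegree_lt (by omega), map_zero, Nat.cast_zero]

theorem EV.mvCoeff {F : α → MvPolynomial ℕ R} {e : α → List ℕ} (hF : EV F) (he : CF e) :
    EV fun a => (F a).coeff (l2f (e a)) := by
  obtain ⟨K, E, h1, h2, h3, h4⟩ := EV.mv_iff.1 hF
  have hn : CF fun x : α × ℕ × PR.A R => (e x.1).length := by fun_prop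
  have hn' : PB fun x : α × ℕ × PR.A R => (e x.1).length := PB.lengthCF (by fun_prop)
  have hd : CF fun y : (α × ℕ × PR.A R) × ℕ => digs y.1.2.1 (e y.1.1).length y.2 :=
    CF.digs (by fun_prop) (by fun_prop) (PB.lengthCF (by fun_prop)) (by fun_prop)
  have hd' : CF fun z : ((α × ℕ × PR.A R) × ℕ) × ℕ =>
      digs z.1.1.2.1 (e z.1.1.1).length z.1.2 := 
    hd.comp (f := fun z : ((α × ℕ × PR.A R) × ℕ) × ℕ => z.1) (by fun_prop)
  obtain ⟨P, hP, hP'⟩ := CF.exists_prodMod (α := (α × ℕ × PR.A R) × ℕ)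
    (n := fun y => (e y.1.1).length) (p := fun y => y.1.2.1)
    (f := fun y i => (y.1.2.1 - 1) * powMod ((digs y.1.2.1 (e y.1.1).length y.2).getD i 0)
      (y.1.2.1 - 1 - (e y.1.1).getD i 0) y.1.2.1) (by fun_prop) (by fun_prop) (by fun_prop)
  have hpow : CF fun x : α × ℕ × PR.A R => x.2.1 ^ (e x.1).length :=
    CF.nat_pow (by fun_prop) hn hn'
  have hE : CF fun y : (α × ℕ × PR.A R) × ℕ =>
      E (y.1.1, y.1.2.1, digs y.1.2.1 (e y.1.1).length y.2, y.1.2.2) := h2.comp (by fun_prop)
  have hsum : CF fun x : α × ℕ × PR.A R => ∑ c ∈ Finset.range (x.2.1 ^ (e x.1).length),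
      P (x, c) * E (x.1, x.2.1, digs x.2.1 (e x.1).length c, x.2.2) :=
    CF.sum_range hpow (by fun_prop)
  refine ⟨fun a => K a + 2, fun x : α × ℕ × PR.A R => if (e x.1).sum < x.2.1 - 1 then
    ∑ c ∈ Finset.range (x.2.1 ^ (e x.1).length),
      P (x, c) * E (x.1, x.2.1, digs x.2.1 (e x.1).length c, x.2.2) else 0, h1.add (PB.const 2),
    CF.ite (by fun_prop) hsum (by fun_prop), fun a => ?_, fun a p t hp hK => ?_⟩
  · refine ((Nat.le_mul_of_pos_right _ (by positivity)).trans (nrm_mvCoeff_le _ _)).trans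
      ((h3 a).trans ?_)
    exact Nat.pow_le_pow_right two_pos (Nat.pow_le_pow_right two_pos (Nat.le_add_right _ _))
  · obtain ⟨h5, h6⟩ := coeff_thr hK
    have h7 := (totalDegree_le_of_nrm_le (h3 a)).trans_lt h6
    dsimp only
    split_ifs with h
    · rw [← coeff_mv hp _ h h7, Nat.cast_sum]
      refine ((Finset.sum_congr rfl fun c _ => ?_).trans (sum_digs p (e a).length fun l : List ℕ =>
        (∏ i ∈ Finset.range (e a).length, -((l.getD i 0 : ℕ) : ZMod p) ^ (p - 1 - (e a).getD i 0)) *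
          (F a).eval₂ (PR.ev p t) fun j => ((l.getD j 0 : ℕ) : ZMod p))).trans ?_
      · rw [Nat.cast_mul, h4 a p _ t hp h5, hP' ((a, p, t), c) hp]
        congr 1
        refine Finset.prod_congr rfl fun i _ => ?_
        rw [Nat.cast_mul, coeff_cast_pred hp, cast_powMod _ _ hp.ne_zero, neg_one_mul]
      · refine Finset.sum_congr rfl fun κ _ => ?_
        rw [Finset.prod_range]
        congr 1
        exact Finset.prod_congr rfl fun i _ => by simp
    · rw [MvPolynomial.coeff_eq_zero_of_totalDegree_lt, map_zero, Nat.cast_zero]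
      have := degree_l2f (e a)
      rw [Finsupp.degree_apply] at this
      omega

omit [PR R] in
theorem coeff_shift (i : ℕ) (f : MvPolynomial ℕ R) :
    (MvPolynomial.eval₂Hom (Polynomial.C.comp MvPolynomial.C)
      (fun j => Polynomial.C (MvPolynomial.X j) + if j = i then Polynomial.X else 0) f :
        (MvPolynomial ℕ R)[X]).coeff 0 = f ∧
    (MvPolynomial.eval₂Hom (Polynomial.C.comp MvPolynomial.C)
      (fun j => Polynomial.C (MvPolynomial.X j) + if j = i then Polynomial.X else 0) f :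
        (MvPolynomial ℕ R)[X]).coeff 1 = MvPolynomial.pderiv i f := by
  induction f using MvPolynomial.induction_on with
  | C c => simp [coeff_C]
  | add f g hf hg => simp only [map_add, coeff_add, hf.1, hf.2, hg.1, hg.2, and_self]
  | mul_X f j hf =>
    rw [map_mul, MvPolynomial.eval₂Hom_X', mul_add, coeff_add, coeff_add, coeff_mul_C, coeff_mul_C,
      hf.1, hf.2]
    by_cases h : j = i
    · subst h
      rw [if_pos rfl, coeff_mul_X_zero, coeff_mul_X, hf.1]
      simp [mul_comm, add_comm]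
    · simp [h, mul_comm]

theorem EV.pderiv {F : α → MvPolynomial ℕ R} {i : α → ℕ} (hF : EV F) (hi : CF i) (hi' : PB i) :
    EV fun a => MvPolynomial.pderiv (i a) (F a) :=
  (EV.coeff (EV.hom (EH.shift hi hi') hF) (CF.const 1)).of_eq fun _ => (coeff_shift _ _).2

end Crest.Agent.R316
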