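import Crest.Agent.R316.NrmA

/-!
# Row 316 (S0488): CritA
Critical points and sample points (pure real analysis).
`crit_of_isLocalMin`: `s ↦ evl φ (update y i s) G` has derivative `evl φ y (pderiv i G)` at `y i` (induction on
`G`), use `IsLocalMin.hasDerivAt_eq_zero`.
`exists_sample_seq`: `N y = ∑ yᵢ^(2d)` is coercive.  Fix `y₀ ∈ Z`, `C = N y₀`, `Z' = {G = 0} \\ Z`.  The compact set
`B = {N ≤ C + 1}`; `K = Z ∩ B`, `K' = Z' ∩ B` are disjoint compact sets; take `r > 0` with
`cthickening r K` disjoint from `K'` and `U = cthickening r K ∩ B` (compact).  On the compact set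
`U ∩ {infDist · K = r}` (more simply `U \\ thickening r K`) `G` has no zero, so `G ≥ h₀ > 0` there.  For `ε C < h₀`
a minimiser `y_ε` of `G + ε N` on `U` has value `≤ ε C`, hence `N y_ε ≤ C < C + 1` and `y_ε ∈ thickening r K`: an
interior point, so a local minimum; `G y_ε ≤ ε C`.  Take `ε_j → 0` and a convergent subsequence
(`IsCompact.tendsto_subseq`); the limit is a zero of `G` in `U`, hence in `Z`.
`eval_trailingCoeff_eq_zero`: `χ = X^l * χ₁` with `χ₁.coeff 0 = trailingCoeff χ`
(`Polynomial.X_pow_dvd_iff`), divide by `ε^l`, joint continuity of the evaluation.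
`exists_bound_roots`: at an index where `‖ξ i‖` is maximal `=: M ≥ 1`, `‖a‖ M^D ≤ C M^(D-1)`.
-/

set_option autoImplicit false

open Polynomial Filter Topology

noncomputable section

namespace Crest.Agent.R316

open Crest.Agent.Lib.PolyTime


theorem critA_continuous_ext0 {n : ℕ} (j : ℕ) : Continuous fun y : Fin n → ℝ => ext0 y j := by
  unfold ext0
  split_ifs
  · exact continuous_apply _
  · exact continuous_const

theorem continuous_evl {R : Type} [CommRing R] (φ : R →+* ℝ) {n : ℕ} (G : MvPolynomial ℕ R) :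
    Continuous fun y : Fin n → ℝ => evl φ y G := by
  induction G using MvPolynomial.induction_on with
  | C c => simpa only [evl_C] using continuous_const
  | add f g hf hg => simpa only [map_add] using! hf.add hg
  | mul_X f j hf => simpa only [map_mul, evl_X] using! hf.mul (critA_continuous_ext0 j)

theorem continuous_evl₂ {r n : ℕ} (G : MvPolynomial ℕ (MvPolynomial ℕ ℤ)) :
    Continuous fun p : (Fin r → ℝ) × (Fin n → ℝ) => evl (ivl p.1) p.2 G := by
  induction G using MvPolynomial.induction_on with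
  | C c => simpa only [evl_C] using! (continuous_evl (Int.castRingHom ℝ) c).comp continuous_fst
  | add f g hf hg => simpa only [map_add] using! hf.add hg
  | mul_X f j hf =>
    simpa only [map_mul, evl_X] using! hf.mul ((critA_continuous_ext0 j).comp continuous_snd)

theorem critA_hasDerivAt {R : Type} [CommRing R] (φ : R →+* ℝ) {n : ℕ} (G : MvPolynomial ℕ R)
    (y : Fin n → ℝ) (i : Fin n) :
    HasDerivAt (fun s => evl φ (Function.update y i s) G)
      (evl φ y (MvPolynomial.pderiv (i : ℕ) G)) (y i) := by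
  induction G using MvPolynomial.induction_on with
  | C c => simpa only [evl_C, MvPolynomial.pderiv_C, map_zero] using hasDerivAt_const (y i) (φ c)
  | add f g hf hg => simpa only [map_add] using! hf.add hg
  | mul_X f j hf =>
    have hX : HasDerivAt (fun s => ext0 (Function.update y i s) j)
        (evl φ y (MvPolynomial.pderiv (i : ℕ) (MvPolynomial.X j))) (y i) := by
      rcases eq_or_ne j i with rfl | hj
      · simpa using hasDerivAt_id' (y i)
      · rw [MvPolynomial.pderiv_X_of_ne hj, map_zero]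
        have : ∀ s, ext0 (Function.update y i s) j = ext0 y j := fun s => by
          unfold ext0
          split_ifs with h
          · exact Function.update_of_ne (fun e => hj (congrArg Fin.val e)) _ _
          · rfl
        simpa only [this] using hasDerivAt_const (y i) (ext0 y j)
    simpa only [map_mul, map_add, evl_X, MvPolynomial.pderiv_mul, Function.update_eq_self] using!
      hf.mul hX

theorem crit_of_isLocalMin {R : Type} [CommRing R] (φ : R →+* ℝ) {n : ℕ} (G : MvPolynomial ℕ R)
    (d : ℕ) (ε : ℝ) {y : Fin n → ℝ} (h : IsLocalMin (fun y => evl φ y G + ε * ∑ i, y i ^ (2 * d)) y)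
    (i : Fin n) :
    evl φ y (MvPolynomial.pderiv (i : ℕ) G) + ε * (2 * d) * y i ^ (2 * d - 1) = 0 := by
  have h1 : IsLocalMin (fun s => evl φ (Function.update y i s) G +
      ε * ∑ j, Function.update y i s j ^ (2 * d)) (y i) := by
    have hc : ContinuousAt (fun s => Function.update y i s) (y i) :=
      (continuous_const.update i continuous_id).continuousAt
    exact IsLocalMin.comp_continuous (g := fun s => Function.update y i s)
      (by rwa [Function.update_eq_self]) hc
  have h2 : HasDerivAt (fun s => ∑ j, Function.update y i s j ^ (2 * d))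
      ((2 * d : ℕ) * y i ^ (2 * d - 1)) (y i) := by
    have : ∀ s, ∑ j, Function.update y i s j ^ (2 * d) =
        s ^ (2 * d) + ∑ j ∈ Finset.univ.erase i, y j ^ (2 * d) := fun s => by
      rw [← Finset.add_sum_erase _ _ (Finset.mem_univ i), Function.update_self]
      congr 1
      exact Finset.sum_congr rfl fun j hj => by
        rw [Function.update_of_ne (Finset.ne_of_mem_erase hj)]
    simpa only [this] using (hasDerivAt_pow (2 * d) (y i)).add_const _
  have h3 := h1.hasDerivAt_eq_zero ((critA_hasDerivAt φ G y i).add (h2.const_mul ε))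
  push_cast at h3
  linarith

theorem critA_norm_evl_le {R : Type} [CommRing R] (φ : R →+* ℂ) {n : ℕ} (g : MvPolynomial ℕ R)
    {ξ : Fin n → ℂ} {M : ℝ} (hM : 1 ≤ M) (h : ∀ i, ‖ξ i‖ ≤ M) :
    ‖evl φ ξ g‖ ≤ (∑ e ∈ g.support, ‖φ (g.coeff e)‖) * M ^ g.totalDegree := by
  have h1 : ∀ j, ‖ext0 ξ j‖ ≤ M := fun j => by
    unfold ext0
    split_ifs
    · exact h _
    · rw [norm_zero]
      linarith
  rw [evl, MvPolynomial.coe_eval₂Hom, MvPolynomial.eval₂_eq, Finset.sum_mul]
  refine (norm_sum_le _ _).trans (Finset.sum_le_sum fun e he => ?_)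
  rw [norm_mul, norm_prod]
  refine mul_le_mul_of_nonneg_left ?_ (norm_nonneg _)
  calc ∏ j ∈ e.support, ‖ext0 ξ j ^ e j‖ ≤ ∏ j ∈ e.support, M ^ e j :=
        Finset.prod_le_prod (fun _ _ => norm_nonneg _) fun j _ => by
          rw [norm_pow]
          exact pow_le_pow_left₀ (norm_nonneg _) (h1 j) _
    _ = M ^ e.sum fun _ k => k := Finset.prod_pow_eq_pow_sum _ _ _
    _ ≤ _ := pow_le_pow_right₀ hM (MvPolynomial.le_totalDegree he)

theorem exists_bound_roots {R : Type} [CommRing R] (φ : R →+* ℂ) {n D : ℕ} {a : ℂ} (ha : a ≠ 0)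
    (g : Fin n → MvPolynomial ℕ R) (hg : ∀ i, (g i).totalDegree < D) :
    ∃ M : ℝ, ∀ ξ : Fin n → ℂ, (∀ i, a * ξ i ^ D = evl φ ξ (g i)) → ∀ i, ‖ξ i‖ ≤ M := by
  let c : Fin n → ℝ := fun i => ∑ e ∈ (g i).support, ‖φ ((g i).coeff e)‖
  have hc : ∀ i, 0 ≤ c i := fun i => Finset.sum_nonneg fun _ _ => norm_nonneg _
  have ha' : 0 < ‖a‖ := norm_pos_iff.2 ha
  refine ⟨max 1 ((∑ i, c i) / ‖a‖), fun ξ h i => ?_⟩
  have : Nonempty (Fin n) := ⟨i⟩
  obtain ⟨k, hk⟩ := Finite.exists_max fun j => ‖ξ j‖
  refine (hk i).trans ?_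
  rcases le_total ‖ξ k‖ 1 with h1 | h1
  · exact h1.trans (le_max_left _ _)
  refine le_trans ?_ (le_max_right _ _)
  obtain ⟨D, rfl⟩ : ∃ D', D = D' + 1 := ⟨D - 1, by have := hg k; omega⟩
  have h2 := critA_norm_evl_le φ (g k) h1 hk
  rw [← h k, norm_mul, norm_pow, pow_succ] at h2
  have h3 : c k * ‖ξ k‖ ^ (g k).totalDegree ≤ (∑ i, c i) * ‖ξ k‖ ^ D :=
    mul_le_mul (Finset.single_le_sum (fun j _ => hc j) (Finset.mem_univ k))
      (pow_le_pow_right₀ h1 (by have := hg k; omega)) (by positivity)
      (Finset.sum_nonneg fun j _ => hc j)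
  rw [le_div_iff₀ ha']
  refine le_of_mul_le_mul_right ?_ (pow_pos (lt_of_lt_of_le one_pos h1) D)
  linarith

end Crest.Agent.R316
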