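import Crest.Agent.R316.Defs

/-!
# Row 316 (S0488): CritB
The penalised minimum `m(x, ε) = min_y (G x y + ε ∑ yᵢ^(2d))` (pure real analysis).
A minimiser exists and satisfies `ε ∑ yᵢ^(2d) ≤ G x 0` (coercivity), so near a point `(x₀, ε₀)` the infimum may
be taken over a fixed closed ball, and `IsCompact.continuous_sInf` (or upper/lower semicontinuity by hand) gives
continuity.  `mfun_lt`: `m ≤ ε N(y₀)` at a zero `y₀`.  `lt_mfun`: with `C = 1/η`, `G x ≥ g₀ > 0` on the compact set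
`{N ≤ C}` (if nonempty); look at a minimiser.
-/

set_option autoImplicit false

open Polynomial Filter Topology

noncomputable section

namespace Crest.Agent.R316

open Crest.Agent.Lib.PolyTime


variable {T : Type} [TopologicalSpace T] {n : ℕ}

/-- the penalised minimum -/
def mfun (G : T → (Fin n → ℝ) → ℝ) (d : ℕ) (x : T) (ε : ℝ) : ℝ :=
  ⨅ y, (G x y + ε * ∑ i, y i ^ (2 * d))

theorem critB_sum_nonneg (d : ℕ) (y : Fin n → ℝ) : 0 ≤ ∑ i, y i ^ (2 * d) :=
  Finset.sum_nonneg fun i _ => by rw [pow_mul]; positivity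

theorem critB_norm_le {d : ℕ} (hd : 1 ≤ d) (y : Fin n → ℝ) : ‖y‖ ≤ 1 + ∑ i, y i ^ (2 * d) := by
  have h0 := critB_sum_nonneg d y
  refine (pi_norm_le_iff_of_nonneg (by linarith)).2 fun i => ?_
  rw [Real.norm_eq_abs]
  rcases le_total |y i| 1 with h | h
  · linarith
  · have h1 : |y i| ≤ y i ^ (2 * d) := by
      rw [← (even_two_mul d).pow_abs]
      exact le_self_pow₀ h (by omega)
    have h2 : y i ^ (2 * d) ≤ ∑ j, y j ^ (2 * d) :=
      Finset.single_le_sum (f := fun j => y j ^ (2 * d))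
        (fun j _ => by rw [pow_mul]; positivity) (Finset.mem_univ i)
    linarith

variable {G : T → (Fin n → ℝ) → ℝ} (hG : Continuous fun p : T × (Fin n → ℝ) => G p.1 p.2)
  (h0 : ∀ x y, 0 ≤ G x y) {d : ℕ} (hd : 1 ≤ d)
include hG h0 hd

theorem critB_exists (x : T) {ε : ℝ} (hε : 0 < ε) {R : ℝ} (hR : 1 + G x 0 / ε ≤ R) :
    ∃ y ∈ Metric.closedBall (0 : Fin n → ℝ) R,
      IsMinOn (fun y => G x y + ε * ∑ i, y i ^ (2 * d)) Set.univ y ∧
      mfun G d x ε = G x y + ε * ∑ i, y i ^ (2 * d) := by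
  have hc : Continuous fun y : Fin n → ℝ => G x y + ε * ∑ i, y i ^ (2 * d) := by
    have : Continuous fun y : Fin n → ℝ => G x y := hG.comp (Continuous.prodMk_right x)
    fun_prop
  have hm : (0 : Fin n → ℝ) ∈ Metric.closedBall (0 : Fin n → ℝ) R :=
    Metric.mem_closedBall_self (le_trans (by have := h0 x 0; positivity) hR)
  obtain ⟨y, hy, hmin⟩ := (isCompact_closedBall (0 : Fin n → ℝ) R).exists_isMinOn ⟨0, hm⟩
    hc.continuousOn
  have hall : ∀ z, G x y + ε * ∑ i, y i ^ (2 * d) ≤ G x z + ε * ∑ i, z i ^ (2 * d) := fun z => by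
    by_cases hz : z ∈ Metric.closedBall (0 : Fin n → ℝ) R
    · exact hmin hz
    · have h1 : G x y + ε * ∑ i, y i ^ (2 * d) ≤ G x 0 := by
        have := hmin hm
        simpa [zero_pow (by omega : 2 * d ≠ 0)] using this
      rw [mem_closedBall_zero_iff, not_le] at hz
      have h2 := critB_norm_le hd z
      have h3 : G x 0 / ε ≤ ∑ i, z i ^ (2 * d) := by linarith
      rw [div_le_iff₀ hε] at h3
      have := h0 x z
      linarith
  exact ⟨y, hy, fun z _ => hall z,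
    le_antisymm (ciInf_le ⟨_, Set.forall_mem_range.2 hall⟩ y) (le_ciInf hall)⟩

theorem exists_mfun_eq (x : T) {ε : ℝ} (hε : 0 < ε) :
    ∃ y, IsMinOn (fun y => G x y + ε * ∑ i, y i ^ (2 * d)) Set.univ y ∧
      mfun G d x ε = G x y + ε * ∑ i, y i ^ (2 * d) := by
  obtain ⟨y, -, h⟩ := critB_exists hG h0 hd x hε le_rfl
  exact ⟨y, h⟩

theorem continuousOn_mfun :
    ContinuousOn (fun p : T × ℝ => mfun G d p.1 p.2) (Set.univ ×ˢ Set.Ioi 0) := by
  rintro ⟨x₀, ε₀⟩ ⟨-, hε₀⟩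
  replace hε₀ : 0 < ε₀ := hε₀
  refine ContinuousAt.continuousWithinAt ?_
  set R := 2 + G x₀ 0 / ε₀ with hR
  have h1 : Continuous fun p : T × ℝ => sInf ((fun y : Fin n → ℝ =>
      G p.1 y + p.2 * ∑ i, y i ^ (2 * d)) '' Metric.closedBall 0 R) := by
    refine (isCompact_closedBall (0 : Fin n → ℝ) R).continuous_sInf ?_
    have : Continuous fun q : (T × ℝ) × (Fin n → ℝ) => G q.1.1 q.2 :=
      hG.comp (continuous_fst.fst.prodMk continuous_snd)
    exact this.add (continuous_fst.snd.mul (by fun_prop))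
  refine h1.continuousAt.congr ?_
  have h2 : ∀ᶠ p : T × ℝ in 𝓝 (x₀, ε₀), 0 < p.2 :=
    continuous_snd.continuousAt.eventually (lt_mem_nhds hε₀)
  have h3 : ∀ᶠ p : T × ℝ in 𝓝 (x₀, ε₀), 1 + G p.1 0 / p.2 < R := by
    have hc : Continuous fun p : T × ℝ => G p.1 0 := hG.comp (continuous_fst.prodMk continuous_const)
    have : ContinuousAt (fun p : T × ℝ => 1 + G p.1 0 / p.2) (x₀, ε₀) :=
      continuousAt_const.add (hc.continuousAt.div continuous_snd.continuousAt hε₀.ne')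
    exact this.eventually (gt_mem_nhds (by simp only [hR]; linarith))
  filter_upwards [h2, h3] with p h4 h5
  obtain ⟨y, hy, hmin, he⟩ := critB_exists hG h0 hd p.1 h4 h5.le
  rw [he]
  exact IsLeast.csInf_eq ⟨⟨y, hy, rfl⟩, by
    rintro _ ⟨z, -, rfl⟩
    exact hmin (Set.mem_univ z)⟩

theorem mfun_lt {x : T} (h : ∃ y, G x y = 0) :
    ∀ᶠ η in 𝓝[>] (0 : ℝ), ∀ ε > 0, η * mfun G d x ε < ε := by
  obtain ⟨y₀, hy₀⟩ := h
  have h1 : ∀ᶠ η in 𝓝 (0 : ℝ), η * ∑ i, y₀ i ^ (2 * d) < 1 :=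
    (by fun_prop : Continuous fun η : ℝ => η * ∑ i, y₀ i ^ (2 * d)).continuousAt.eventually
      (gt_mem_nhds (by simp))
  filter_upwards [nhdsWithin_le_nhds h1, self_mem_nhdsWithin] with η h2 hη ε hε
  obtain ⟨y, hmin, he⟩ := exists_mfun_eq hG h0 hd x hε
  have h3 : mfun G d x ε ≤ ε * ∑ i, y₀ i ^ (2 * d) := by
    have := hmin (Set.mem_univ y₀)
    simp only [Set.mem_ofPred_eq, hy₀, zero_add] at this
    rwa [he]
  calc η * mfun G d x ε ≤ η * (ε * ∑ i, y₀ i ^ (2 * d)) := mul_le_mul_of_nonneg_left h3 (le_of_lt hη)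
    _ = ε * (η * ∑ i, y₀ i ^ (2 * d)) := by ring
    _ < ε := mul_lt_of_lt_one_right hε h2

theorem lt_mfun {x : T} (h : ¬ ∃ y, G x y = 0) {η : ℝ} (hη : 0 < η) :
    ∀ᶠ ε in 𝓝[>] (0 : ℝ), ε < η * mfun G d x ε := by
  have hc : Continuous fun y : Fin n → ℝ => G x y := hG.comp (Continuous.prodMk_right x)
  obtain ⟨y₀, -, hmin⟩ := (isCompact_closedBall (0 : Fin n → ℝ) (1 + 1 / η)).exists_isMinOn
    ⟨0, Metric.mem_closedBall_self (by positivity)⟩ hc.continuousOn
  have hpos : 0 < G x y₀ := lt_of_le_of_ne (h0 x y₀) fun e => h ⟨y₀, e.symm⟩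
  filter_upwards [Ioo_mem_nhdsGT (mul_pos hη hpos)] with ε hε
  obtain ⟨y, -, he⟩ := exists_mfun_eq hG h0 hd x hε.1
  have hN := critB_sum_nonneg d y
  rw [he, mul_add]
  by_cases hy : y ∈ Metric.closedBall (0 : Fin n → ℝ) (1 + 1 / η)
  · have h1 : η * G x y₀ ≤ η * G x y := mul_le_mul_of_nonneg_left (hmin hy) hη.le
    have h2 : 0 ≤ η * (ε * ∑ i, y i ^ (2 * d)) := by have := hε.1; positivity
    linarith [hε.2]
  · rw [mem_closedBall_zero_iff, not_le] at hy
    have h1 := critB_norm_le hd y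
    have h2 : 1 / η < ∑ i, y i ^ (2 * d) := by linarith
    rw [div_lt_iff₀ hη] at h2
    have h3 := mul_lt_mul_of_pos_left h2 hε.1
    have h4 := mul_nonneg hη.le (h0 x y)
    linarith

end Crest.Agent.R316
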