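import Crest.Agent.R316.CritB

/-!
# Row 316 (S0488): CritC
Two infinitesimals and strata (pure real analysis).
`kronecker_ne_zero`: `Rp = X^l (r + X * s)` in the outer variable `ε`, `r ≠ 0` of degree `< N`, so
`|r(η)| ≥ c η^(N-1)` for small `η > 0` (factor the trailing power `η^k`, `k < N`), while `|s(η, ε)| ≤ C` on the unit
square; `C ε ≤ C η^N < c η^(N-1)`.
`state_iff`: if there is a zero use `mfun_lt`; otherwise for small `η` the continuous function
`ε ↦ η m(ε) - ε` has no zero on `(0, η^N]` (`hR`, `kronecker_ne_zero`) and is positive near `0` (`lt_mfun`),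
so it is positive at `η^N` (`intermediate_value_Icc`/`IsPreconnected`).
`ne_zero_near`: `Θ x = η^k (c_k(x) + η ∑_{j ≤ K} …)`, `c_k` is continuous and `c_k(x₀) ≠ 0`, the other
coefficients are locally bounded.
`strata_const`: take `η₀` from `ne_zero_near`; for `x` near `x₀` in the stratum (and for `x₀`),
`η ↦ η m(x, η^N) - η^N` is continuous without zero on `(0, η₀]`, so its sign at `η₀` is its sign near `0`, which
decides the existence of a zero (`hst`); and `x ↦ η₀ m(x, η₀^N) - η₀^N` is continuous and nonzero at `x₀`.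
-/

set_option autoImplicit false

open Polynomial Filter Topology

noncomputable section

namespace Crest.Agent.R316

open Crest.Agent.Lib.PolyTime


variable {T : Type} [TopologicalSpace T] {n : ℕ}

/-- lower bound for a polynomial near `0` -/
theorem critC_lower (p : ℝ[X]) {K k : ℕ} (hK : p.natDegree ≤ K) (hkK : k ≤ K)
    (hk : ∀ j < k, p.coeff j = 0) {η : ℝ} (h0 : 0 < η) (h1 : η ≤ 1) :
    η ^ k * (|p.coeff k| - η * ∑ j ∈ Finset.range (K + 1), |p.coeff j|) ≤ |p.eval η| := by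
  have e1 : p.coeff k * η ^ k =
      ∑ j ∈ Finset.range (K + 1), if j = k then p.coeff j * η ^ j else 0 := by
    rw [Finset.sum_ite_eq', if_pos (Finset.mem_range.2 (by omega))]
  have h2 : |p.coeff k * η ^ k - p.eval η| ≤
      ∑ j ∈ Finset.range (K + 1), η ^ (k + 1) * |p.coeff j| := by
    rw [e1, eval_eq_sum_range' (Nat.lt_succ_of_le hK), ← Finset.sum_sub_distrib]
    refine (Finset.abs_sum_le_sum_abs _ _).trans (Finset.sum_le_sum fun j _ => ?_)
    rcases lt_trichotomy j k with h | h | h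
    · simp [hk j h]
    · rw [if_pos h, sub_self, abs_zero]
      positivity
    · rw [if_neg h.ne', zero_sub, abs_neg, abs_mul, mul_comm, abs_of_pos (pow_pos h0 j)]
      exact mul_le_mul_of_nonneg_right (pow_le_pow_of_le_one h0.le h1 h) (abs_nonneg _)
  have h3 := abs_sub_abs_le_abs_sub (p.coeff k * η ^ k) (p.eval η)
  rw [abs_mul, abs_of_pos (pow_pos h0 k)] at h3
  rw [← Finset.mul_sum, pow_succ] at h2
  linarith

/-- a continuous function without zero on `(0, b]` has constant sign -/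
theorem critC_sign {f : ℝ → ℝ} {b : ℝ} (hf : ContinuousOn f (Set.Ioi 0))
    (h : ∀ η ∈ Set.Ioc 0 b, f η ≠ 0) {a a' : ℝ} (ha : a ∈ Set.Ioc 0 b) (ha' : a' ∈ Set.Ioc 0 b)
    (h1 : f a < 0) : f a' < 0 := by
  by_contra h2
  obtain ⟨η, hη, h3⟩ := isPreconnected_Ioc.intermediate_value ha ha'
    (hf.mono Set.Ioc_subset_Ioi_self) ⟨h1.le, not_lt.1 h2⟩
  exact h η hη h3

theorem kronecker_ne_zero {Rp : ℝ[X][X]} (h : Rp ≠ 0) {N : ℕ}
    (hN : ∀ j, (Rp.coeff j).natDegree < N) :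
    ∀ᶠ η in 𝓝[>] (0 : ℝ), ∀ ε ∈ Set.Ioc (0 : ℝ) (η ^ N), (Rp.eval (C ε)).eval η ≠ 0 := by
  set r := Rp.coeff Rp.natTrailingDegree with hr
  have hr0 : r ≠ 0 := trailingCoeff_nonzero_iff_nonzero.2 h
  have hc0 : 0 < |r.coeff r.natTrailingDegree| :=
    abs_pos.2 (trailingCoeff_nonzero_iff_nonzero.2 hr0)
  have hkN : r.natTrailingDegree + 1 ≤ N := (natTrailingDegree_le_natDegree r).trans_lt (hN _)
  let S : ℝ → ℝ := fun η => ∑ j ∈ Finset.range (Rp.natDegree + 1), |(Rp.coeff j).eval η|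
  let S' : ℝ := ∑ j ∈ Finset.range (r.natDegree + 1), |r.coeff j|
  have hS0 : ∀ η, 0 ≤ S η := fun η => Finset.sum_nonneg fun j _ => abs_nonneg _
  have hcont : Continuous fun η : ℝ => |r.coeff r.natTrailingDegree| - η * S' - η * S η := by
    have : Continuous S := continuous_finsetSum _ fun j _ => (Polynomial.continuous _).abs
    fun_prop
  have hev : ∀ᶠ η in 𝓝 (0 : ℝ), 0 < |r.coeff r.natTrailingDegree| - η * S' - η * S η :=
    hcont.continuousAt.eventually (lt_mem_nhds (by simpa using hc0))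
  filter_upwards [nhdsWithin_le_nhds hev, Ioc_mem_nhdsGT (zero_lt_one' ℝ)] with η h1 hη ε hε
  have h2 := critC_lower r le_rfl (natTrailingDegree_le_natDegree r)
    (fun j hj => coeff_eq_zero_of_lt_natTrailingDegree hj) hη.1 hη.2
  have h3 := critC_lower (Rp.map (evalRingHom η)) natDegree_map_le
    (natTrailingDegree_le_natDegree Rp)
    (fun j hj => by rw [coeff_map, coeff_eq_zero_of_lt_natTrailingDegree hj, map_zero]) hε.1
    (hε.2.trans (pow_le_one₀ hη.1.le hη.2))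
  have e : (Rp.map (evalRingHom η)).eval ε = (Rp.eval (C ε)).eval η := by
    rw [eval_map, ← coe_evalRingHom η, ← eval₂_id (p := Rp), hom_eval₂]
    simp
  simp only [coeff_map, coe_evalRingHom] at h3
  rw [e, ← hr] at h3
  have h4 : ε * S η ≤ η ^ r.natTrailingDegree * (η * S η) := by
    rw [← mul_assoc, ← pow_succ]
    exact mul_le_mul_of_nonneg_right (hε.2.trans (pow_le_pow_of_le_one hη.1.le hη.2 hkN)) (hS0 η)
  have h5 := mul_pos (pow_pos hη.1 r.natTrailingDegree) h1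
  have h6 : 0 < |r.eval η| - ε * S η := by
    simp only [S'] at h5
    linarith
  exact abs_pos.1 ((mul_pos (pow_pos hε.1 _) h6).trans_le h3)

theorem ne_zero_near {Θ : T → ℝ[X]} {K : ℕ} (hK : ∀ x, (Θ x).natDegree ≤ K)
    (hc : ∀ j, Continuous fun x => (Θ x).coeff j) {x₀ : T} (hx : Θ x₀ ≠ 0) :
    ∃ η₀ > (0 : ℝ), ∀ᶠ x in 𝓝 x₀, (Θ x).natTrailingDegree = (Θ x₀).natTrailingDegree →
      ∀ η ∈ Set.Ioc 0 η₀, (Θ x).eval η ≠ 0 := by
  set k := (Θ x₀).natTrailingDegree with hk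
  have hc0 : 0 < |(Θ x₀).coeff k| := abs_pos.2 (trailingCoeff_nonzero_iff_nonzero.2 hx)
  let S : T → ℝ := fun x => ∑ j ∈ Finset.range (K + 1), |(Θ x).coeff j|
  have hS0 : ∀ x, 0 ≤ S x := fun x => Finset.sum_nonneg fun j _ => abs_nonneg _
  have hS : Continuous S := continuous_finsetSum _ fun j _ => (hc j).abs
  have h1 : ∀ᶠ η in 𝓝 (0 : ℝ), 0 < |(Θ x₀).coeff k| - η * S x₀ :=
    (by fun_prop : Continuous fun η : ℝ => |(Θ x₀).coeff k| - η * S x₀).continuousAt.eventually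
      (lt_mem_nhds (by simpa using hc0))
  obtain ⟨η₀, h2, h3⟩ := ((h1.filter_mono (nhdsWithin_le_nhds (s := Set.Ioi 0))).and
    (Ioc_mem_nhdsGT (zero_lt_one' ℝ))).exists
  refine ⟨η₀, h3.1, ?_⟩
  have h4 : ∀ᶠ x in 𝓝 x₀, 0 < |(Θ x).coeff k| - η₀ * S x :=
    ((hc k).abs.sub (hS.const_mul η₀)).continuousAt.eventually (lt_mem_nhds h2)
  filter_upwards [h4] with x h5 h6 η hη
  have h7 := critC_lower (Θ x) (hK x) (k := k)
    (h6 ▸ (natTrailingDegree_le_natDegree _).trans (hK x))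
    (fun j hj => coeff_eq_zero_of_lt_natTrailingDegree (h6 ▸ hj)) hη.1 (hη.2.trans h3.2)
  have h8 : 0 < |(Θ x).coeff k| - η * S x := by
    have := mul_le_mul_of_nonneg_right hη.2 (hS0 x)
    linarith
  exact abs_pos.1 ((mul_pos (pow_pos hη.1 _) h8).trans_le h7)

variable {G : T → (Fin n → ℝ) → ℝ} (hG : Continuous fun p : T × (Fin n → ℝ) => G p.1 p.2)
  (h0 : ∀ x y, 0 ≤ G x y) {d : ℕ} (hd : 1 ≤ d)
include hG h0 hd

theorem state_iff (x : T) {Rp : ℝ[X][X]} (h : Rp ≠ 0) {N : ℕ}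
    (hN : ∀ j, (Rp.coeff j).natDegree < N)
    (hR : ∀ η ε : ℝ, 0 < ε → η * mfun G d x ε = ε → (Rp.eval (C ε)).eval η = 0) :
    ∀ᶠ η in 𝓝[>] (0 : ℝ), (η * mfun G d x (η ^ N) < η ^ N ↔ ∃ y, G x y = 0) := by
  by_cases hz : ∃ y, G x y = 0
  · filter_upwards [mfun_lt hG h0 hd hz, self_mem_nhdsWithin] with η h1 hη
    exact iff_of_true (h1 _ (pow_pos hη N)) hz
  filter_upwards [kronecker_ne_zero h hN, self_mem_nhdsWithin] with η h1 hη
  refine iff_of_false (fun h2 => ?_) hz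
  have hm : ContinuousOn (fun ε : ℝ => mfun G d x ε) (Set.Ioi 0) :=
    (continuousOn_mfun hG h0 hd).comp (f := fun ε : ℝ => (x, ε)) (by fun_prop)
      fun ε hε => ⟨Set.mem_univ _, hε⟩
  obtain ⟨ε, h3, h4⟩ := ((lt_mfun hG h0 hd hz hη).and (Ioc_mem_nhdsGT (pow_pos hη N))).exists
  have h5 := critC_sign (f := fun ε => η * mfun G d x ε - ε) (b := η ^ N)
    ((hm.const_mul η).sub continuousOn_id)
    (fun ε hε h6 => h1 ε hε (hR η ε hε.1 (sub_eq_zero.1 h6))) ⟨pow_pos hη N, le_rfl⟩ h4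
    (sub_neg.2 h2)
  linarith

theorem strata_const {Θ : T → ℝ[X]} {K N : ℕ} (hK : ∀ x, (Θ x).natDegree ≤ K)
    (hc : ∀ j, Continuous fun x => (Θ x).coeff j) (hne : ∀ x, Θ x ≠ 0)
    (hΘ : ∀ x (η : ℝ), 0 < η → η * mfun G d x (η ^ N) = η ^ N → (Θ x).eval η = 0)
    (hst : ∀ x, ∀ᶠ η in 𝓝[>] (0 : ℝ), (η * mfun G d x (η ^ N) < η ^ N ↔ ∃ y, G x y = 0)) (x₀ : T) :
    ∀ᶠ x in 𝓝 x₀, (Θ x).natTrailingDegree = (Θ x₀).natTrailingDegree →
      ((∃ y, G x y = 0) ↔ ∃ y, G x₀ y = 0) := by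
  obtain ⟨η₀, hη₀, h1⟩ := ne_zero_near hK hc (hne x₀)
  have key : ∀ x, (∀ η ∈ Set.Ioc 0 η₀, (Θ x).eval η ≠ 0) →
      ((∃ y, G x y = 0) ↔ η₀ * mfun G d x (η₀ ^ N) - η₀ ^ N < 0) := fun x hx => by
    have hm : ContinuousOn (fun η : ℝ => mfun G d x (η ^ N)) (Set.Ioi 0) :=
      (continuousOn_mfun hG h0 hd).comp (f := fun η : ℝ => (x, η ^ N)) (by fun_prop)
        fun η (hη : 0 < η) => ⟨Set.mem_univ _, (pow_pos hη N : 0 < η ^ N)⟩
    have hf : ContinuousOn (fun η : ℝ => η * mfun G d x (η ^ N) - η ^ N) (Set.Ioi 0) :=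
      (continuousOn_id.mul hm).sub (by fun_prop)
    have hz : ∀ η ∈ Set.Ioc 0 η₀, η * mfun G d x (η ^ N) - η ^ N ≠ 0 :=
      fun η hη h2 => hx η hη (hΘ x η hη.1 (sub_eq_zero.1 h2))
    obtain ⟨η, h2, h3⟩ := ((hst x).and (Ioc_mem_nhdsGT hη₀)).exists
    rw [← h2, ← sub_neg]
    exact ⟨critC_sign hf hz h3 ⟨hη₀, le_rfl⟩, critC_sign hf hz ⟨hη₀, le_rfl⟩ h3⟩
  have hx₀ := h1.self_of_nhds rfl
  have hcont : Continuous fun x => η₀ * mfun G d x (η₀ ^ N) - η₀ ^ N := by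
    have hm : Continuous fun x => mfun G d x (η₀ ^ N) :=
      (continuousOn_mfun hG h0 hd).comp_continuous (f := fun x : T => (x, η₀ ^ N)) (by fun_prop)
        fun x => ⟨Set.mem_univ _, pow_pos hη₀ N⟩
    fun_prop
  have hne₀ : η₀ * mfun G d x₀ (η₀ ^ N) - η₀ ^ N ≠ 0 :=
    fun h2 => hx₀ η₀ ⟨hη₀, le_rfl⟩ (hΘ x₀ η₀ hη₀ (sub_eq_zero.1 h2))
  have h2 : ∀ᶠ x in 𝓝 x₀, (η₀ * mfun G d x (η₀ ^ N) - η₀ ^ N < 0 ↔
      η₀ * mfun G d x₀ (η₀ ^ N) - η₀ ^ N < 0) := by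
    rcases hne₀.lt_or_gt with h3 | h3
    · filter_upwards [hcont.continuousAt.eventually (gt_mem_nhds h3)] with x hx
      exact iff_of_true hx h3
    · filter_upwards [hcont.continuousAt.eventually (lt_mem_nhds h3)] with x hx
      exact iff_of_false (not_lt.2 hx.le) (not_lt.2 h3.le)
  filter_upwards [h1, h2] with x h3 h4 h5
  rw [key x (h3 h5), key x₀ hx₀, h4]

end Crest.Agent.R316
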