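import Crest.Agent.R316.Defs

/-!
# Row 316 (S0488): CritS
Critical points and sample points (pure real analysis).
`crit_of_isLocalMin`: `s ↦ evl φ (update y i s) G` has derivative `evl φ y (pderiv i G)` at `y i` (induction on
`G`), use `IsLocalMin.hasDerivAt_eq_zero`.
`exists_sample_seq`: `N y = ∑ yᵢ^(2d)` is coercive.  Fix `y₀ ∈ Z`, `C = N y₀`, `Z' = {G = 0} \\ Z`.  The compact set
`B = {N ≤ C + 1}`; `K = Z ∩ B`, `K' = Z' ∩ B` are disjoint compact sets; take `r > 0` with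
`cthickening r K` disjoint from `K'` and `U = cthickening r K ∩ B` (compact).  On the compact set
`U ∩ {infDist · K = r}` (more simply `U \\ thickening r K`) `G` has no zero, so `G ≥ h₀ > 0` there.  For `ε C < h₀`
a minimiser `y_ε` of `G + ε N` on `U` has value `≤ ε C`, hence `N y_ε ≤ C < C + 1` and `y_ε ∈ thickening r K`: an
interior point, so a local minimum; `G y_ε ≤ ε C`.  Take `ε_j → 0` and a convergent subsequence
(`IsCompact.tendsto_subseq`); the limit is a zero of `G` in `U`, hence in `Z`.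
`eval_trailingCoeff_eq_zero`: `χ = X^l * χ₁` with `χ₁.coeff 0 = trailingCoeff χ`
(`Polynomial.X_pow_dvd_iff`), divide by `ε^l`, joint continuity of the evaluation.
`exists_bound_roots`: at an index where `‖ξ i‖` is maximal `=: M ≥ 1`, `‖a‖ M^D ≤ C M^(D-1)`.
-/

set_option autoImplicit false

open Polynomial Filter Topology

noncomputable section

namespace Crest.Agent.R316

open Crest.Agent.Lib.PolyTime


theorem exists_sample_seq {n : ℕ} {G : (Fin n → ℝ) → ℝ} (hG : Continuous G) (h0 : ∀ y, 0 ≤ G y)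
    {d : ℕ} (hd : 1 ≤ d) {Z : Set (Fin n → ℝ)} (hne : Z.Nonempty) (hZ : ∀ y ∈ Z, G y = 0)
    (hc : IsClosed Z) (hc' : IsClosed ({y | G y = 0} \ Z)) :
    ∃ y ∈ Z, ∃ (ε : ℕ → ℝ) (z : ℕ → Fin n → ℝ), (∀ j, 0 < ε j) ∧ Tendsto ε atTop (𝓝 0) ∧
      Tendsto z atTop (𝓝 y) ∧
      ∀ j, IsLocalMin (fun y => G y + ε j * ∑ i, y i ^ (2 * d)) (z j) := by
  obtain ⟨y₀, hy₀⟩ := hne
  set N : (Fin n → ℝ) → ℝ := fun y => ∑ i, y i ^ (2 * d) with hN
  have hNc : Continuous N := by rw [hN]; fun_prop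
  have hterm : ∀ (y : Fin n → ℝ) (i : Fin n), 0 ≤ y i ^ (2 * d) := fun y i => by
    rw [pow_mul]; positivity
  have hN0 : ∀ y, 0 ≤ N y := fun y => Finset.sum_nonneg fun i _ => hterm y i
  set C := N y₀ with hC
  have hC0 : 0 ≤ C := hN0 y₀
  set B : Set (Fin n → ℝ) := {y | N y ≤ C + 1} with hB
  have hBc : IsCompact B := by
    refine Metric.isCompact_of_isClosed_isBounded (isClosed_le hNc continuous_const) ?_
    refine (Metric.isBounded_closedBall (x := (0 : Fin n → ℝ)) (r := C + 2)).subset fun y hy => ?_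
    rw [mem_closedBall_zero_iff, pi_norm_le_iff_of_nonneg (by linarith)]
    intro i
    have h1 : y i ^ (2 * d) ≤ N y :=
      Finset.single_le_sum (f := fun i => y i ^ (2 * d)) (fun i _ => hterm y i) (Finset.mem_univ i)
    have h2 : N y ≤ C + 1 := hy
    rw [Real.norm_eq_abs]
    by_cases h3 : |y i| ≤ 1
    · linarith
    · have h4 : |y i| ≤ |y i| ^ (2 * d) := le_self_pow₀ (le_of_not_ge h3) (by omega)
      rw [pow_mul, sq_abs, ← pow_mul] at h4
      linarith
  have hKc : IsCompact (Z ∩ B) := hBc.inter_left hc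
  have hdisj : Disjoint (Z ∩ B) ({y | G y = 0} \ Z) :=
    Set.disjoint_left.2 fun y hy hy' => hy'.2 hy.1
  obtain ⟨r, hr, hr'⟩ := hdisj.exists_cthickenings hKc hc'
  have hr2 : ∀ y ∈ Metric.cthickening r (Z ∩ B), G y = 0 → y ∈ Z := fun y hy hGy => by
    by_contra hyZ
    exact Set.disjoint_left.1 hr' hy (Metric.self_subset_cthickening _ ⟨hGy, hyZ⟩)
  set U := Metric.cthickening r (Z ∩ B) ∩ B with hU
  have hUc : IsCompact U := hBc.inter_left Metric.isClosed_cthickening
  have hy₀B : y₀ ∈ B := by show N y₀ ≤ C + 1; linarith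
  have hy₀U : y₀ ∈ U := ⟨Metric.self_subset_cthickening _ ⟨hy₀, hy₀B⟩, hy₀B⟩
  have hWc : IsCompact (U \ Metric.thickening r (Z ∩ B)) := hUc.diff Metric.isOpen_thickening
  obtain ⟨h₀, hh₀, hh₀'⟩ := hWc.exists_forall_le' (a := 0) hG.continuousOn fun y hy => by
    refine lt_of_le_of_ne (h0 y) fun hGy => hy.2 ?_
    exact Metric.self_subset_thickening hr _ ⟨hr2 y hy.1.1 hGy.symm, hy.1.2⟩
  have key : ∀ e : ℝ, 0 < e → e * C < h₀ → ∃ z ∈ U, G z ≤ e * C ∧
      IsLocalMin (fun y => G y + e * N y) z := fun e he heC => by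
    obtain ⟨z, hzU, hz⟩ := hUc.exists_isMinOn ⟨y₀, hy₀U⟩
      (f := fun y => G y + e * N y) (hG.add (continuous_const.mul hNc)).continuousOn
    have h1 : G z + e * N z ≤ G y₀ + e * N y₀ := hz hy₀U
    rw [hZ y₀ hy₀, zero_add, ← hC] at h1
    have h2 : 0 ≤ e * N z := mul_nonneg he.le (hN0 z)
    have h3 : N z ≤ C := le_of_mul_le_mul_left (by linarith [h0 z]) he
    have h4 : z ∈ Metric.thickening r (Z ∩ B) := by
      by_contra h4
      have := hh₀' z ⟨hzU, h4⟩
      linarith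
    refine ⟨z, hzU, by linarith, hz.isLocalMin ?_⟩
    have ho : IsOpen (Metric.thickening r (Z ∩ B) ∩ {y | N y < C + 1}) :=
      Metric.isOpen_thickening.inter (isOpen_lt hNc continuous_const)
    refine mem_of_superset (ho.mem_nhds ⟨h4, by show N z < C + 1; linarith⟩) fun y hy => ?_
    exact ⟨Metric.thickening_subset_cthickening _ _ hy.1,
      show N y ≤ C + 1 from le_of_lt hy.2⟩
  set e : ℕ → ℝ := fun j => h₀ / (C + 1) * (1 / ((j : ℝ) + 1)) with he
  have he0 : ∀ j, 0 < e j := fun j => by rw [he]; positivity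
  have heC : ∀ j, e j * C < h₀ := fun j => by
    have h1 : 1 / ((j : ℝ) + 1) ≤ 1 := by
      rw [div_le_one (by positivity)]; linarith [Nat.cast_nonneg (α := ℝ) j]
    have h2 : e j ≤ h₀ / (C + 1) := mul_le_of_le_one_right (by positivity) h1
    have h3 : h₀ / (C + 1) * C < h₀ := by
      rw [div_mul_eq_mul_div, div_lt_iff₀ (by linarith)]; nlinarith
    exact lt_of_le_of_lt (mul_le_mul_of_nonneg_right h2 hC0) h3
  have het : Tendsto e atTop (𝓝 0) := by
    have := tendsto_one_div_add_atTop_nhds_zero_nat (𝕜 := ℝ).const_mul (h₀ / (C + 1))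
    rwa [mul_zero] at this
  choose z hzU hzG hzm using fun j => key (e j) (he0 j) (heC j)
  obtain ⟨y, hyU, φ, hφ, hlim⟩ := hUc.tendsto_subseq hzU
  have heφ : Tendsto (fun j => e (φ j)) atTop (𝓝 0) := het.comp hφ.tendsto_atTop
  refine ⟨y, hr2 y hyU.1 (le_antisymm ?_ (h0 y)), fun j => e (φ j), fun j => z (φ j),
    fun j => he0 _, heφ, hlim, fun j => hzm _⟩
  have h1 : Tendsto (fun j => G (z (φ j))) atTop (𝓝 (G y)) := (hG.tendsto y).comp hlim
  have h2 : Tendsto (fun j => e (φ j) * C) atTop (𝓝 0) := by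
    have := heφ.mul_const C
    rwa [zero_mul] at this
  exact le_of_tendsto_of_tendsto' h1 h2 fun j => hzG _

theorem CritS_continuous_eval (χ : ℝ[X][X]) :
    Continuous fun p : ℝ × ℝ => (χ.eval (C p.1)).eval p.2 := by
  induction χ using Polynomial.induction_on' with
  | add p q hp hq => simp only [eval_add]; exact hp.add hq
  | monomial k a =>
    simp only [eval_monomial, eval_mul, eval_pow, eval_C]
    exact (a.continuous.comp continuous_snd).mul (continuous_fst.pow k)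

theorem eval_trailingCoeff_eq_zero (χ : ℝ[X][X]) {ε t : ℕ → ℝ} {t₀ : ℝ} (hε : ∀ j, ε j ≠ 0)
    (hε0 : Tendsto ε atTop (𝓝 0)) (ht : Tendsto t atTop (𝓝 t₀))
    (h : ∀ j, (χ.eval (C (ε j))).eval (t j) = 0) : χ.trailingCoeff.eval t₀ = 0 := by
  obtain ⟨χ₁, hχ₁⟩ : (X : ℝ[X][X]) ^ χ.natTrailingDegree ∣ χ :=
    X_pow_dvd_iff.2 fun d hd => coeff_eq_zero_of_lt_natTrailingDegree hd
  have h1 : χ.trailingCoeff = χ₁.coeff 0 := by
    rw [trailingCoeff]
    have := coeff_X_pow_mul χ₁ χ.natTrailingDegree 0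
    rw [← hχ₁, zero_add] at this
    exact this
  have h2 : ∀ j, (χ₁.eval (C (ε j))).eval (t j) = 0 := fun j => by
    have h3 := h j
    rw [hχ₁] at h3
    simp only [eval_mul, eval_pow, eval_X, eval_C] at h3
    exact (mul_eq_zero.1 h3).resolve_left (pow_ne_zero _ (hε j))
  have h3 := ((CritS_continuous_eval χ₁).tendsto (0, t₀)).comp (hε0.prodMk_nhds ht)
  have h4 : ((fun p : ℝ × ℝ => (χ₁.eval (C p.1)).eval p.2) ∘ fun j => (ε j, t j)) = fun _ => 0 :=
    funext h2
  rw [h4] at h3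
  have h5 := tendsto_nhds_unique h3 tendsto_const_nhds
  rw [h1, coeff_zero_eq_eval_zero]
  simpa using h5

end Crest.Agent.R316
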