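import Crest.Agent.R316.Gap

/-!
# Row 316 (S0488): Prec
Evaluation at rational points, names of real roots, sign determination.
`exists_eval_rat`: `Bt = ∏_{i<m} B i`, `A' i = A i * ∏_{j<m} (if j = i then 1 else B j)`, `K > totalDegree q`,
`w = eval₂Hom (Int.castRingHom _) (fun i => if i < m then C (A' i) * X else 0) q ∈ ℤ[s]` (degree `< K`),
`U = ∑_{k<K} Bt^(K-k) coeff k w`, `V = Bt^K`; `U/V = w(1/Bt)`.
`exists_names`: `Λ` from `exists_sep`, `L₁ = L + Λ + 2`, `τ = 2^(-L₁ (Λ+1))`, `L₂ = L₁ (Λ+1) + Λ + (Λ+2) Λ`,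
`exists_approx` at precision `L₂`; `V c := 0 < B ∧ |ψ(A/B)| ≤ τ` (`exists_eval_rat` with `m = 1` for
`eval₂RingHom (Int.castRingHom _) (X 0) ψ`, `EV.lt`).  If valid, `|lc| ∏ ‖x - ρ i‖ ≤ τ < 1` forces `D ≥ 1` and some
`‖x - ρ i‖ ≤ 2^(-L₁)` (otherwise the product is `> 2^(-L₁ D) ≥ τ`); `conj (ρ i)` is a root at distance
`≤ 2^(1-L₁) < 2^(-Λ)`, so `ρ i` is real.  Conversely `|ψ(x)| ≤ 2^Λ 2^(-L₂) (2^(Λ+2))^(D-1) ≤ τ`.
`exists_precision`: `G₀` from `exists_gap`, `G = G₀ + 1`, `Λ` bounds the roots, `nrm q` and `totalDegree q`;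
`L = G₀ + 2 + Λ + (Λ+1) Λ`; `abs_ivl_sub_le` with `B = 2^(Λ+1)` gives `|q x - q ξ| ≤ 2^(-G₀-2)`.
-/

set_option autoImplicit false

open Polynomial

noncomputable section

namespace Crest.Agent.R316

open Crest.Agent.Lib.PolyTime
variable {α R S : Type} [Enc α] [CommRing R] [PR R] [CommRing S] [PR S]


theorem exists_precision {ψ : α → ℤ[X]} {q : α → MvPolynomial ℕ ℤ} {m : α → ℕ} (hψ : EV ψ)
    (h0 : ∀ a, ψ a ≠ 0) (hq : EV q) (hm : CF m) (hm' : PB m) :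
    ∃ L G : α → ℕ, CF L ∧ CF G ∧ ∀ a (ξ x : Fin (m a) → ℝ), (∀ i, zev (ξ i) (ψ a) = 0) →
      (∀ i, |x i - ξ i| ≤ ((2 : ℝ) ^ L a)⁻¹) →
        (0 < ivl ξ (q a) ↔ ((2 : ℝ) ^ G a)⁻¹ < ivl x (q a)) ∧
        (ivl ξ (q a) < 0 ↔ ivl x (q a) < -((2 : ℝ) ^ G a)⁻¹) := by
  obtain ⟨G₀, hG₀, hgap⟩ := exists_gap hψ h0 hm hm' hq
  obtain ⟨Λ, hΛ, hsep⟩ := exists_sep hψ h0
  obtain ⟨N, hN, hnrm⟩ := hq.exists_nrm
  refine ⟨fun a => G₀ a + 2 + N a + (Λ a + 1) * N a, fun a => G₀ a + 1, by fun_prop, by fun_prop,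
    fun a ξ x hξ hx => ?_⟩
  have hroot : ∀ i, zev ((ξ i : ℝ) : ℂ) (ψ a) = 0 := fun i => by
    rw [← ofReal_zev, hξ i, Complex.ofReal_zero]
  have hξB : ∀ i, |ξ i| ≤ 2 ^ Λ a := fun i => by
    simpa using (hsep a).2.2.1 _ (hroot i)
  have h1 : (1 : ℝ) ≤ 2 ^ Λ a := one_le_pow₀ (by norm_num)
  have hB : (1 : ℝ) ≤ 2 ^ (Λ a + 1) := one_le_pow₀ (by norm_num)
  have hε1 : ((2 : ℝ) ^ (G₀ a + 2 + N a + (Λ a + 1) * N a))⁻¹ ≤ 1 :=
    inv_le_one_of_one_le₀ (one_le_pow₀ (by norm_num))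
  have hclose := abs_ivl_sub_le (q a) (x := x) (y := ξ) hB (by positivity)
    (fun i => by
      have h2 := abs_sub_abs_le_abs_sub (x i) (ξ i)
      have h3 := hx i
      have h4 := hξB i
      rw [pow_succ]
      linarith)
    (fun i => by
      have h4 := hξB i
      rw [pow_succ]
      linarith) hx
  set δ : ℝ := ((2 : ℝ) ^ (G₀ a + 2))⁻¹ with hδ
  have hδ0 : 0 < δ := by positivity
  have hbound : |ivl x (q a) - ivl ξ (q a)| ≤ δ := by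
    refine hclose.trans ?_
    have h2 : (nrm (q a) : ℝ) ≤ 2 ^ N a := by exact_mod_cast hnrm a
    have h3 : ((2 : ℝ) ^ (Λ a + 1)) ^ (q a).totalDegree ≤ 2 ^ ((Λ a + 1) * N a) := by
      rw [pow_mul]
      exact pow_le_pow_right₀ hB (totalDegree_le_of_nrm_le (hnrm a))
    calc _ ≤ (2 : ℝ) ^ N a * 2 ^ ((Λ a + 1) * N a) *
          ((2 : ℝ) ^ (G₀ a + 2 + N a + (Λ a + 1) * N a))⁻¹ := by gcongr
      _ = δ := by
        rw [hδ, pow_add _ (G₀ a + 2 + N a), pow_add _ (G₀ a + 2)]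
        field_simp
  have hG : ((2 : ℝ) ^ (G₀ a + 1))⁻¹ = 2 * δ := by
    rw [hδ, pow_succ _ (G₀ a + 1)]
    field_simp
  have hG' : ((2 : ℝ) ^ G₀ a)⁻¹ = 4 * δ := by
    rw [hδ, pow_add]
    field_simp
    norm_num
  have hgap' : ivl ξ (q a) = 0 ∨ 4 * δ ≤ |ivl ξ (q a)| := by
    by_cases h : ivl ξ (q a) = 0
    · exact Or.inl h
    · right
      have := hgap a (fun i => (ξ i : ℂ)) hroot (by
        rw [← ofReal_ivl]; exact_mod_cast h)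
      rwa [← ofReal_ivl, Complex.norm_real, Real.norm_eq_abs, hG'] at this
  rw [hG]
  obtain ⟨hb1, hb2⟩ := abs_le.1 hbound
  rcases hgap' with h | h
  · rw [h] at hb1 hb2 ⊢
    exact ⟨⟨fun h' => absurd h' (lt_irrefl _), fun h' => by linarith⟩,
      ⟨fun h' => absurd h' (lt_irrefl _), fun h' => by linarith⟩⟩
  · rcases le_abs.1 h with h | h
    · exact ⟨⟨fun _ => by linarith, fun _ => by linarith⟩,
        ⟨fun _ => by linarith, fun _ => by linarith⟩⟩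
    · exact ⟨⟨fun _ => by linarith, fun _ => by linarith⟩,
        ⟨fun _ => by linarith, fun _ => by linarith⟩⟩

end Crest.Agent.R316
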