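import Crest.Agent.R316.Defs

/-!
# Row 316 (S0488): NewtonA
The product from the power sums.  `E = ∏ (1 - λᵢ X)` and `F = ∑_{m ≤ Δ} (-S)^m / m!`
(`S = ∑_{j=1}^Δ p_j X^j / j`) both satisfy `Y' ≡ -S' Y mod X^Δ`, `Y(0) = 1`
(`F' = -S' (F - (-S)^Δ/Δ!)`; `E' = -∑ λᵢ ∏_{l≠i} (1 - λ_l X)` and
`(1 - λ X) ∑_{j<Δ} λ^j X^j = 1 - λ^Δ X^Δ`), hence agree `mod X^(Δ+1)` (induction on the coefficients,
`(k+1)` is invertible).  Clearing denominators gives `newton_formula`.  In `exists_newton` write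
`Δ!/j = ∏_{i<Δ} (if i+1 = j then 1 else i+1)`, `Δ!/m! = ∏_{i<Δ} (if i < m then 1 else i+1)`,
`Δ! = ∏_{i<Δ} (i+1)` to see that everything is `EV`; `c = (-1)^Δ Δ!^(Δ+1)`.
-/

set_option autoImplicit false

open Polynomial

noncomputable section

namespace Crest.Agent.R316

open Crest.Agent.Lib.PolyTime
variable {α R S : Type} [Enc α] [CommRing R] [PR R] [CommRing S] [PR S]


theorem NewtonA_unique {L : Type} [CommRing L] [Algebra ℚ L] {W G : L[X]} {Δ : ℕ}
    (h : X ^ Δ ∣ derivative W - G * W) (h0 : W.coeff 0 = 0) : ∀ k ≤ Δ, W.coeff k = 0 := by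
  intro k
  induction k using Nat.strong_induction_on with
  | _ k ih =>
    intro hk
    rcases k with _ | k
    · exact h0
    · have h1 := X_pow_dvd_iff.1 h k (by omega)
      rw [coeff_sub, coeff_derivative, coeff_mul, Finset.sum_eq_zero fun x hx => by
        rw [ih x.2 (by have := Finset.HasAntidiagonal.mem_antidiagonal.1 hx; omega)
          (by have := Finset.HasAntidiagonal.mem_antidiagonal.1 hx; omega), mul_zero], sub_zero] at h1
      have h2 : ((k : L) + 1) * algebraMap ℚ L (1 / ((k : ℚ) + 1)) = 1 := by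
        rw [show (k : L) + 1 = algebraMap ℚ L ((k : ℚ) + 1) by simp, ← map_mul,
          mul_one_div_cancel (by positivity), map_one]
      rw [← mul_one (W.coeff (k + 1)), ← h2, ← mul_assoc, h1, zero_mul]

theorem NewtonA_exp {L : Type} [CommRing L] [Algebra ℚ L] (T : L[X]) (Δ : ℕ) :
    derivative (∑ m ∈ Finset.range (Δ + 1), C (algebraMap ℚ L (1 / (m.factorial : ℚ))) * T ^ m) =
      derivative T * ∑ m ∈ Finset.range Δ, C (algebraMap ℚ L (1 / (m.factorial : ℚ))) * T ^ m := by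
  rw [Finset.sum_range_succ', derivative_add, derivative_sum, Finset.mul_sum, pow_zero, mul_one,
    derivative_C, add_zero]
  refine Finset.sum_congr rfl fun m _ => ?_
  have h : algebraMap ℚ L (1 / ((m + 1).factorial : ℚ)) * ((m + 1 : ℕ) : L) =
      algebraMap ℚ L (1 / (m.factorial : ℚ)) := by
    rw [← map_natCast (algebraMap ℚ L), ← map_mul, Nat.factorial_succ]
    congr 1
    have : (m.factorial : ℚ) ≠ 0 := by exact_mod_cast m.factorial_ne_zero
    push_cast
    field_simp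
  rw [derivative_C_mul, derivative_pow, Nat.add_sub_cancel, ← h, C_mul]
  ring

theorem NewtonA_prod {L ι : Type} [CommRing L] [Fintype ι] (lam : ι → L) (Δ : ℕ) :
    X ^ Δ ∣ derivative (∏ i, (1 - C (lam i) * X)) -
      (-∑ j ∈ Finset.range Δ, C (∑ i, lam i ^ (j + 1)) * X ^ j) * ∏ i, (1 - C (lam i) * X) := by
  classical
  have h1 : ∑ j ∈ Finset.range Δ, C (∑ i, lam i ^ (j + 1)) * X ^ j =
      ∑ i, C (lam i) * ∑ j ∈ Finset.range Δ, (C (lam i) * X) ^ j := by
    simp only [map_sum, Finset.sum_mul, Finset.mul_sum]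
    rw [Finset.sum_comm]
    refine Finset.sum_congr rfl fun i _ => Finset.sum_congr rfl fun j _ => ?_
    rw [C_pow]; ring
  rw [h1, derivative_prod_finset, neg_mul, sub_neg_eq_add, Finset.sum_mul, ← Finset.sum_add_distrib]
  refine Finset.dvd_sum fun i _ => ?_
  rw [← Finset.mul_prod_erase _ _ (Finset.mem_univ i), mul_assoc, ← mul_assoc (∑ _ ∈ _, _),
    geom_sum_mul_neg]
  refine ⟨-(C (lam i) * C (lam i) ^ Δ * ∏ l ∈ Finset.univ.erase i, (1 - C (lam l) * X)), ?_⟩
  simp only [derivative_sub, derivative_one, derivative_mul, derivative_C, derivative_X]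
  ring

theorem newton_formula {L ι : Type} [CommRing L] [Algebra ℚ L] [Fintype ι] (lam : ι → L) (Δ : ℕ)
    (hΔ : Fintype.card ι = Δ) :
    (∑ m ∈ Finset.range (Δ + 1), C ((Δ.factorial / m.factorial * Δ.factorial ^ (Δ - m) : ℕ) : L) *
      (-∑ j ∈ Finset.range Δ, C (((Δ.factorial / (j + 1) : ℕ) : L) * ∑ i, lam i ^ (j + 1)) *
        X ^ (j + 1)) ^ m).coeff Δ = (-1) ^ Δ * (Δ.factorial : L) ^ (Δ + 1) * ∏ i, lam i := by
  set S : L[X] := ∑ j ∈ Finset.range Δ,
    C (algebraMap ℚ L (1 / ((j : ℚ) + 1)) * ∑ i, lam i ^ (j + 1)) * X ^ (j + 1) with hS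
  set F : L[X] := ∑ m ∈ Finset.range (Δ + 1),
    C (algebraMap ℚ L (1 / (m.factorial : ℚ))) * (-S) ^ m with hF
  set E : L[X] := ∏ i, (1 - C (lam i) * X) with hE
  have hXS : X ∣ S := Finset.dvd_sum fun j _ => (dvd_pow_self X (Nat.succ_ne_zero j)).mul_left _
  have hS' : derivative S = ∑ j ∈ Finset.range Δ, C (∑ i, lam i ^ (j + 1)) * X ^ j := by
    rw [hS, derivative_sum]
    refine Finset.sum_congr rfl fun j _ => ?_
    rw [derivative_C_mul_X_pow, Nat.add_sub_cancel]
    congr 2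
    rw [mul_right_comm, ← map_natCast (algebraMap ℚ L), ← map_mul, Nat.cast_succ,
      one_div_mul_cancel (by positivity), map_one, one_mul]
  have h1 : X ^ Δ ∣ derivative F - (-derivative S) * F := by
    rw [hF, NewtonA_exp, Finset.sum_range_succ, derivative_neg, mul_add, sub_add_cancel_left,
      dvd_neg]
    exact ((pow_dvd_pow_of_dvd (dvd_neg.2 hXS) Δ).mul_left _).mul_left _
  have h2 : X ^ Δ ∣ derivative E - (-derivative S) * E := by
    rw [hS']; exact NewtonA_prod lam Δ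
  have h3 : X ^ Δ ∣ derivative (F - E) - (-derivative S) * (F - E) := by
    have := dvd_sub h1 h2
    rw [derivative_sub]
    convert this using 1
    ring
  have h4 : (F - E).coeff 0 = 0 := by
    have hS0 : S.eval 0 = 0 := by rw [← coeff_zero_eq_eval_zero]; exact X_dvd_iff.1 hXS
    rw [coeff_zero_eq_eval_zero, eval_sub, hF, hE, Finset.sum_range_succ', eval_add,
      eval_finsetSum, eval_prod]
    rw [Finset.sum_eq_zero fun m _ => by
      rw [eval_mul, eval_pow, eval_neg, hS0, neg_zero, zero_pow (Nat.succ_ne_zero m), mul_zero]]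
    simp
  have h5 := NewtonA_unique h3 h4 Δ le_rfl
  rw [coeff_sub, sub_eq_zero] at h5
  have h6 : E.coeff Δ = (-1) ^ Δ * ∏ i, lam i := by
    have := coeff_prod_of_natDegree_le (s := Finset.univ) (fun i => 1 - C (lam i) * X) 1
      (fun i _ => by compute_degree)
    rw [Finset.card_univ, hΔ, mul_one] at this
    rw [hE, this, ← hΔ, ← Finset.card_univ, ← Finset.prod_neg]
    exact Finset.prod_congr rfl fun i _ => by simp [coeff_one]
  have h7 : ∑ j ∈ Finset.range Δ, C (((Δ.factorial / (j + 1) : ℕ) : L) * ∑ i, lam i ^ (j + 1)) *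
      X ^ (j + 1) = C (Δ.factorial : L) * S := by
    rw [hS, Finset.mul_sum]
    refine Finset.sum_congr rfl fun j hj => ?_
    rw [← mul_assoc, ← C_mul, ← mul_assoc]
    congr 3
    rw [← map_natCast (algebraMap ℚ L), ← map_natCast (algebraMap ℚ L), ← map_mul,
      Nat.cast_div (Nat.dvd_factorial (Nat.succ_pos j) (Finset.mem_range.1 hj)) (by positivity),
      mul_one_div, Nat.cast_succ]
  have h8 : ∀ m ∈ Finset.range (Δ + 1),
      C ((Δ.factorial / m.factorial * Δ.factorial ^ (Δ - m) : ℕ) : L) *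
        (-(C (Δ.factorial : L) * S)) ^ m = C ((Δ.factorial : L) ^ (Δ + 1)) *
          (C (algebraMap ℚ L (1 / (m.factorial : ℚ))) * (-S) ^ m) := by
    intro m hm
    have hm' : m ≤ Δ := Nat.lt_succ_iff.1 (Finset.mem_range.1 hm)
    rw [← mul_neg, mul_pow, ← C_pow, ← mul_assoc, ← mul_assoc, ← C_mul, ← C_mul]
    congr 2
    have hm0 : (m.factorial : ℚ) ≠ 0 := by exact_mod_cast m.factorial_ne_zero
    rw [← map_natCast (algebraMap ℚ L), ← map_natCast (algebraMap ℚ L), ← map_pow, ← map_pow,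
      ← map_mul, ← map_mul, Nat.cast_mul, Nat.cast_div (Nat.factorial_dvd_factorial hm') hm0,
      Nat.cast_pow, mul_assoc, ← pow_add, Nat.sub_add_cancel hm']
    congr 1
    ring
  rw [h7, Finset.sum_congr rfl h8, ← Finset.mul_sum, coeff_C_mul, ← hF, h5, h6]
  ring

end Crest.Agent.R316
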