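import Crest.Agent.R316.Coeff
import Crest.Agent.R316.NewtonA

/-!
# Row 316 (S0488): Newton
The product from the power sums.  `E = ∏ (1 - λᵢ X)` and `F = ∑_{m ≤ Δ} (-S)^m / m!`
(`S = ∑_{j=1}^Δ p_j X^j / j`) both satisfy `Y' ≡ -S' Y mod X^Δ`, `Y(0) = 1`
(`F' = -S' (F - (-S)^Δ/Δ!)`; `E' = -∑ λᵢ ∏_{l≠i} (1 - λ_l X)` and
`(1 - λ X) ∑_{j<Δ} λ^j X^j = 1 - λ^Δ X^Δ`), hence agree `mod X^(Δ+1)` (induction on the coefficients,
`(k+1)` is invertible).  Clearing denominators gives `newton_formula`.  In `exists_newton` write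
`Δ!/j = ∏_{i<Δ} (if i+1 = j then 1 else i+1)`, `Δ!/m! = ∏_{i<Δ} (if i < m then 1 else i+1)`,
`Δ! = ∏_{i<Δ} (i+1)` to see that everything is `EV`; `c = (-1)^Δ Δ!^(Δ+1)`.
-/

set_option autoImplicit false

open Polynomial

noncomputable section

namespace Crest.Agent.R316

open Crest.Agent.Lib.PolyTime
variable {α R S : Type} [Enc α] [CommRing R] [PR R] [CommRing S] [PR S]


theorem Newton_fac_div {Δ m : ℕ} (hm : m ≤ Δ) :
    ∏ i ∈ Finset.range Δ, (if i < m then 1 else i + 1) = Δ.factorial / m.factorial := by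
  refine (Nat.div_eq_of_eq_mul_right m.factorial_pos ?_).symm
  induction Δ, hm using Nat.le_induction with
  | base =>
    rw [Finset.prod_eq_one fun i hi => if_pos (Finset.mem_range.1 hi), mul_one]
  | succ n hn ih =>
    rw [Finset.prod_range_succ, if_neg (by omega), ← mul_assoc, ← ih, Nat.factorial_succ, mul_comm]

theorem Newton_fac_div' {Δ j : ℕ} (hj : j < Δ) :
    ∏ i ∈ Finset.range Δ, (if i = j then 1 else i + 1) = Δ.factorial / (j + 1) := by
  refine (Nat.div_eq_of_eq_mul_right j.succ_pos ?_).symm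
  rw [← Finset.prod_range_add_one_eq_factorial,
    ← Finset.mul_prod_erase _ _ (Finset.mem_range.2 hj),
    ← Finset.mul_prod_erase _ _ (Finset.mem_range.2 hj), if_pos rfl, one_mul]
  congr 1
  exact Finset.prod_congr rfl fun i hi => (if_neg (Finset.ne_of_mem_erase hi)).symm

/-- the polynomial of Newton's formula -/
def Newton_poly (Δ : ℕ) (T : ℕ → R) : R[X] :=
  ∑ m ∈ Finset.range (Δ + 1),
    C ((∏ i ∈ Finset.range Δ, (((if i < m then 1 else i + 1 : ℕ)) : R)) *
        (∏ i ∈ Finset.range Δ, ((i + 1 : ℕ) : R)) ^ (Δ - m)) *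
      (-∑ j ∈ Finset.range Δ, C ((∏ i ∈ Finset.range Δ, ((if i = j then 1 else i + 1 : ℕ) : R)) *
        T (j + 1)) * X ^ (j + 1)) ^ m

theorem Newton_ev {T : α × ℕ → R} {Δ : α → ℕ} (hT : EV T) (hΔ : CF Δ) :
    EV fun a => Newton_poly (Δ a) fun j => T (a, j) := by
  unfold Newton_poly
  have h1 : EV fun x : α × ℕ => ∏ i ∈ Finset.range (Δ x.1),
      (((if i < x.2 then 1 else i + 1 : ℕ)) : R) :=
    EV.prod_range (by fun_prop) (EV.natCast (by fun_prop))
  have h2 : EV fun a : α => ∏ i ∈ Finset.range (Δ a), ((i + 1 : ℕ) : R) :=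
    EV.prod_range (by fun_prop) (EV.natCast (by fun_prop))
  have h3 : EV fun x : α × ℕ => ∏ i ∈ Finset.range (Δ x.1),
      (((if i = x.2 then 1 else i + 1 : ℕ)) : R) :=
    EV.prod_range (by fun_prop) (EV.natCast (by fun_prop))
  have h4 : EV fun x : α × ℕ => T (x.1, x.2 + 1) := hT.comp (by fun_prop)
  have h5 : EV fun a : α => -∑ j ∈ Finset.range (Δ a), C ((∏ i ∈ Finset.range (Δ a),
      ((if i = j then 1 else i + 1 : ℕ) : R)) * T (a, j + 1)) * X ^ (j + 1) :=
    (EV.sum_range hΔ ((h3.mul h4).C.mul (EV.X.pow (by fun_prop)))).neg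
  exact EV.sum_range (by fun_prop)
    ((h1.mul ((h2.comp (f := fun x : α × ℕ => x.1) (by fun_prop)).pow (by fun_prop))).C.mul
      ((h5.comp (f := fun x : α × ℕ => x.1) (by fun_prop)).pow (by fun_prop)))

theorem exists_newton {T : α × ℕ → R} {Δ : α → ℕ} (hT : EV T) (hΔ : CF Δ) :
    ∃ (N : α → R) (c : α → ℤ), EV N ∧ (∀ a, c a ≠ 0) ∧
      ∀ a (L : Type) [CommRing L] [Algebra ℚ L] (φ : R →+* L) (ι : Type) [Fintype ι] (lam : ι → L),
        Fintype.card ι = Δ a → (∀ j, 1 ≤ j → j ≤ Δ a → φ (T (a, j)) = ∑ i, lam i ^ j) →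
          φ (N a) = c a * ∏ i, lam i := by
  refine ⟨fun a => (Newton_poly (Δ a) fun j => T (a, j)).coeff (Δ a),
    fun a => (-1) ^ Δ a * ((Δ a).factorial : ℤ) ^ (Δ a + 1), (Newton_ev hT hΔ).coeff hΔ,
    fun a => mul_ne_zero (pow_ne_zero _ (by norm_num))
      (pow_ne_zero _ (by exact_mod_cast (Δ a).factorial_ne_zero)), ?_⟩
  intro a L _ _ φ ι _ lam hc hT'
  have h := newton_formula lam (Δ a) hc
  push_cast
  rw [← h, ← coeff_map, Newton_poly, Polynomial.map_sum]
  congr 1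
  refine Finset.sum_congr rfl fun m hm => ?_
  rw [Polynomial.map_mul, map_C, Polynomial.map_pow, Polynomial.map_neg, Polynomial.map_sum,
    ← Nat.cast_prod, ← Nat.cast_prod, Newton_fac_div (Nat.lt_succ_iff.1 (Finset.mem_range.1 hm)),
    Finset.prod_range_add_one_eq_factorial, ← Nat.cast_pow, ← Nat.cast_mul, map_natCast φ]
  congr 3
  refine Finset.sum_congr rfl fun j hj => ?_
  rw [Polynomial.map_mul, map_C, Polynomial.map_pow, map_X, ← Nat.cast_prod,
    Newton_fac_div' (Finset.mem_range.1 hj), map_mul, map_natCast φ,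
    hT' (j + 1) (by omega) (Finset.mem_range.1 hj)]

end Crest.Agent.R316
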