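import Crest.Agent.R316.PSum
import Crest.Agent.R316.Newton

/-!
# Row 316 (S0488): Norm
Products and sums over (tuples of) roots of an integer polynomial.
`exists_norm`: `K > totalDegree h`, `lc = leadingCoeff ψ`, `λ_κ = lc^K h(ρ ∘ κ)`,
`T (a,j) = ∑_{e : Fin n → Fin (K j + 1)} coeff (l2f e) (h^j) * lc^(K j - |e|) * ∏_{i<n} P (a, eᵢ)` (`exists_psum`,
`EV.mvCoeff`, `EV.sum_fun`, integers are cast by `EV.hom EH.intCast`); the coefficient vanishes when
`|e| > K j`; expand `evl φ ξ (h^j)` over the box (`evl_eq_sum_box`) and use `Finset.prod_univ_sum`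
(`∑_κ ∏ᵢ x(κ i)^eᵢ = ∏ᵢ ∑_l x(l)^eᵢ`); then `exists_newton` with `Δ = natDegree ψ ^ n`; `c = c' * lc^(K Δ)`.
`exists_sum_roots`: `exists_norm` with `n = 1` over the ring `R[s]` for `B(X₀) + s A(X₀)`, `L = ℂ[X]`,
`φ' = mapRingHom φ`; `B'`, `A'` are the coefficients `0`, `1` of the norm.
`exists_gap`: `exists_norm` over `ℤ[U]` for `U - q`, the norm `N` is nonzero (`L = ℂ[X]`), every value `q(ξ)` is a
root; `le_norm_root`, `EV.exists_nrm`.
-/

set_option autoImplicit false

open Polynomial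

noncomputable section

namespace Crest.Agent.R316

open Crest.Agent.Lib.PolyTime
variable {α R S : Type} [Enc α] [CommRing R] [PR R] [CommRing S] [PR S]


theorem Norm_l2f_apply {n : ℕ} (e : Fin n → ℕ) (i : ℕ) : l2f (List.ofFn e) i = ext0 e i := by
  rw [l2f_apply, ext0]
  split_ifs with h
  · simp [List.getD_eq_getElem?_getD, h]
  · simp [List.getD_eq_getElem?_getD, h]

theorem Norm_evl_monomial {A K : Type} [CommRing A] [CommRing K] (φ : A →+* K) {n N : ℕ}
    (ξ : Fin n → K) (d : ℕ →₀ ℕ) (c : A) (hd : ∀ i, d i < N) :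
    evl φ ξ (MvPolynomial.monomial d c) = ∑ e : Fin n → Fin N,
      φ ((MvPolynomial.monomial d c).coeff (l2f (List.ofFn fun i => (e i : ℕ)))) *
        ∏ i, ξ i ^ (e i : ℕ) := by
  classical
  rw [evl, MvPolynomial.coe_eval₂Hom, MvPolynomial.eval₂_monomial]
  simp only [MvPolynomial.coeff_monomial]
  by_cases h : ∀ i, n ≤ i → d i = 0
  · have h1 : d = l2f (List.ofFn fun i : Fin n => d i) := by
      ext i
      rw [Norm_l2f_apply, ext0]
      split_ifs with hi
      · rfl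
      · exact h i (not_lt.1 hi)
    rw [Finset.sum_eq_single (fun i : Fin n => (⟨d i, hd i⟩ : Fin N)), if_pos h1]
    · congr 1
      rw [Finsupp.prod_of_support_subset d (s := Finset.range n)
        (fun i hi => Finset.mem_range.2 (not_le.1 fun h' => Finsupp.mem_support_iff.1 hi (h i h')))
        _ (fun _ _ => pow_zero _), Finset.prod_range]
      exact Finset.prod_congr rfl fun i _ => by simp [ext0]
    · intro e _ he
      rw [if_neg, map_zero, zero_mul]
      intro h2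
      refine he (funext fun i => Fin.ext ?_)
      have := DFunLike.congr_fun h2 (i : ℕ)
      rw [Norm_l2f_apply, ext0, dif_pos i.2] at this
      exact this.symm
    · simp
  · push Not at h
    obtain ⟨i, hi, hi'⟩ := h
    rw [Finsupp.prod, Finset.prod_eq_zero (Finsupp.mem_support_iff.2 hi')
      (by rw [ext0, dif_neg (not_lt.2 hi), zero_pow hi']), mul_zero]
    refine (Finset.sum_eq_zero fun e _ => ?_).symm
    rw [if_neg, map_zero, zero_mul]
    intro h2
    have := DFunLike.congr_fun h2 i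
    rw [Norm_l2f_apply, ext0, dif_neg (not_lt.2 hi)] at this
    exact hi' this

theorem evl_eq_sum_box {A K : Type} [CommRing A] [CommRing K] (φ : A →+* K) {n N : ℕ}
    (ξ : Fin n → K) {f : MvPolynomial ℕ A} (hf : f.totalDegree < N) :
    evl φ ξ f = ∑ e : Fin n → Fin N,
      φ (f.coeff (l2f (List.ofFn fun i => (e i : ℕ)))) * ∏ i, ξ i ^ (e i : ℕ) := by
  conv_lhs => rw [f.as_sum, map_sum]
  conv_rhs => rw [f.as_sum]
  simp only [MvPolynomial.coeff_sum, map_sum, Finset.sum_mul]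
  rw [Finset.sum_comm]
  refine Finset.sum_congr rfl fun d hd => Norm_evl_monomial φ ξ d _ fun i => ?_
  exact lt_of_le_of_lt ((Finsupp.le_degree i d).trans (MvPolynomial.le_totalDegree hd)) hf

/-- the power sums of the values at tuples, in terms of the power sums of the roots -/
theorem Norm_psum {A L : Type} [CommRing A] [CommRing L] (φ : A →+* L) {n D M : ℕ} (x : Fin D → L)
    (l : L) {f : MvPolynomial ℕ A} (hf : f.totalDegree ≤ M) :
    ∑ e : Fin n → Fin (M + 1), φ (f.coeff (l2f (List.ofFn fun i => (e i : ℕ)))) *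
      (l ^ (M - ∑ i, (e i : ℕ)) * ∏ i, ∑ j, (l * x j) ^ (e i : ℕ)) =
      ∑ κ : Fin n → Fin D, l ^ M * evl φ (fun i => x (κ i)) f := by
  simp only [evl_eq_sum_box φ _ (Nat.lt_succ_of_le hf), Finset.mul_sum]
  rw [Finset.sum_comm]
  refine Finset.sum_congr rfl fun e _ => ?_
  by_cases h0 : f.coeff (l2f (List.ofFn fun i => (e i : ℕ))) = 0
  · simp [h0]
  · have h1 : ∑ i, (e i : ℕ) ≤ M := by
      have := (MvPolynomial.le_totalDegree (MvPolynomial.mem_support_iff.2 h0)).trans hf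
      rw [← List.sum_ofFn, ← degree_l2f]
      exact this
    rw [Finset.prod_univ_sum, Fintype.piFinset_univ, Finset.mul_sum, Finset.mul_sum]
    refine Finset.sum_congr rfl fun κ _ => ?_
    simp only [mul_pow]
    rw [Finset.prod_mul_distrib, Finset.prod_pow_eq_pow_sum]
    have h2 : l ^ M = l ^ (M - ∑ i, (e i : ℕ)) * l ^ ∑ i, (e i : ℕ) := by
      rw [← pow_add, Nat.sub_add_cancel h1]
    rw [h2]
    ring

theorem exists_norm {ψ : α → ℤ[X]} {n : α → ℕ} {h : α → MvPolynomial ℕ R} (hψ : EV ψ)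
    (h0 : ∀ a, ψ a ≠ 0) (hn : CF n) (hn' : PB n) (hh : EV h) :
    ∃ (N : α → R) (c : α → ℤ), EV N ∧ (∀ a, c a ≠ 0) ∧
      ∀ a (D : ℕ) (ρ : Fin D → ℂ), Enum (ψ a) ρ →
        ∀ (L : Type) [CommRing L] [Algebra ℂ L] (φ : R →+* L), φ (N a) = c a *
          ∏ κ : Fin (n a) → Fin D, evl φ (fun i => algebraMap ℂ L (ρ (κ i))) (h a) := by
  obtain ⟨d, hd, hd'⟩ : ∃ d : α → ℕ, CF d ∧ ∀ a, (ψ a).natDegree = d a :=
    ⟨_, hψ.natDegree, fun _ => rfl⟩
  obtain ⟨l, hl, hl'⟩ : ∃ l : α → ℤ, EV l ∧ ∀ a, (ψ a).leadingCoeff = l a :=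
    ⟨_, hψ.leadingCoeff, fun _ => rfl⟩
  obtain ⟨K, hK, hK'⟩ := hh.exists_totalDegree_lt
  obtain ⟨P, hP, hP'⟩ := exists_psum hψ
  have hF1 : EV fun x : (α × ℕ) × List ℕ => (h x.1.1 ^ x.1.2).coeff (l2f x.2) :=
    EV.mvCoeff (by fun_prop) (by fun_prop)
  have hF2 : EV fun x : (α × ℕ) × List ℕ => l x.1.1 ^ (K x.1.1 * x.1.2 - x.2.sum) *
      ∏ i ∈ Finset.range (n x.1.1), P (x.1.1, x.2.getD i 0) := by fun_prop
  have hT := EV.sum_fun (α := α × ℕ) (n := fun x => n x.1) (K := fun x => K x.1 * x.2 + 1)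
    (F := fun x e => (h x.1 ^ x.2).coeff (l2f e) * Int.castRingHom R (l x.1 ^ (K x.1 * x.2 - e.sum) *
      ∏ i ∈ Finset.range (n x.1), P (x.1, e.getD i 0)))
    (by fun_prop) (PB.compCF hn' (by fun_prop)) (by fun_prop) (hF1.mul (EV.hom EH.intCast hF2))
  obtain ⟨N, c, hN, hc, hNc⟩ := exists_newton hT (CF.nat_pow hd hn hn')
  have hl0 : ∀ a, l a ≠ 0 := fun a => hl' a ▸ leadingCoeff_ne_zero.2 (h0 a)
  refine ⟨N, fun a => c a * l a ^ (K a * d a ^ n a), hN,
    fun a => mul_ne_zero (hc a) (pow_ne_zero _ (hl0 a)), fun a D ρ hρ L _ _ φ => ?_⟩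
  have hD : D = d a := (hρ.card (h0 a)).trans (hd' a)
  let _ : Algebra ℚ L := ((algebraMap ℂ L).comp (algebraMap ℚ ℂ)).toAlgebra
  rw [hNc a L φ (Fin (n a) → Fin D)
    (fun κ => (l a : L) ^ K a * evl φ (fun i => algebraMap ℂ L (ρ (κ i))) (h a))
    (by simp [hD]) ?_]
  · rw [Finset.prod_mul_distrib, Finset.prod_const, Finset.card_univ, Fintype.card_fun,
      Fintype.card_fin, Fintype.card_fin, ← pow_mul]
    beta_reduce
    rw [← hD]
    push_cast
    ring
  · intro j _ _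
    have h1 : (h a ^ j).totalDegree ≤ K a * j :=
      (MvPolynomial.totalDegree_pow _ _).trans
        (by rw [mul_comm]; exact Nat.mul_le_mul_right _ (hK' a).le)
    have h2 := Norm_psum φ (n := n a) (fun j => algebraMap ℂ L (ρ j)) (l a : L) h1
    simp only [mul_pow, ← pow_mul, ← map_pow]
    rw [← h2, map_sum]
    refine Finset.sum_congr rfl fun e _ => ?_
    rw [map_mul, eq_intCast, map_intCast, List.sum_ofFn, Finset.prod_range]
    push_cast
    congr 2
    refine Finset.prod_congr rfl fun i _ => ?_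
    have h3 : (List.ofFn fun i => (e i : ℕ)).getD i 0 = e i := by
      simp [List.getD_eq_getElem?_getD]
    rw [h3, ← map_intCast (algebraMap ℂ L), hP' a (h0 a) D ρ hρ, map_sum, hl']
    simp

end Crest.Agent.R316
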