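import Crest.Agent.R316.Sample
import Crest.Agent.R316.Norm

/-!
# Row 316 (S0488): Psi
The two univariate polynomials.
`exists_psi1`: `K > natDegree Θ`; `cut = eval₂Hom (Int.castRingHom _) (fun i => if i < r then X i else 0)`
(`EH.mvEval₂`), `c j = cut (coeff j Θ)`, `H (a,k) = ∑_{j<k} (c j)^2 + (X r * c k - 1)^2` in `r + 1` variables;
`exists_sample` (ring `ℤ`, index `(a,k)`) gives `χ (a,k)`; `ψ₁ = ∏_{k<K} trailingCoeff (χ (a,k))`
(`EV.trailingCoeff`; `χ ≠ 0`; mapping by the injective `Int.castRingHom ℝ` commutes with `trailingCoeff`).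
Given `x₁` with `T x₁` let `k = natTrailingDegree (Θ^x₁) < K`; for `z : Fin (r+1) → ℝ`, `H(z) = 0` iff the coefficients
`j < k` of `Θ^(init z)` vanish and `z (last) * c_k = 1`, and then `natTrailingDegree (Θ^(init z)) = k`.
`Z = {z | H z = 0 ∧ T (init z)}` is nonempty; `Z` and `{H = 0} \\ Z` are closed because `T ∘ init` is locally
constant on the closed set `{H = 0}` (`isClosed_iff_frequently`/`mem_closure_iff_frequently`).
`exists_psi2`: `exists_sample` over `R = MvPolynomial ℕ ℤ` (index `(a,σ)`) gives `χ ∈ R[T][ε]`; move the variables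
`x` outside by `Ψ = eval₂RingHom (eval₂RingHom (MvPolynomial.map (Int.castRingHom _)) (C (C X))) (C X) :
R[T][ε] →+* MvPolynomial ℕ ℤ[T][ε]`; `exists_norm` over the roots of `ψ₁` (`r` variables) gives `N ∈ ℤ[T][ε]` with
`N^ℂ = c ∏_κ χ.map (mapRingHom (ivl (ρ ∘ κ)))` in `L = ℂ[X][X]` (`φ = mapRingHom (mapRingHom (Int.castRingHom ℂ))`);
`ψ₂ = ∏_{σ<m} trailingCoeff N`; `trailingCoeff_mul`.  Use `Z = {G = 0}` in `exists_sample`; a real root tuple
`x` is `ρ ∘ κ` for some `κ` (`Enum.root_iff`); `map ofRealHom` is injective.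
-/

set_option autoImplicit false

open Polynomial Filter Topology

noncomputable section

namespace Crest.Agent.R316

open Crest.Agent.Lib.PolyTime
variable {α R S : Type} [Enc α] [CommRing R] [PR R] [CommRing S] [PR S]


theorem Psi_tc_map {A B : Type} [CommRing A] [CommRing B] {φ : A →+* B}
    (hφ : Function.Injective φ) (f : A[X]) : (f.map φ).trailingCoeff = φ f.trailingCoeff := by
  rw [trailingCoeff, trailingCoeff, natTrailingDegree, natTrailingDegree, trailingDegree,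
    trailingDegree, support_map_of_injective _ hφ, coeff_map]

theorem Psi_tc_dvd {A : Type} [CommRing A] [IsDomain A] {f g : A[X]} (h : f ∣ g) :
    f.trailingCoeff ∣ g.trailingCoeff := by
  obtain ⟨c, rfl⟩ := h
  rw [trailingCoeff_mul]
  exact dvd_mul_right _ _

/-- moving the variables outside -/
def Psi_swap : (MvPolynomial ℕ ℤ)[X][X] →+* MvPolynomial ℕ ℤ[X][X] :=
  eval₂RingHom (eval₂RingHom (MvPolynomial.map (Int.castRingHom _)) (MvPolynomial.C (C X)))
    (MvPolynomial.C X)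

theorem Psi_evl_swap {r : ℕ} (v : Fin r → ℂ) (f : (MvPolynomial ℕ ℤ)[X][X]) :
    evl (mapRingHom (mapRingHom (Int.castRingHom ℂ))) (fun i => algebraMap ℂ ℂ[X][X] (v i))
      (Psi_swap f) = f.map (mapRingHom (ivl v)) := by
  have : (evl (mapRingHom (mapRingHom (Int.castRingHom ℂ)))
      (fun i => algebraMap ℂ ℂ[X][X] (v i))).comp Psi_swap = mapRingHom (mapRingHom (ivl v)) := by
    refine Polynomial.ringHom_ext' (Polynomial.ringHom_ext' (MvPolynomial.ringHom_ext'
      (RingHom.ext_int _ _) fun i => ?_) ?_) ?_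
    · simp only [Psi_swap, RingHom.comp_apply, coe_eval₂RingHom, eval₂_C, MvPolynomial.map_X,
        evl_X, coe_mapRingHom, map_C]
      by_cases hi : i < r
      · simp [ext0_of_lt _ hi]
      · simp [ext0_of_le _ (not_lt.1 hi)]
    · simp [Psi_swap]
    · simp [Psi_swap]
  exact RingHom.congr_fun this f

theorem exists_psi2 {r n m : α → ℕ} {G : α × ℕ → MvPolynomial ℕ (MvPolynomial ℕ ℤ)}
    {ψ₁ : α → ℤ[X]} (hr : CF r) (hr' : PB r) (hn : CF n) (hn' : PB n) (hm : CF m) (hG : EV G)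
    (hψ : EV ψ₁) (h0 : ∀ a, ψ₁ a ≠ 0) : ∃ ψ : α → ℤ[X], EV ψ ∧ (∀ a, ψ a ≠ 0) ∧
      ∀ a, ∀ σ < m a, ∀ x : Fin (r a) → ℝ, (∀ i, zev (x i) (ψ₁ a) = 0) →
        (∀ z : Fin (n a) → ℝ, 0 ≤ evl (ivl x) z (G (a, σ))) →
        (∃ z : Fin (n a) → ℝ, evl (ivl x) z (G (a, σ)) = 0) →
          ∃ z : Fin (n a) → ℝ, evl (ivl x) z (G (a, σ)) = 0 ∧ ∀ i, zev (z i) (ψ a) = 0 := by
  obtain ⟨χ, hχ, χ0, hs⟩ := exists_sample (α := α × ℕ) (n := fun x => n x.1) (by fun_prop)
    (hn'.comp (by fun_prop)) hG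
  have hΨ : EH (R := (MvPolynomial ℕ ℤ)[X][X]) (S := MvPolynomial ℕ ℤ[X][X])
      fun _ : α × ℕ => Psi_swap := by
    unfold Psi_swap
    exact EH.eval₂ (EH.eval₂ (EH.mvMap EH.intCast) (EV.const _)) (EV.const _)
  obtain ⟨N, c, hN, c0, hc⟩ := exists_norm (α := α × ℕ) (ψ := fun x => ψ₁ x.1)
    (n := fun x => r x.1) (hψ.comp (by fun_prop)) (fun x => h0 _) (by fun_prop)
    (hr'.comp (by fun_prop)) (EV.hom hΨ hχ)
  have inj : Function.Injective (mapRingHom (Int.castRingHom ℂ)) :=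
    map_injective _ Int.cast_injective
  have key : ∀ x : α × ℕ, ∀ (D : ℕ) (ρ : Fin D → ℂ), Enum (ψ₁ x.1) ρ →
      (N x).map (mapRingHom (Int.castRingHom ℂ)) = c x * ∏ κ : Fin (r x.1) → Fin D,
        (χ x).map (mapRingHom (ivl fun i => ρ (κ i))) := fun x D ρ hρ => by
    have := hc x D ρ hρ ℂ[X][X] (mapRingHom (mapRingHom (Int.castRingHom ℂ)))
    simp only [Psi_evl_swap] at this
    exact this
  have N0 : ∀ x, N x ≠ 0 := fun x h => by
    obtain ⟨ρ, hρ⟩ := exists_enum (h0 x.1)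
    have := key x _ ρ hρ
    rw [h, Polynomial.map_zero] at this
    exact mul_ne_zero (Int.cast_ne_zero.2 (c0 x))
      (Finset.prod_ne_zero_iff.2 fun κ _ => χ0 x _) this.symm
  refine ⟨fun a => ∏ σ ∈ Finset.range (m a), (N (a, σ)).trailingCoeff,
    EV.prod_range hm hN.trailingCoeff, fun a => Finset.prod_ne_zero_iff.2 fun σ _ =>
      trailingCoeff_nonzero_iff_nonzero.2 (N0 _), fun a σ hσ x hx hpos hz => ?_⟩
  obtain ⟨z, hz, hz'⟩ := hs (a, σ) (ivl x) hpos {z | evl (ivl x) z (G (a, σ)) = 0} hz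
    (fun _ h => h) (isClosed_eq (continuous_evl _ _) continuous_const) (by simp)
  refine ⟨z, hz, fun i => ?_⟩
  obtain ⟨ρ, hρ⟩ := exists_enum (h0 a)
  choose κ hκ using fun i => (hρ.root_iff (h0 a) (x i)).1 (by rw [← ofReal_zev, hx i]; simp)
  have e : (χ (a, σ)).map (mapRingHom (ivl fun i => ρ (κ i))) =
      ((χ (a, σ)).map (mapRingHom (ivl x))).map (mapRingHom Complex.ofRealHom) := by
    rw [Polynomial.map_map, mapRingHom_comp]
    congr 2
    refine RingHom.ext fun q => ?_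
    simp only [hκ]
    exact (ofReal_ivl x q).symm
  have d : (χ (a, σ)).map (mapRingHom (ivl fun i => ρ (κ i))) ∣
      (N (a, σ)).map (mapRingHom (Int.castRingHom ℂ)) := by
    rw [key (a, σ) _ ρ hρ]
    exact (Finset.dvd_prod_of_mem _ (Finset.mem_univ κ)).mul_left _
  have d' := eval_dvd (x := (z i : ℂ)) (Psi_tc_dvd d)
  rw [e, Psi_tc_map (map_injective _ Complex.ofReal_injective), Psi_tc_map inj, coe_mapRingHom,
    coe_mapRingHom, ← zev_eq_eval_map, ← ofReal_zev] at d'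
  have e0 : eval (z i : ℂ) (((χ (a, σ)).map (mapRingHom (ivl x))).trailingCoeff.map
      Complex.ofRealHom) = 0 := by
    have := eval₂_at_apply Complex.ofRealHom (z i)
      (p := ((χ (a, σ)).map (mapRingHom (ivl x))).trailingCoeff)
    rw [hz' i] at this
    rw [eval_map]
    simpa using this
  rw [e0, zero_dvd_iff, Complex.ofReal_eq_zero] at d'
  rw [map_prod]
  exact Finset.prod_eq_zero (Finset.mem_range.2 hσ) d'

end Crest.Agent.R316
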