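import Crest.Agent.R316.Sign

/-!
# Row 316 (S0488): ZT
The sign of a huge integer from its residues.  Let `|X| ≤ 2^2^k`, residues known for the primes `≥ 2^k`
(`k` majorised by a `PT` function: `PB.exists_PT`).  `hi = 2^(2(k + (k+3)) + 6)`, `𝒫` the primes in
`[2^k, hi)` (at least `2^(k+3) ≥ 2^k + 4` of them: `card_primes_ge`), `M = ∏ 𝒫 ≥ 16 |X|`.
For `q ∈ 𝒫`: `m_q ≡ M/q` (`CF.exists_prodMod` with the factor `if i.Prime ∧ 2^k ≤ i ∧ i ≠ q then i else 1`),
`u j q = (powMod 2 j q * x_q * powMod m_q (q-2) q) % q`.  CRT: `∑_q u j q * (M/q) ≡ 2^j X (mod M)`, so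
`∑_q u j q / q - 2^j X / M ∈ ℤ` (`crt_frac`).  `S j = ∑_q u j q * 2^s / q` (integer division, `2^s = 64 hi`),
`A j = S j % 2^s`; then `doubling` applies with `J = hi * hi` (`M ≤ hi^hi ≤ 2^J`).
`doubling`: by induction, as long as all `j' < j` are "near", `|t_j| ≤ 1/4` for `t_j = 2^j x`, and
`A j = N (t_j - e_j)` or `N (1 + t_j - e_j)` according to the sign of `t_j - e_j`.
Zero tests in `R[X]`: all coefficients below a degree bound vanish.  `natTrailingDegree` is a bounded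
minimum (`CF.sInf`), `natDegree f = sInf {d | d < D ∧ ∀ j < D, d < j → coeff j = 0}`.
-/

set_option autoImplicit false

open Polynomial

noncomputable section

namespace Crest.Agent.R316

open Crest.Agent.Lib.PolyTime
variable {α R S : Type} [Enc α] [CommRing R] [PR R] [CommRing S] [PR S]


instance : ZT ℤ := ⟨fun _ _ F hF =>
  (hF.pos.not.and hF.neg.pos.not).of_iff fun a => by omega⟩
theorem ZT_coeff [ZT R] {F : α → R[X]} (hF : EV F) :
    CF fun x : α × ℕ => (F x.1).coeff x.2 = 0 :=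
  ZT.out (α × ℕ) (fun x => (F x.1).coeff x.2)
    (EV.coeff (hF.comp (f := fun x : α × ℕ => x.1) (by fun_prop)) (by fun_prop))

instance [ZT R] : ZT R[X] := ⟨fun _ _ F hF => by
  obtain ⟨D, hD, h⟩ := hF.exists_natDegree_lt
  refine (CF.forall_lt (p := fun a j => (F a).coeff j = 0) hD (ZT_coeff hF)).of_iff
    fun a => ⟨fun h' => Polynomial.ext fun j => ?_, fun h' j _ => by rw [h', coeff_zero]⟩
  by_cases hj : j < D a
  · exact h' j hj
  · exact coeff_eq_zero_of_natDegree_lt ((h a).trans_le (not_lt.1 hj))⟩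

theorem EV.eq_zero [ZT R] {F : α → R} (hF : EV F) : CF fun a => F a = 0 := ZT.out α F hF
theorem EV.natDegree [ZT R] {F : α → R[X]} (hF : EV F) : CF fun a => (F a).natDegree := by
  obtain ⟨D, hD, h⟩ := hF.exists_natDegree_lt
  have h1 : CF fun y : (α × ℕ) × ℕ => (F y.1.1).coeff y.2 = 0 :=
    (ZT_coeff hF).comp (f := fun y : (α × ℕ) × ℕ => (y.1.1, y.2)) (by fun_prop)
  have h2 : CF fun x : α × ℕ => ∀ j < D x.1, x.2 < j → (F x.1).coeff j = 0 :=
    CF.forall_lt (p := fun (x : α × ℕ) j => x.2 < j → (F x.1).coeff j = 0)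
      (hD.comp (f := fun x : α × ℕ => x.1) (by fun_prop)) (CF.imp (by fun_prop) h1)
  refine (CF.sInf (p := fun a d => ∀ j < D a, d < j → (F a).coeff j = 0) hD h2).of_eq fun a => ?_
  have hmem : (F a).natDegree ∈ {d | d < D a ∧ ∀ j < D a, d < j → (F a).coeff j = 0} :=
    ⟨h a, fun j _ hj => coeff_eq_zero_of_natDegree_lt hj⟩
  refine le_antisymm (Nat.sInf_le hmem) ?_
  have h3 := (Nat.sInf_mem ⟨_, hmem⟩).2
  rw [natDegree_le_iff_coeff_eq_zero]
  intro j hj
  by_cases hj' : j < D a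
  · exact h3 j hj' hj
  · exact coeff_eq_zero_of_natDegree_lt ((h a).trans_le (not_lt.1 hj'))
theorem EV.natTrailingDegree [ZT R] {F : α → R[X]} (hF : EV F) :
    CF fun a => (F a).natTrailingDegree := by
  obtain ⟨D, hD, h⟩ := hF.exists_natDegree_lt
  refine (CF.sInf (p := fun a d => ¬ (F a).coeff d = 0) hD (ZT_coeff hF).not).of_eq fun a => ?_
  by_cases h0 : F a = 0
  · simp [h0]
  · have hmem : (F a).natTrailingDegree ∈ {d | d < D a ∧ ¬ (F a).coeff d = 0} :=
      ⟨(natTrailingDegree_le_natDegree _).trans_lt (h a),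
        mt trailingCoeff_eq_zero.1 h0⟩
    exact le_antisymm (Nat.sInf_le hmem)
      (natTrailingDegree_le_of_ne_zero (Nat.sInf_mem ⟨_, hmem⟩).2)
theorem EV.leadingCoeff [ZT R] {F : α → R[X]} (hF : EV F) : EV fun a => (F a).leadingCoeff :=
  hF.coeff hF.natDegree
theorem EV.trailingCoeff [ZT R] {F : α → R[X]} (hF : EV F) : EV fun a => (F a).trailingCoeff :=
  hF.coeff hF.natTrailingDegree

end Crest.Agent.R316
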