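import Crest.Agent.R316.Sample
import Crest.Agent.R316.ZT

/-!
# Row 316 (S0488): Psi1
The two univariate polynomials.
`exists_psi1`: `K > natDegree Θ`; `cut = eval₂Hom (Int.castRingHom _) (fun i => if i < r then X i else 0)`
(`EH.mvEval₂`), `c j = cut (coeff j Θ)`, `H (a,k) = ∑_{j<k} (c j)^2 + (X r * c k - 1)^2` in `r + 1` variables;
`exists_sample` (ring `ℤ`, index `(a,k)`) gives `χ (a,k)`; `ψ₁ = ∏_{k<K} trailingCoeff (χ (a,k))`
(`EV.trailingCoeff`; `χ ≠ 0`; mapping by the injective `Int.castRingHom ℝ` commutes with `trailingCoeff`).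
Given `x₁` with `T x₁` let `k = natTrailingDegree (Θ^x₁) < K`; for `z : Fin (r+1) → ℝ`, `H(z) = 0` iff the coefficients
`j < k` of `Θ^(init z)` vanish and `z (last) * c_k = 1`, and then `natTrailingDegree (Θ^(init z)) = k`.
`Z = {z | H z = 0 ∧ T (init z)}` is nonempty; `Z` and `{H = 0} \\ Z` are closed because `T ∘ init` is locally
constant on the closed set `{H = 0}` (`isClosed_iff_frequently`/`mem_closure_iff_frequently`).
`exists_psi2`: `exists_sample` over `R = MvPolynomial ℕ ℤ` (index `(a,σ)`) gives `χ ∈ R[T][ε]`; move the variables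
`x` outside by `Ψ = eval₂RingHom (eval₂RingHom (MvPolynomial.map (Int.castRingHom _)) (C (C X))) (C X) :
R[T][ε] →+* MvPolynomial ℕ ℤ[T][ε]`; `exists_norm` over the roots of `ψ₁` (`r` variables) gives `N ∈ ℤ[T][ε]` with
`N^ℂ = c ∏_κ χ.map (mapRingHom (ivl (ρ ∘ κ)))` in `L = ℂ[X][X]` (`φ = mapRingHom (mapRingHom (Int.castRingHom ℂ))`);
`ψ₂ = ∏_{σ<m} trailingCoeff N`; `trailingCoeff_mul`.  Use `Z = {G = 0}` in `exists_sample`; a real root tuple
`x` is `ρ ∘ κ` for some `κ` (`Enum.root_iff`); `map ofRealHom` is injective.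
-/

set_option autoImplicit false

open Polynomial Filter Topology

noncomputable section

namespace Crest.Agent.R316

open Crest.Agent.Lib.PolyTime
variable {α R S : Type} [Enc α] [CommRing R] [PR R] [CommRing S] [PR S]


/-- the variables `≥ r` are set to zero -/
def psi1Cut (r : ℕ) : MvPolynomial ℕ ℤ →+* MvPolynomial ℕ ℤ :=
  MvPolynomial.eval₂Hom (Int.castRingHom _) fun i => if i < r then MvPolynomial.X i else 0

theorem psi1_ivl_cut {r : ℕ} (z : Fin (r + 1) → ℝ) (f : MvPolynomial ℕ ℤ) :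
    ivl z (psi1Cut r f) = ivl (Fin.init z) f := by
  have : (ivl z).comp (psi1Cut r) = ivl (Fin.init z) := by
    refine MvPolynomial.ringHom_ext (fun c => by simp) fun i => ?_
    rw [RingHom.comp_apply, psi1Cut, MvPolynomial.eval₂Hom_X', evl_X]
    split_ifs with h
    · rw [evl_X, ext0_of_lt _ h, ext0_of_lt _ (Nat.lt_succ_of_lt h)]
      rfl
    · rw [map_zero, ext0_of_le _ (not_lt.1 h)]
  exact RingHom.congr_fun this f

theorem psi1_continuous {n : ℕ} (f : MvPolynomial ℕ ℤ) :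
    Continuous fun z : Fin n → ℝ => ivl z f := by
  induction f using MvPolynomial.induction_on with
  | C c => simpa only [evl_C] using continuous_const
  | add f g hf hg => simp only [map_add]; exact hf.add hg
  | mul_X f i hf =>
    simp only [map_mul, evl_X]
    refine hf.mul ?_
    by_cases h : i < n
    · simpa only [ext0_of_lt _ h] using continuous_apply _
    · simpa only [ext0_of_le _ (not_lt.1 h)] using continuous_const

/-- the equation of the stratum where the trailing degree is `k` -/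
def psi1H (r : ℕ) (Θ : (MvPolynomial ℕ ℤ)[X]) (k : ℕ) : MvPolynomial ℕ ℤ :=
  ∑ j ∈ Finset.range k, psi1Cut r (Θ.coeff j) ^ 2 +
    (MvPolynomial.X r * psi1Cut r (Θ.coeff k) - 1) ^ 2

theorem psi1_ivl_H {r : ℕ} (z : Fin (r + 1) → ℝ) (Θ : (MvPolynomial ℕ ℤ)[X]) (k : ℕ) :
    ivl z (psi1H r Θ k) = ∑ j ∈ Finset.range k, (Θ.map (ivl (Fin.init z))).coeff j ^ 2 +
      (z (Fin.last r) * (Θ.map (ivl (Fin.init z))).coeff k - 1) ^ 2 := by
  simp only [psi1H, map_add, map_sum, map_pow, map_sub, map_mul, map_one, psi1_ivl_cut, evl_X,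
    coeff_map]
  rw [ext0_of_lt _ (Nat.lt_succ_self r)]
  rfl

theorem psi1_H_zero {r : ℕ} {z : Fin (r + 1) → ℝ} {Θ : (MvPolynomial ℕ ℤ)[X]} {k : ℕ}
    (h : ivl z (psi1H r Θ k) = 0) : (Θ.map (ivl (Fin.init z))).natTrailingDegree = k := by
  rw [psi1_ivl_H] at h
  have h1 : 0 ≤ ∑ j ∈ Finset.range k, (Θ.map (ivl (Fin.init z))).coeff j ^ 2 :=
    Finset.sum_nonneg fun j _ => sq_nonneg _
  obtain ⟨h2, h3⟩ := (add_eq_zero_iff_of_nonneg h1 (sq_nonneg _)).1 h
  have h4 : (Θ.map (ivl (Fin.init z))).coeff k ≠ 0 := fun h0 => by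
    rw [h0] at h3
    norm_num at h3
  refine le_antisymm (natTrailingDegree_le_of_ne_zero h4) (le_natTrailingDegree ?_ fun j hj => ?_)
  · rintro h0
    rw [h0] at h4
    exact h4 (coeff_zero _)
  · exact pow_eq_zero_iff two_ne_zero |>.1
      ((Finset.sum_eq_zero_iff_of_nonneg fun j _ => sq_nonneg _).1 h2 j (Finset.mem_range.2 hj))

theorem psi1_closed {X : Type} [TopologicalSpace X] {C : Set X} (hC : IsClosed C) {P : X → Prop}
    (h : ∀ x₀ ∈ C, ∀ᶠ x in 𝓝 x₀, x ∈ C → (P x ↔ P x₀)) : IsClosed {x | x ∈ C ∧ P x} := by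
  refine isClosed_iff_frequently.2 fun x₀ hx => ?_
  have h1 : x₀ ∈ C := isClosed_iff_frequently.1 hC x₀ (hx.mono fun x hx => hx.1)
  obtain ⟨x, h2, h3⟩ := (hx.and_eventually (h x₀ h1)).exists
  exact ⟨h1, (h3 h2.1).1 h2.2⟩

theorem psi1_trailingCoeff_map {A B : Type} [Semiring A] [Semiring B] (φ : A →+* B)
    (hφ : Function.Injective φ) (p : A[X]) : (p.map φ).trailingCoeff = φ p.trailingCoeff := by
  have : (p.map φ).natTrailingDegree = p.natTrailingDegree := by
    unfold natTrailingDegree trailingDegree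
    rw [support_map_of_injective _ hφ]
  rw [trailingCoeff, this, coeff_map, trailingCoeff]

theorem exists_psi1 {r : α → ℕ} {Θ : α → (MvPolynomial ℕ ℤ)[X]} (hr : CF r) (hr' : PB r)
    (hΘ : EV Θ) : ∃ ψ : α → ℤ[X], EV ψ ∧ (∀ a, ψ a ≠ 0) ∧ ∀ a,
      (∀ x : Fin (r a) → ℝ, (Θ a).map (ivl x) ≠ 0) → ∀ T : (Fin (r a) → ℝ) → Prop,
        (∀ x₀, ∀ᶠ x in 𝓝 x₀, ((Θ a).map (ivl x)).natTrailingDegree =
          ((Θ a).map (ivl x₀)).natTrailingDegree → (T x ↔ T x₀)) →
        (∃ x, T x) → ∃ x, T x ∧ ∀ i, zev (x i) (ψ a) = 0 := by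
  obtain ⟨K, hK, hK'⟩ := hΘ.exists_natDegree_lt
  have hcut : EH fun a => psi1Cut (r a) :=
    EH.mvEval₂ (g := fun _ i => MvPolynomial.X i) EH.intCast hr hr' (EV.mvX (by fun_prop))
  have hc : EV fun x : α × ℕ => psi1Cut (r x.1) ((Θ x.1).coeff x.2) :=
    EV.hom (hcut.reindex (f := fun x : α × ℕ => x.1) (by fun_prop))
      (EV.coeff (hΘ.comp (f := fun x : α × ℕ => x.1) (by fun_prop)) (by fun_prop))
  have hH : EV fun x : α × ℕ => psi1H (r x.1) (Θ x.1) x.2 := by
    refine EV.add (EV.sum_range (n := fun x : α × ℕ => x.2)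
      (F := fun x j => psi1Cut (r x.1) ((Θ x.1).coeff j) ^ 2) (by fun_prop) ?_) ?_
    · exact EV.pow (hc.comp (f := fun y : (α × ℕ) × ℕ => (y.1.1, y.2)) (by fun_prop))
        (CF.const 2)
    · exact EV.pow (((EV.mvX (by fun_prop)).mul hc).sub (EV.const 1)) (CF.const 2)
  obtain ⟨χ, h1, h2, h3⟩ := exists_sample (n := fun x : α × ℕ => r x.1 + 1) (by fun_prop)
    ((hr'.comp PT.fst').add (PB.const 1)) hH
  have hχ : ∀ x, χ x ≠ 0 := fun x h0 => h2 x (Int.castRingHom ℂ) (by rw [h0, Polynomial.map_zero])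
  refine ⟨fun a => ∏ k ∈ Finset.range (K a), (χ (a, k)).trailingCoeff,
    EV.prod_range (F := fun a k => (χ (a, k)).trailingCoeff) hK h1.trailingCoeff,
    fun a => Finset.prod_ne_zero_iff.2 fun k _ => trailingCoeff_nonzero_iff_nonzero.2 (hχ _),
    fun a hne T hT ⟨x₁, hx₁⟩ => ?_⟩
  set k := ((Θ a).map (ivl x₁)).natTrailingDegree with hk
  have hkK : k < K a :=
    ((natTrailingDegree_le_natDegree _).trans natDegree_map_le).trans_lt (hK' a)
  set C : Set (Fin (r a + 1) → ℝ) := {z | ivl z (psi1H (r a) (Θ a) k) = 0} with hC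
  have hCc : IsClosed C := isClosed_eq (psi1_continuous _) continuous_const
  have hloc : ∀ z₀ ∈ C, ∀ᶠ z in 𝓝 z₀, z ∈ C → (T (Fin.init z) ↔ T (Fin.init z₀)) := by
    intro z₀ hz₀
    have hi : Continuous fun z : Fin (r a + 1) → ℝ => Fin.init z := by fun_prop
    filter_upwards [hi.continuousAt.eventually (hT (Fin.init z₀))] with z hz hzC
    exact hz ((psi1_H_zero hzC).trans (psi1_H_zero hz₀).symm)
  obtain ⟨z, hz, hz'⟩ := h3 (a, k) (Int.castRingHom ℝ)
    (fun y => by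
      change 0 ≤ ivl y (psi1H (r a) (Θ a) k)
      rw [psi1_ivl_H]
      positivity)
    {z | z ∈ C ∧ T (Fin.init z)}
    ⟨Fin.snoc x₁ (((Θ a).map (ivl x₁)).coeff k)⁻¹, by
      change ivl _ (psi1H (r a) (Θ a) k) = 0
      have h4 : ((Θ a).map (ivl x₁)).coeff k ≠ 0 := trailingCoeff_nonzero_iff_nonzero.2 (hne x₁)
      rw [psi1_ivl_H, Fin.init_snoc, Fin.snoc_last, inv_mul_cancel₀ h4, Finset.sum_eq_zero]
      · norm_num
      · intro j hj
        rw [coeff_eq_zero_of_lt_natTrailingDegree (Finset.mem_range.1 hj)]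
        norm_num, by rwa [Fin.init_snoc]⟩
    (fun y hy => hy.1) (psi1_closed hCc hloc) (by
      have := psi1_closed hCc (P := fun z => ¬ T (Fin.init z))
        fun z₀ hz₀ => (hloc z₀ hz₀).mono fun z hz hzC => (hz hzC).not
      convert this using 1
      ext z
      exact ⟨fun h => ⟨h.1, fun h' => h.2 ⟨h.1, h'⟩⟩, fun h => ⟨h.1, fun h' => h.2 h'.2⟩⟩)
  refine ⟨Fin.init z, hz.2, fun i => ?_⟩
  rw [map_prod]
  refine Finset.prod_eq_zero (Finset.mem_range.2 hkK) ?_
  have := hz' i.castSucc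
  rw [psi1_trailingCoeff_map _ (map_injective _ (RingHom.injective_int _))] at this
  rw [zev_eq_eval_map]
  exact this

end Crest.Agent.R316
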