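import Crest.Agent.R316.Strata
import Crest.Agent.R316.Psi
import Crest.Agent.R316.Psi1
import Crest.Agent.R316.Gsig

/-!
# Row 316 (S0488): Witness
The small witness theorem.
`exists_gsig`: split the variables by `sp = eval₂Hom (Int.castRingHom _)
(fun i => if i < n + n then (if i < n then C (X i) else X (i - n)) else 0)` (`EH.mvEval₂`), `P t = sp (p (a,t))`,
digit `s t = σ / 3^t % 3`, `G (a,σ) = ∑_{t<n} (if s t = 0 then P t else if s t = 1 then P t * X (n+t)^2 - 1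
else P t * X (n+t)^2 + 1)^2`; (`s t = (digs 3 n σ).getD t 0`; for the converse use `exists_digs` and
`τ_t = 1/√|P t|`).
`exists_witness`: `T x := ∀ y, B (sg x y)` is equivalent to `∀ σ < 3^n, (∃ z, G_σ(x; z) = 0) → B (digs 3 n σ)`;
apply `exists_strata`, `exists_psi1`, `exists_psi2` (inner variables: `n + n`).
-/

set_option autoImplicit false

open Polynomial Filter Topology

noncomputable section

namespace Crest.Agent.R316

open Crest.Agent.Lib.PolyTime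
variable {α R S : Type} [Enc α] [CommRing R] [PR R] [CommRing S] [PR S]


theorem exists_witness {n : α → ℕ} {p : α × ℕ → MvPolynomial ℕ ℤ} (hn : CF n) (hn' : PB n)
    (hp : EV p) : ∃ ψ₁ ψ₂ : α → ℤ[X], EV ψ₁ ∧ EV ψ₂ ∧ (∀ a, ψ₁ a ≠ 0) ∧ (∀ a, ψ₂ a ≠ 0) ∧
      ∀ a (B : List ℕ → Prop),
        (∃ x : Fin (n a) → ℝ, ∀ y : Fin (n a) → ℝ, B (sgl (fun t => p (a, t)) x y)) ↔
        ∃ x : Fin (n a) → ℝ, (∀ i, zev (x i) (ψ₁ a) = 0) ∧ ∀ y : Fin (n a) → ℝ,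
          (∀ i, zev (y i) (ψ₂ a) = 0) → B (sgl (fun t => p (a, t)) x y) := by
  obtain ⟨G, hG, hg⟩ := exists_gsig hn hn' hp
  have hm : CF fun a => 3 ^ n a := CF.nat_pow (by fun_prop) hn hn'
  have hnn : CF fun a => n a + n a := by fun_prop
  obtain ⟨Θ, hΘ, hs⟩ := exists_strata hnn (hn'.add hn') hm hG
  obtain ⟨ψ₁, hψ₁, h₁, p₁⟩ := exists_psi1 hn hn' hΘ
  obtain ⟨ψ₂, hψ₂, h₂, p₂⟩ := exists_psi2 hn hn' hnn (hn'.add hn') hm hG hψ₁ h₁
  refine ⟨ψ₁, ψ₂, hψ₁, hψ₂, h₁, h₂, fun a B => ?_⟩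
  obtain ⟨g0, g1, g2⟩ := hg a
  obtain ⟨s1, s2⟩ := hs a (n a) fun σ _ x y => g0 σ x y
  have key : ∀ x : Fin (n a) → ℝ, (∀ y, B (sgl (fun t => p (a, t)) x y)) ↔
      ∀ σ < 3 ^ n a, (∃ z : Fin (n a + n a) → ℝ, evl (ivl x) z (G (a, σ)) = 0) →
        B (digs 3 (n a) σ) := by
    refine fun x => ⟨fun h σ _ ⟨z, hz⟩ => g1 σ x z hz ▸ h _, fun h y => ?_⟩
    obtain ⟨σ, hσ, z, rfl, hz⟩ := g2 x y
    rw [g1 σ x z hz]
    exact h σ hσ ⟨z, hz⟩
  constructor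
  · intro h
    obtain ⟨x, hx, hx'⟩ := p₁ a s1 (fun x => ∀ y, B (sgl (fun t => p (a, t)) x y))
      (fun x₀ => (s2 x₀).mono fun x hx e => by
        rw [key, key]
        exact forall₂_congr fun σ hσ => by rw [hx e σ hσ]) h
    exact ⟨x, hx', fun y _ => hx y⟩
  · rintro ⟨x, hx, h⟩
    refine ⟨x, (key x).2 fun σ hσ hz => ?_⟩
    obtain ⟨z, hz, hz'⟩ := p₂ a σ hσ x hx (g0 σ x) hz
    rw [← g1 σ x z hz]
    exact h _ fun i => hz' _

end Crest.Agent.R316
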