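import Crest.Agent.R316.Names
import Crest.Agent.R316.Prec
import Crest.Agent.R316.Witness

/-!
# Row 316 (S0488): Decide
Deciding `∃ x ∀ y` in the counting hierarchy.  `exists_witness` gives `ψ₁, ψ₂`; `exists_precision` for `ψ₁ ψ₂` and
the family `p` (index `(a,t)`, `m = n + n`) gives `L, G`; make `L` uniform in `t < n` (`CF.exists_unif`:
`L' a = 2^k a`); `exists_names` for `ψ₁` and for `ψ₂` at precision `L'`.  For lists of names `κ₁, κ₂` (context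
`α × List ℕ × List ℕ × ℕ`) let `A i = if i < n then A₁ (a, κ₁.getD i 0) else A₂ (a, κ₂.getD (i - n) 0)`, same for
`B`; `exists_eval_rat` gives `U/V`; the code is `if V < 2^G U then 1 else if 2^G U < -V then 2 else 0` (`EV.lt`),
the list of codes is `CF` (`CF.map_range`).  The predicate is
`∃ c₁ < b₁^n, (∀ i < n, V₁ (a, (digs b₁ n c₁).getD i 0)) ∧ ∀ c₂ < b₂^n, (∀ i < n, V₂ …) → B (a, codes)`;
use `exists_digs`, `forall_digs`, and `choose` roots for valid names / names for roots.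
-/

set_option autoImplicit false

open Polynomial

noncomputable section

namespace Crest.Agent.R316

open Crest.Agent.Lib.PolyTime
variable {α R S : Type} [Enc α] [CommRing R] [PR R] [CommRing S] [PR S]


/-- thresholded sign code -/
def Decide_sg (G : ℕ) (r : ℝ) : ℕ :=
  if ((2 : ℝ) ^ G)⁻¹ < r then 1 else if r < -((2 : ℝ) ^ G)⁻¹ then 2 else 0

theorem Decide_codes {n : α → ℕ} {p : α × ℕ → MvPolynomial ℕ ℤ} {A₁ B₁ A₂ B₂ : α × ℕ → ℤ}
    {G : α × ℕ → ℕ} (hn : CF n) (hn' : PB n) (hp : EV p) (hA₁ : EV A₁) (hB₁ : EV B₁)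
    (hA₂ : EV A₂) (hB₂ : EV B₂) (hG : CF G) :
    ∃ code : α × List ℕ × List ℕ → List ℕ, CF code ∧ ∀ a (κ₁ κ₂ : Fin (n a) → ℕ),
      (∀ i, 0 < B₁ (a, κ₁ i)) → (∀ i, 0 < B₂ (a, κ₂ i)) →
      code (a, List.ofFn κ₁, List.ofFn κ₂) = List.ofFn fun t : Fin (n a) =>
        Decide_sg (G (a, t)) (ivl (Fin.append (fun i => (A₁ (a, κ₁ i) : ℝ) / B₁ (a, κ₁ i))
          fun i => (A₂ (a, κ₂ i) : ℝ) / B₂ (a, κ₂ i)) (p (a, t))) := by
  classical
  have hsel : ∀ {F₁ F₂ : α × ℕ → ℤ}, EV F₁ → EV F₂ →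
      EV fun x : ((α × List ℕ × List ℕ) × ℕ) × ℕ => if x.2 < n x.1.1.1 then
        F₁ (x.1.1.1, x.1.1.2.1.getD x.2 0) else F₂ (x.1.1.1, x.1.1.2.2.getD (x.2 - n x.1.1.1) 0) :=
    fun h₁ h₂ => EV.ite (by fun_prop) (h₁.comp (by fun_prop)) (h₂.comp (by fun_prop))
  obtain ⟨U, V, hU, hV, hUV⟩ := exists_eval_rat (α := (α × List ℕ × List ℕ) × ℕ)
    (q := fun x => p (x.1.1, x.2)) (m := fun x => n x.1.1 + n x.1.1)
    (hp.comp (by fun_prop)) (by fun_prop)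
    ((hn'.comp (by fun_prop)).add (hn'.comp (by fun_prop))) (hsel hA₁ hA₂) (hsel hB₁ hB₂)
  have hG' : EV fun x : (α × List ℕ × List ℕ) × ℕ => (2 : ℤ) ^ G (x.1.1, x.2) * U x :=
    (EV.two_pow (hG.comp (by fun_prop))).mul hU
  have h1 := hV.lt hG'
  have h2 := hG'.lt hV.neg
  refine ⟨fun x => (List.range (n x.1)).map fun t => if V (x, t) < 2 ^ G (x.1, t) * U (x, t) then 1
    else if 2 ^ G (x.1, t) * U (x, t) < -V (x, t) then 2 else 0,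
    CF.map_range (by fun_prop) (hn'.comp (by fun_prop))
      (CF.ite h1 (by fun_prop) (CF.ite h2 (by fun_prop) (by fun_prop))), fun a κ₁ κ₂ hb₁ hb₂ => ?_⟩
  refine (ofFn_eq_map_range _ _ fun t => ?_).symm
  have key : ∀ (F₁ F₂ : α × ℕ → ℤ) (i : Fin (n a + n a)),
      (if (i : ℕ) < n a then F₁ (a, (List.ofFn κ₁).getD i 0)
        else F₂ (a, (List.ofFn κ₂).getD (i - n a) 0)) =
      Fin.append (fun i => F₁ (a, κ₁ i)) (fun i => F₂ (a, κ₂ i)) i := by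
    intro F₁ F₂ i
    refine Fin.addCases (fun j => ?_) (fun j => ?_) i
    · simp [j.2]
    · rw [Fin.append_right]; simp [j.2]
  obtain ⟨hV0, hq⟩ := hUV ((a, List.ofFn κ₁, List.ofFn κ₂), t) fun i hi => by
    have := key B₁ B₂ ⟨i, hi⟩
    simp only at this ⊢
    rw [this]
    refine Fin.addCases (motive := fun i => 0 < Fin.append (fun i => B₁ (a, κ₁ i))
      (fun i => B₂ (a, κ₂ i)) i) (fun j => ?_) (fun j => ?_) ⟨i, hi⟩
    · simpa using hb₁ j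
    · rw [Fin.append_right]; exact hb₂ j
  have e : (Fin.append (fun i => (A₁ (a, κ₁ i) : ℝ) / B₁ (a, κ₁ i))
      fun i => (A₂ (a, κ₂ i) : ℝ) / B₂ (a, κ₂ i)) = fun i : Fin (n a + n a) =>
      ((if (i : ℕ) < n a then A₁ (a, (List.ofFn κ₁).getD i 0)
        else A₂ (a, (List.ofFn κ₂).getD (i - n a) 0) : ℤ) : ℝ) /
      ((if (i : ℕ) < n a then B₁ (a, (List.ofFn κ₁).getD i 0)
        else B₂ (a, (List.ofFn κ₂).getD (i - n a) 0) : ℤ) : ℝ) := by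
    funext i
    rw [key, key]
    refine Fin.addCases (fun j => ?_) (fun j => ?_) i
    · simp
    · simp only [Fin.append_right]
  simp only at hq
  rw [e, ← hq, Decide_sg]
  generalize U ((a, List.ofFn κ₁, List.ofFn κ₂), t) = u
  generalize V ((a, List.ofFn κ₁, List.ofFn κ₂), t) = v at hV0
  generalize G (a, t) = g
  have hv : (0 : ℝ) < v := by exact_mod_cast hV0
  have hg : (0 : ℝ) < 2 ^ g := by positivity
  have e1 : ((2 : ℝ) ^ g)⁻¹ < (u : ℝ) / v ↔ v < 2 ^ g * u := by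
    rw [inv_eq_one_div, div_lt_div_iff₀ hg hv, one_mul, mul_comm]
    norm_cast
  have e2 : (u : ℝ) / v < -((2 : ℝ) ^ g)⁻¹ ↔ 2 ^ g * u < -v := by
    rw [inv_eq_one_div, ← neg_div, div_lt_div_iff₀ hv hg, neg_one_mul, mul_comm]
    norm_cast
  simp only [e1, e2]

theorem decide_EA {n : α → ℕ} {p : α × ℕ → MvPolynomial ℕ ℤ} {B : α × List ℕ → Prop} (hn : CF n)
    (hn' : PB n) (hp : EV p) (hB : CF B) :
    CF fun a => ∃ x : Fin (n a) → ℝ, ∀ y : Fin (n a) → ℝ,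
      B (a, sgl (fun t => p (a, t)) x y) := by
  classical
  obtain ⟨ψ₁, ψ₂, hψ₁, hψ₂, h₁, h₂, hw⟩ := exists_witness hn hn' hp
  obtain ⟨L, G, hL, hG, hLG⟩ := exists_precision (α := α × ℕ) (ψ := fun x => ψ₁ x.1 * ψ₂ x.1)
    (q := p) (m := fun x => n x.1 + n x.1)
    ((hψ₁.comp (by fun_prop)).mul (hψ₂.comp (by fun_prop))) (fun x => mul_ne_zero (h₁ _) (h₂ _)) hp
    (by fun_prop) ((hn'.comp (by fun_prop)).add (hn'.comp (by fun_prop)))
  obtain ⟨k, hk1, hk2, hk3⟩ := hL.exists_unif hn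
  have hL' : CF fun a => 2 ^ k a := CF.of_PT (by fun_prop)
  obtain ⟨A₁, B₁, V₁, b₁, hA₁, hB₁, hV₁, hb₁, s₁, c₁⟩ := exists_names hψ₁ h₁ hL'
  obtain ⟨A₂, B₂, V₂, b₂, hA₂, hB₂, hV₂, hb₂, s₂, c₂⟩ := exists_names hψ₂ h₂ hL'
  obtain ⟨code, hcode, hc⟩ := Decide_codes hn hn' hp hA₁ hB₁ hA₂ hB₂ hG
  -- codes are correct
  have key : ∀ a (κ₁ κ₂ : Fin (n a) → ℕ) (x y : Fin (n a) → ℝ),
      (∀ i, V₁ (a, κ₁ i)) → (∀ i, V₂ (a, κ₂ i)) →
      (∀ i, zev (x i) (ψ₁ a) = 0) → (∀ i, zev (y i) (ψ₂ a) = 0) →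
      (∀ i, |(A₁ (a, κ₁ i) : ℝ) / B₁ (a, κ₁ i) - x i| ≤ ((2 : ℝ) ^ 2 ^ k a)⁻¹) →
      (∀ i, |(A₂ (a, κ₂ i) : ℝ) / B₂ (a, κ₂ i) - y i| ≤ ((2 : ℝ) ^ 2 ^ k a)⁻¹) →
      code (a, List.ofFn κ₁, List.ofFn κ₂) = sgl (fun t => p (a, t)) x y := by
    intro a κ₁ κ₂ x y v₁ v₂ hx hy d₁ d₂
    rw [hc a κ₁ κ₂ (fun i => (s₁ _ _ (v₁ i)).1) fun i => (s₂ _ _ (v₂ i)).1, sgl]
    congr 1
    funext t
    have hle : ((2 : ℝ) ^ 2 ^ k a)⁻¹ ≤ ((2 : ℝ) ^ L (a, t))⁻¹ :=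
      inv_anti₀ (by positivity) (pow_le_pow_right₀ (by norm_num) (hk3 a t t.2.le).le)
    obtain ⟨e1, e2⟩ := hLG (a, t) (Fin.append x y)
      (Fin.append (fun i => (A₁ (a, κ₁ i) : ℝ) / B₁ (a, κ₁ i))
        fun i => (A₂ (a, κ₂ i) : ℝ) / B₂ (a, κ₂ i))
      (fun i => Fin.addCases (fun j => by simp [hx j])
        (fun j => by rw [Fin.append_right]; simp [hy j]) i)
      fun i => Fin.addCases (fun j => by simpa using (d₁ j).trans hle)
        (fun j => by rw [Fin.append_right, Fin.append_right]; exact (d₂ j).trans hle) i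
    simp only [Decide_sg, sgc, e1, e2]
  have val : ∀ {W : α × ℕ → Prop}, CF W →
      CF fun x : α × List ℕ => ∀ i < n x.1, W (x.1, x.2.getD i 0) := fun hW =>
    CF.forall_lt (by fun_prop) (hW.comp (by fun_prop))
  have hdig : ∀ {b : α → ℕ}, CF b → CF fun x : α × ℕ => digs (b x.1) (n x.1) x.2 := fun hb =>
    CF.digs (by fun_prop) (by fun_prop) (hn'.comp (by fun_prop)) (by fun_prop)
  have hd₁ := hdig hb₁
  have hd₂ := hdig hb₂
  have in1 : CF fun x : (α × List ℕ) × List ℕ =>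
      (∀ i < n x.1.1, V₂ (x.1.1, x.2.getD i 0)) → B (x.1.1, code (x.1.1, x.1.2, x.2)) :=
    CF.imp ((val hV₂).comp (f := fun x : (α × List ℕ) × List ℕ => (x.1.1, x.2)) (by fun_prop))
      (by fun_prop)
  have in2 : CF fun x : α × List ℕ => ∀ c < b₂ x.1 ^ n x.1,
      (∀ i < n x.1, V₂ (x.1, (digs (b₂ x.1) (n x.1) c).getD i 0)) →
        B (x.1, code (x.1, x.2, digs (b₂ x.1) (n x.1) c)) :=
    CF.forall_lt (CF.nat_pow (by fun_prop) (by fun_prop) (hn'.comp (by fun_prop)))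
      (in1.comp (f := fun y : (α × List ℕ) × ℕ => (y.1, digs (b₂ y.1.1) (n y.1.1) y.2))
        (CF.prodMk (by fun_prop)
          (hd₂.comp (f := fun y : (α × List ℕ) × ℕ => (y.1.1, y.2)) (by fun_prop))))
  have in3 : CF fun a => ∃ c₁ < b₁ a ^ n a,
      (∀ i < n a, V₁ (a, (digs (b₁ a) (n a) c₁).getD i 0)) ∧ ∀ c < b₂ a ^ n a,
        (∀ i < n a, V₂ (a, (digs (b₂ a) (n a) c).getD i 0)) →
          B (a, code (a, digs (b₁ a) (n a) c₁, digs (b₂ a) (n a) c)) :=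
    CF.exists_lt (CF.nat_pow hb₁ hn hn')
    (((val hV₁).and in2).comp (f := fun y : α × ℕ => (y.1, digs (b₁ y.1) (n y.1) y.2))
      (CF.prodMk (by fun_prop) hd₁))
  have getD : ∀ {m : ℕ} (κ : Fin m → ℕ) (W : ℕ → Prop),
      (∀ i < m, W ((List.ofFn κ).getD i 0)) ↔ ∀ i, W (κ i) := fun κ W =>
    ⟨fun h i => by simpa [i.2] using h i i.2, fun h i hi => by simpa [hi] using h ⟨i, hi⟩⟩
  refine in3.of_iff fun a => ?_
  rw [hw a fun l => B (a, l)]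
  refine (exists_digs (b₁ a) (n a) fun l => (∀ i < n a, V₁ (a, l.getD i 0)) ∧
    ∀ c < b₂ a ^ n a, (∀ i < n a, V₂ (a, (digs (b₂ a) (n a) c).getD i 0)) →
      B (a, code (a, l, digs (b₂ a) (n a) c))).trans ?_
  have e : ∀ l, (∀ c < b₂ a ^ n a, (∀ i < n a, V₂ (a, (digs (b₂ a) (n a) c).getD i 0)) →
      B (a, code (a, l, digs (b₂ a) (n a) c))) ↔ ∀ κ : Fin (n a) → Fin (b₂ a),
        (∀ i, V₂ (a, κ i)) → B (a, code (a, l, List.ofFn fun i => (κ i : ℕ))) := fun l =>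
    (forall_digs (b₂ a) (n a) fun l' => (∀ i < n a, V₂ (a, l'.getD i 0)) →
      B (a, code (a, l, l'))).trans (forall_congr' fun κ => by
        rw [getD (fun i => (κ i : ℕ)) fun c => V₂ (a, c)])
  simp only [e]
  constructor
  · rintro ⟨κ₁, v₁, h⟩
    rw [getD (fun i => (κ₁ i : ℕ)) fun c => V₁ (a, c)] at v₁
    choose x hx d₁ using fun i => (s₁ _ _ (v₁ i)).2
    refine ⟨x, hx, fun y hy => ?_⟩
    choose κ₂ lt₂ v₂ d₂ using fun i => c₂ a (y i) (hy i)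
    rw [← key a _ κ₂ x y v₁ v₂ hx hy d₁ d₂]
    exact h (fun i => ⟨κ₂ i, lt₂ i⟩) v₂
  · rintro ⟨x, hx, h⟩
    choose κ₁ lt₁ v₁ d₁ using fun i => c₁ a (x i) (hx i)
    refine ⟨fun i => ⟨κ₁ i, lt₁ i⟩, (getD κ₁ fun c => V₁ (a, c)).2 v₁, fun κ₂ v₂ => ?_⟩
    choose y hy d₂ using fun i => (s₂ _ _ (v₂ i)).2
    have := key a κ₁ _ x y v₁ v₂ hx hy d₁ d₂
    simp only
    rw [this]
    exact h y hy

end Crest.Agent.R316
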