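import Crest.Agent.R316.CF

/-!
# Row 316 (S0488): definitions.  FROZEN (owner helper1).  See `Blueprint.lean` for the plan.

`PR R`: iterated polynomial rings over `ℤ` with evaluation modulo `p` at finite data and a
submultiplicative norm which controls heights and degrees at once (value of the majorant at `2`).
`EV F`: a family of elements of `R` of norm `≤ 2^2^poly` whose values modulo all large primes are
computable in the counting hierarchy.  `EH Φ`: the same for families of ring homomorphisms.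
-/

set_option autoImplicit false

open Polynomial

noncomputable section

namespace Crest.Agent.R316

open Crest.Agent.Lib.PolyTime

/-- rings with evaluation modulo `p` and a norm -/
class PR (R : Type) [CommRing R] where
  /-- assignments of numbers to the variables -/
  A : Type
  /-- assignments are encodable -/
  encA : Enc A
  /-- evaluation modulo `p` -/
  ev : (p : ℕ) → A → R →+* ZMod p
  /-- the norm -/
  nrm : R → ℕ
  nrm_eq_zero : ∀ f, nrm f = 0 ↔ f = 0
  nrm_one_le : nrm 1 ≤ 1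
  nrm_neg : ∀ f, nrm (-f) = nrm f
  nrm_add_le : ∀ f g, nrm (f + g) ≤ nrm f + nrm g
  nrm_mul_le : ∀ f g, nrm (f * g) ≤ nrm f * nrm g
  ev_const : ∀ c, ∃ E : ℕ × A → ℕ, @PT _ _ (@instEncProd _ _ _ encA) _ E ∧
    ∀ p t, 0 < p → (E (p, t) : ZMod p) = ev p t c

export PR (nrm nrm_eq_zero nrm_one_le nrm_neg nrm_add_le nrm_mul_le)

attribute [instance_reducible, instance] PR.encA

instance : PR ℤ where
  A := Unit
  encA := inferInstance
  ev p _ := Int.castRingHom (ZMod p)
  nrm := Int.natAbs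
  nrm_eq_zero _ := Int.natAbs_eq_zero
  nrm_one_le := le_rfl
  nrm_neg := Int.natAbs_neg
  nrm_add_le := Int.natAbs_add_le
  nrm_mul_le f g := (Int.natAbs_mul f g).le
  ev_const c := ⟨fun x => (c % (x.1 : ℤ)).toNat, by fun_prop, fun p _ hp => by
    have h : ((c % (p : ℤ)).toNat : ℤ) = c % p :=
      Int.toNat_of_nonneg (Int.emod_nonneg _ (by omega))
    rw [← Int.cast_natCast, h]
    simp⟩

section
variable {R : Type} [CommRing R] [PR R]

@[simp] theorem nrm_zero : nrm (0 : R) = 0 := (nrm_eq_zero _).2 rfl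

theorem sum_le_of_subadd {M ι : Type} [AddCommMonoid M] (N : M → ℕ) (h0 : N 0 = 0)
    (h : ∀ f g, N (f + g) ≤ N f + N g) (s : Finset ι) (f : ι → M) :
    N (∑ i ∈ s, f i) ≤ ∑ i ∈ s, N (f i) := by
  classical
  induction s using Finset.induction_on with
  | empty => simp [h0]
  | insert i s hi ih => rw [Finset.sum_insert hi, Finset.sum_insert hi]; exact (h _ _).trans (by omega)

/-- norm on `R[X]` -/
def polyNrm (f : R[X]) : ℕ := ∑ k ∈ f.support, nrm (f.coeff k) * 2 ^ k

theorem polyNrm_eq {f : R[X]} {s : Finset ℕ} (h : f.support ⊆ s) :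
    polyNrm f = ∑ k ∈ s, nrm (f.coeff k) * 2 ^ k :=
  Finset.sum_subset h fun k _ hk => by simp [Polynomial.notMem_support_iff.1 hk]

theorem polyNrm_add_le (f g : R[X]) : polyNrm (f + g) ≤ polyNrm f + polyNrm g := by
  rw [polyNrm_eq (Polynomial.support_add (p := f) (q := g)),
    polyNrm_eq (Finset.subset_union_left (s₁ := f.support) (s₂ := g.support)),
    polyNrm_eq (Finset.subset_union_right (s₁ := f.support) (s₂ := g.support)),
    ← Finset.sum_add_distrib]
  exact Finset.sum_le_sum fun k _ => by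
    rw [← add_mul, coeff_add]; exact Nat.mul_le_mul_right _ (nrm_add_le _ _)

theorem polyNrm_monomial (k : ℕ) (c : R) : polyNrm (monomial k c) = nrm c * 2 ^ k := by
  rw [polyNrm_eq (Polynomial.support_monomial_subset k c)]; simp

theorem polyNrm_mul_le (f g : R[X]) : polyNrm (f * g) ≤ polyNrm f * polyNrm g := by
  rw [Polynomial.mul_eq_sum_sum]
  refine (sum_le_of_subadd polyNrm (by simp [polyNrm]) polyNrm_add_le _ _).trans ?_
  rw [polyNrm, polyNrm, Finset.sum_mul_sum]
  refine Finset.sum_le_sum fun i _ => ?_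
  refine (sum_le_of_subadd polyNrm (by simp [polyNrm]) polyNrm_add_le _ _).trans ?_
  refine Finset.sum_le_sum fun j _ => ?_
  rw [polyNrm_monomial, pow_add, mul_mul_mul_comm]
  exact Nat.mul_le_mul_right _ (nrm_mul_le _ _)

instance : PR R[X] where
  A := ℕ × PR.A R
  encA := inferInstance
  ev p t := Polynomial.eval₂RingHom (PR.ev p t.2) (t.1 : ZMod p)
  nrm := polyNrm
  nrm_eq_zero f := by
    refine ⟨fun h => Polynomial.ext fun k => ?_, fun h => by simp [h, polyNrm]⟩
    by_contra hk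
    have := (Finset.sum_eq_zero_iff.1 h) k (Polynomial.mem_support_iff.2 (by simpa using hk))
    simp [nrm_eq_zero] at this hk
    exact hk this
  nrm_one_le := by
    rw [← Polynomial.monomial_zero_one, polyNrm_monomial]; simpa using nrm_one_le
  nrm_neg f := by simp [polyNrm, nrm_neg]
  nrm_add_le := polyNrm_add_le
  nrm_mul_le := polyNrm_mul_le
  ev_const f := by
    induction f using Polynomial.induction_on' with
    | add f g hf hg =>
      obtain ⟨E, h1, h2⟩ := hf
      obtain ⟨E', h1', h2'⟩ := hg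
      exact ⟨fun x => E x + E' x, by fun_prop, fun p t hp => by simp [h2 p t hp, h2' p t hp]⟩
    | monomial k c =>
      obtain ⟨E, h1, h2⟩ := PR.ev_const c
      exact ⟨fun x => E (x.1, x.2.2) * x.2.1 ^ k, by fun_prop, fun p t hp => by
        simp [h2 p t.2 hp]⟩

/-- norm on `MvPolynomial ℕ R` -/
def mvNrm (f : MvPolynomial ℕ R) : ℕ := ∑ e ∈ f.support, nrm (f.coeff e) * 2 ^ e.degree

theorem mvNrm_eq {f : MvPolynomial ℕ R} {s : Finset (ℕ →₀ ℕ)} (h : f.support ⊆ s) :
    mvNrm f = ∑ e ∈ s, nrm (f.coeff e) * 2 ^ e.degree :=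
  Finset.sum_subset h fun k _ hk => by simp [MvPolynomial.notMem_support_iff.1 hk]

theorem mvNrm_add_le (f g : MvPolynomial ℕ R) : mvNrm (f + g) ≤ mvNrm f + mvNrm g := by
  classical
  rw [mvNrm_eq (MvPolynomial.support_add (p := f) (q := g)),
    mvNrm_eq (Finset.subset_union_left (s₁ := f.support) (s₂ := g.support)),
    mvNrm_eq (Finset.subset_union_right (s₁ := f.support) (s₂ := g.support)),
    ← Finset.sum_add_distrib]
  exact Finset.sum_le_sum fun k _ => by
    rw [← add_mul, MvPolynomial.coeff_add]; exact Nat.mul_le_mul_right _ (nrm_add_le _ _)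

theorem mvNrm_monomial (e : ℕ →₀ ℕ) (c : R) :
    mvNrm (MvPolynomial.monomial e c) = nrm c * 2 ^ e.degree := by
  rw [mvNrm_eq (MvPolynomial.support_monomial_subset (s := e) (a := c))]; simp

theorem mvNrm_mul_le (f g : MvPolynomial ℕ R) : mvNrm (f * g) ≤ mvNrm f * mvNrm g := by
  rw [MvPolynomial.mul_def, Finsupp.sum]
  refine (sum_le_of_subadd mvNrm (by simp [mvNrm]) mvNrm_add_le _ _).trans ?_
  rw [mvNrm, mvNrm, Finset.sum_mul_sum]
  refine Finset.sum_le_sum fun i _ => ?_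
  rw [Finsupp.sum]
  refine (sum_le_of_subadd mvNrm (by simp [mvNrm]) mvNrm_add_le _ _).trans ?_
  refine Finset.sum_le_sum fun j _ => ?_
  rw [mvNrm_monomial, map_add, pow_add, mul_mul_mul_comm]
  exact Nat.mul_le_mul_right _ (nrm_mul_le _ _)

instance : PR (MvPolynomial ℕ R) where
  A := List ℕ × PR.A R
  encA := inferInstance
  ev p t := MvPolynomial.eval₂Hom (PR.ev p t.2) fun i => ((t.1.getD i 0 : ℕ) : ZMod p)
  nrm := mvNrm
  nrm_eq_zero f := by
    refine ⟨fun h => MvPolynomial.ext _ _ fun k => ?_, fun h => by simp [h, mvNrm]⟩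
    by_contra hk
    have := (Finset.sum_eq_zero_iff.1 h) k (MvPolynomial.mem_support_iff.2 (by simpa using hk))
    simp [nrm_eq_zero] at this hk
    exact hk this
  nrm_one_le := by
    rw [MvPolynomial.one_def, mvNrm_monomial]; simpa using nrm_one_le
  nrm_neg f := by simp [mvNrm, nrm_neg]
  nrm_add_le := mvNrm_add_le
  nrm_mul_le := mvNrm_mul_le
  ev_const f := by
    induction f using MvPolynomial.induction_on with
    | C c =>
      obtain ⟨E, h1, h2⟩ := PR.ev_const c
      exact ⟨fun x => E (x.1, x.2.2), by fun_prop, fun p t hp => by simp [h2 p t.2 hp]⟩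
    | add f g hf hg =>
      obtain ⟨E, h1, h2⟩ := hf
      obtain ⟨E', h1', h2'⟩ := hg
      exact ⟨fun x => E x + E' x, by fun_prop, fun p t hp => by simp [h2 p t hp, h2' p t hp]⟩
    | mul_X f i hf =>
      obtain ⟨E, h1, h2⟩ := hf
      exact ⟨fun x => E x * x.2.1.getD i 0, by fun_prop, fun p t hp => by simp [h2 p t hp]⟩

end

/-- evaluable families of ring elements -/
@[fun_prop] def EV {α R : Type} [Enc α] [CommRing R] [PR R] (F : α → R) : Prop :=
  ∃ (k : α → ℕ) (E : α × ℕ × PR.A R → ℕ), PB k ∧ CF E ∧ (∀ a, nrm (F a) ≤ 2 ^ 2 ^ k a) ∧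
    ∀ a p t, p.Prime → 2 ^ k a ≤ p → (E (a, p, t) : ZMod p) = PR.ev p t (F a)

/-- evaluable families of ring homomorphisms -/
def EH {α R S : Type} [Enc α] [CommRing R] [PR R] [CommRing S] [PR S] (Φ : α → R →+* S) : Prop :=
  ∃ (k : α → ℕ) (T : α × ℕ × PR.A S → PR.A R), PB k ∧ CF T ∧
    (∀ a f, nrm (Φ a f) ≤ nrm f ^ 2 ^ k a) ∧
    ∀ a p t, p.Prime → 2 ^ k a ≤ p → ∀ f, PR.ev p t (Φ a f) = PR.ev p (T (a, p, t)) f

/-- extension of a tuple by zeros -/
def ext0 {K : Type} [Zero K] {n : ℕ} (v : Fin n → K) (i : ℕ) : K := if h : i < n then v ⟨i, h⟩ else 0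

/-- a list as an exponent vector -/
def l2f (l : List ℕ) : ℕ →₀ ℕ := l.toFinsupp

/-- evaluation of a polynomial at a tuple (the other variables are set to zero), with the
coefficients mapped by `φ` -/
def evl {R K : Type} [CommRing R] [CommRing K] (φ : R →+* K) {n : ℕ} (v : Fin n → K) :
    MvPolynomial ℕ R →+* K := MvPolynomial.eval₂Hom φ (ext0 v)

/-- value of an integer polynomial -/
def zev {K : Type} [CommRing K] (x : K) : ℤ[X] →+* K :=
  Polynomial.eval₂RingHom (Int.castRingHom K) x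

/-- `ρ` enumerates the complex roots of `ψ` with multiplicities -/
def Enum (ψ : ℤ[X]) {D : ℕ} (ρ : Fin D → ℂ) : Prop :=
  ψ.map (Int.castRingHom ℂ) = C (ψ.leadingCoeff : ℂ) * ∏ i, (X - C (ρ i))

/-- sign code of a real number: `1` positive, `2` negative, `0` zero -/
def sgc (r : ℝ) : ℕ := if 0 < r then 1 else if r < 0 then 2 else 0

/-- value of an integer polynomial at a real or complex tuple -/
abbrev ivl {K : Type} [CommRing K] {n : ℕ} (v : Fin n → K) : MvPolynomial ℕ ℤ →+* K :=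
  evl (Int.castRingHom K) v

/-- rings with a zero test -/
class ZT (R : Type) [CommRing R] [PR R] : Prop where
  out : ∀ (α : Type) [Enc α] (F : α → R), EV F → CF fun a => F a = 0

section mk
variable {α R : Type} [Enc α] [CommRing R] [PR R]

/-- `EV` over `ℤ` with explicit types -/
theorem EV.int_iff {F : α → ℤ} : EV F ↔ ∃ (k : α → ℕ) (E : α × ℕ × Unit → ℕ), PB k ∧ CF E ∧
    (∀ a, (F a).natAbs ≤ 2 ^ 2 ^ k a) ∧
    ∀ a p t, p.Prime → 2 ^ k a ≤ p → (E (a, p, t) : ZMod p) = (F a : ZMod p) := Iff.rfl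

/-- `EV` over `R[X]` with explicit types -/
theorem EV.poly_iff {F : α → R[X]} : EV F ↔ ∃ (k : α → ℕ) (E : α × ℕ × ℕ × PR.A R → ℕ),
    PB k ∧ CF E ∧ (∀ a, nrm (F a) ≤ 2 ^ 2 ^ k a) ∧
    ∀ a p s t, p.Prime → 2 ^ k a ≤ p →
      (E (a, p, s, t) : ZMod p) = (F a).eval₂ (PR.ev p t) (s : ZMod p) :=
  ⟨fun ⟨k, E, h1, h2, h3, h4⟩ => ⟨k, E, h1, h2, h3, fun a p s t => h4 a p (s, t)⟩,
    fun ⟨k, E, h1, h2, h3, h4⟩ => ⟨k, E, h1, h2, h3, fun a p t => h4 a p t.1 t.2⟩⟩

/-- `EV` over `MvPolynomial ℕ R` with explicit types -/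
theorem EV.mv_iff {F : α → MvPolynomial ℕ R} : EV F ↔
    ∃ (k : α → ℕ) (E : α × ℕ × List ℕ × PR.A R → ℕ), PB k ∧ CF E ∧
    (∀ a, nrm (F a) ≤ 2 ^ 2 ^ k a) ∧
    ∀ a p l t, p.Prime → 2 ^ k a ≤ p → (E (a, p, l, t) : ZMod p) =
      (F a).eval₂ (PR.ev p t) fun i => ((l.getD i 0 : ℕ) : ZMod p) :=
  ⟨fun ⟨k, E, h1, h2, h3, h4⟩ => ⟨k, E, h1, h2, h3, fun a p s t => h4 a p (s, t)⟩,
    fun ⟨k, E, h1, h2, h3, h4⟩ => ⟨k, E, h1, h2, h3, fun a p t => h4 a p t.1 t.2⟩⟩

theorem nrm_int (z : ℤ) : nrm z = z.natAbs := rfl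
theorem nrm_poly (f : R[X]) : nrm f = ∑ k ∈ f.support, nrm (f.coeff k) * 2 ^ k := rfl
theorem nrm_mv (f : MvPolynomial ℕ R) :
    nrm f = ∑ e ∈ f.support, nrm (f.coeff e) * 2 ^ e.degree := rfl
theorem ev_int (p : ℕ) (t : PR.A ℤ) (z : ℤ) : PR.ev p t z = (z : ZMod p) := rfl
theorem ev_poly (p s : ℕ) (t : PR.A R) (f : R[X]) :
    PR.ev (R := R[X]) p (s, t) f = f.eval₂ (PR.ev p t) (s : ZMod p) := rfl
theorem ev_mv (p : ℕ) (l : List ℕ) (t : PR.A R) (f : MvPolynomial ℕ R) :
    PR.ev (R := MvPolynomial ℕ R) p (l, t) f =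
      f.eval₂ (PR.ev p t) fun i => ((l.getD i 0 : ℕ) : ZMod p) := rfl

end mk

end Crest.Agent.R316
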