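import Crest.Agent.R316.EV

/-!
# Row 316 (S0488): EH
Closure properties of `EH`.  Note `nrm f ^ 2^k` is monotone in `k` (`nrm f = 0` or `≥ 1`).
`eval₂`: `T (a,p,t) = (E_g (a,p,t), T_Φ (a,p,t))`, norm by `nrm_eval₂_le` with `K = 2^(k + k')`.
`mvEval₂`: the list `(List.range (m a)).map fun i => E_g ((a,i),p,t)` (`CF.map_range`), thresholds and norms made
uniform with `PB.exists_unif`.  `shift`: the list `(range (max l.length (i+1))).map fun j => l.getD j 0 + if j = i then s else 0`.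
Prove the evaluation identities by `RingHom` extensionality (`Polynomial.ringHom_ext`,
`MvPolynomial.ringHom_ext`) or with `Polynomial.hom_eval₂`, `MvPolynomial.map_eval₂Hom`.
`PR.A R[X]` is `ℕ × PR.A R` and `PR.A (MvPolynomial ℕ R)` is `List ℕ × PR.A R` by definition (use `show`/type
ascriptions so that `fun_prop` sees the product).
-/

set_option autoImplicit false

open Polynomial

noncomputable section

namespace Crest.Agent.R316

open Crest.Agent.Lib.PolyTime
variable {α R S : Type} [Enc α] [CommRing R] [PR R] [CommRing S] [PR S]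
variable {U : Type} [CommRing U] [PR U]


theorem EH.of_eq {Φ Ψ : α → R →+* S} (h : EH Φ) (e : ∀ a, Φ a = Ψ a) : EH Ψ := funext e ▸ h

theorem EH_pow_mono (n : ℕ) {k k' : ℕ} (h : k ≤ k') : n ^ 2 ^ k ≤ n ^ 2 ^ k' := by
  rcases Nat.eq_zero_or_pos n with rfl | hn
  · rw [zero_pow (by positivity)]
    exact Nat.zero_le _
  · exact Nat.pow_le_pow_right hn (Nat.pow_le_pow_right two_pos h)

theorem EH_le_left {k k' p : ℕ} (h : 2 ^ (k + k') ≤ p) : 2 ^ k ≤ p :=
  (Nat.pow_le_pow_right two_pos (Nat.le_add_right _ _)).trans h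

theorem EH_le_right {k k' p : ℕ} (h : 2 ^ (k + k') ≤ p) : 2 ^ k' ≤ p :=
  (Nat.pow_le_pow_right two_pos (Nat.le_add_left _ _)).trans h

theorem EH_getD_map_range (n : ℕ) (f : ℕ → ℕ) (j : ℕ) :
    ((List.range n).map f).getD j 0 = if j < n then f j else 0 := by
  split_ifs with h
  · simp [h]
  · rw [List.getD_eq_default _ _ (by simpa using h)]

theorem EV.hom {Φ : α → R →+* S} {F : α → R} (hΦ : EH Φ) (hF : EV F) : EV fun a => Φ a (F a) := by
  obtain ⟨k, T, h1, h2, h3, h4⟩ := hΦ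
  obtain ⟨k', E, h1', h2', h3', h4'⟩ := hF
  refine ⟨fun a => k' a + k a, fun x => E (x.1, x.2.1, T x), h1'.add h1, by fun_prop,
    fun a => ?_, fun a p t hp hk => ?_⟩
  · refine (h3 a _).trans ((Nat.pow_le_pow_left (h3' a) _).trans (le_of_eq ?_))
    rw [← pow_mul, ← pow_add]
  · rw [h4 a p t hp (EH_le_right hk)]
    exact h4' a p _ hp (EH_le_left hk)
theorem EH.reindex {β : Type} [Enc β] {Φ : β → R →+* S} {f : α → β} (hΦ : EH Φ) (hf : CF f) :
    EH fun a => Φ (f a) := by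
  obtain ⟨k, T, h1, h2, h3, h4⟩ := hΦ
  exact ⟨fun a => k (f a), fun x => T (f x.1, x.2), PB.compCF h1 hf, by fun_prop,
    fun a => h3 (f a), fun a => h4 (f a)⟩
theorem EH.id : EH fun _ : α => RingHom.id R :=
  ⟨fun _ => 0, fun x => x.2.2, PB.const 0, by fun_prop, fun _ f => by simp,
    fun _ _ _ _ _ _ => rfl⟩
theorem EH.comp {Ψ : α → S →+* U} {Φ : α → R →+* S} (hΨ : EH Ψ) (hΦ : EH Φ) :
    EH fun a => (Ψ a).comp (Φ a) := by
  obtain ⟨k, T, h1, h2, h3, h4⟩ := hΨ
  obtain ⟨k', T', h1', h2', h3', h4'⟩ := hΦ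
  refine ⟨fun a => k' a + k a, fun x => T' (x.1, x.2.1, T x), h1'.add h1, by fun_prop,
    fun a f => ?_, fun a p t hp hk f => ?_⟩
  · refine (h3 a _).trans ((Nat.pow_le_pow_left (h3' a f) _).trans (le_of_eq ?_))
    rw [← pow_mul, ← pow_add]
  · rw [RingHom.comp_apply, h4 a p t hp (EH_le_right hk)]
    exact h4' a p _ hp (EH_le_left hk) f
theorem EH.intCast : EH fun _ : α => Int.castRingHom R :=
  ⟨fun _ => 0, fun _ => (() : Unit), PB.const 0, CF.const _,
    fun _ z => by simpa [nrm_int] using nrm_intCast_le (R := R) z,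
    fun _ p t _ _ z => by rw [ev_int]; simp⟩
theorem EH.C : EH fun _ : α => (C : R →+* R[X]) := by
  have h : CF fun x : α × ℕ × ℕ × PR.A R => x.2.2.2 := by fun_prop
  exact ⟨fun _ => 0, fun x : α × ℕ × ℕ × PR.A R => x.2.2.2, PB.const 0, h,
    fun _ c => by simp [nrm_C], fun _ p t _ _ c => eval₂_C _ _⟩
theorem EH.mvC : EH fun _ : α => (MvPolynomial.C : R →+* MvPolynomial ℕ R) := by
  have h : CF fun x : α × ℕ × List ℕ × PR.A R => x.2.2.2 := by fun_prop
  exact ⟨fun _ => 0, fun x : α × ℕ × List ℕ × PR.A R => x.2.2.2, PB.const 0, h,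
    fun _ c => by simp [nrm_mvC], fun _ p t _ _ c => MvPolynomial.eval₂_C _ _ _⟩
theorem EH.eval₂ {Φ : α → R →+* S} {g : α → S} (hΦ : EH Φ) (hg : EV g) :
    EH fun a => Polynomial.eval₂RingHom (Φ a) (g a) := by
  obtain ⟨k, T, h1, h2, h3, h4⟩ := hΦ
  obtain ⟨k', E, h1', h2', h3', h4'⟩ := hg
  have h : CF fun x : α × ℕ × PR.A S => ((E x, T x) : ℕ × PR.A R) := by fun_prop
  refine ⟨fun a => k' a + k a, fun x => ((E x, T x) : ℕ × PR.A R), h1'.add h1, h,
    fun a f => ?_, fun a p t hp hk f => ?_⟩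
  · exact nrm_eval₂_le (Φ a) (g a) Nat.one_le_two_pow
      (fun c => (h3 a c).trans (EH_pow_mono _ (Nat.le_add_left _ _)))
      ((h3' a).trans (EH_pow_mono _ (Nat.le_add_right _ _))) f
  · rw [ev_poly, h4' a p t hp (EH_le_left hk), coe_eval₂RingHom, hom_eval₂]
    congr 1
    exact RingHom.ext (h4 a p t hp (EH_le_right hk))
theorem EH.mvEval₂ {Φ : α → R →+* S} {m : α → ℕ} {g : α → ℕ → S} (hΦ : EH Φ) (hm : CF m)
    (hm' : PB m) (hg : EV fun x : α × ℕ => g x.1 x.2) :
    EH fun a => MvPolynomial.eval₂Hom (Φ a) fun i => if i < m a then g a i else 0 := by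
  obtain ⟨k, T, h1, h2, h3, h4⟩ := hΦ
  obtain ⟨k', E, h1', h2', h3', h4'⟩ := hg
  obtain ⟨K, -, hK, hK'⟩ := PB.exists_unif h1' hm
  have hl : CF fun x : α × ℕ × PR.A S => (List.range (m x.1)).map fun i => E ((x.1, i), x.2) :=
    CF.map_range (n := fun x : α × ℕ × PR.A S => m x.1) (f := fun x i => E ((x.1, i), x.2))
      (by fun_prop) (hm'.comp PT.fst') (by fun_prop)
  have h : CF fun x : α × ℕ × PR.A S =>
      (((List.range (m x.1)).map fun i => E ((x.1, i), x.2), T x) : List ℕ × PR.A R) :=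
    hl.prodMk h2
  refine ⟨fun a => K a + k a, fun x =>
    (((List.range (m x.1)).map fun i => E ((x.1, i), x.2), T x) : List ℕ × PR.A R), hK.add h1, h,
    fun a f => ?_, fun a p t hp hk f => ?_⟩
  · refine nrm_mvEval₂_le (Φ a) _ Nat.one_le_two_pow
      (fun c => (h3 a c).trans (EH_pow_mono _ (Nat.le_add_left _ _))) (fun i => ?_) f
    split_ifs with hi
    · exact (h3' (a, i)).trans (EH_pow_mono _ ((hK' a i hi.le).trans (Nat.le_add_right _ _)))
    · simp
  · rw [ev_mv, MvPolynomial.map_eval₂Hom, MvPolynomial.coe_eval₂Hom]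
    congr 1
    · exact RingHom.ext (h4 a p t hp (EH_le_right hk))
    · funext i
      rw [EH_getD_map_range]
      split_ifs with hi
      · exact (h4' (a, i) p t hp
          ((Nat.pow_le_pow_right two_pos (hK' a i hi.le)).trans (EH_le_left hk))).symm
      · simp
theorem EH.map {Φ : α → R →+* S} (hΦ : EH Φ) : EH fun a => Polynomial.mapRingHom (Φ a) :=
  (EH.eval₂ (EH.comp EH.C hΦ) EV.X).of_eq fun _ => Polynomial.ringHom_ext (by simp) (by simp)
theorem EH.mvMap {Φ : α → R →+* S} (hΦ : EH Φ) :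
    EH fun a => (MvPolynomial.map (Φ a) : MvPolynomial ℕ R →+* MvPolynomial ℕ S) := by
  obtain ⟨k, T, h1, h2, h3, h4⟩ := hΦ
  have h : CF fun x : α × ℕ × List ℕ × PR.A S =>
      ((x.2.2.1, T (x.1, x.2.1, x.2.2.2)) : List ℕ × PR.A R) := by fun_prop
  refine ⟨k, fun x : α × ℕ × List ℕ × PR.A S =>
    ((x.2.2.1, T (x.1, x.2.1, x.2.2.2)) : List ℕ × PR.A R), h1, h, fun a f => ?_,
    fun a p t hp hk f => ?_⟩
  · beta_reduce
    rw [MvPolynomial.map_eq_eval₂Hom_C_comp]
    refine nrm_mvEval₂_le _ _ Nat.one_le_two_pow (fun c => ?_) (fun i => ?_) f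
    · rw [RingHom.comp_apply, nrm_mvC]
      exact h3 a c
    · exact (nrm_mvX_le i).trans (Nat.le_self_pow (by positivity) 2)
  · obtain ⟨l, t⟩ : List ℕ × PR.A S := t
    rw [ev_mv, ev_mv, MvPolynomial.eval₂_map]
    congr 1
    exact RingHom.ext (h4 a p t hp hk)
/-- `X j ↦ X j + [j = i] s` -/
theorem EH.shift {i : α → ℕ} (hi : CF i) (hi' : PB i) :
    EH fun a => (MvPolynomial.eval₂Hom (Polynomial.C.comp MvPolynomial.C)
      (fun j => Polynomial.C (MvPolynomial.X j) + if j = i a then Polynomial.X else 0) :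
        MvPolynomial ℕ R →+* (MvPolynomial ℕ R)[X]) := by
  have hl : CF fun x : α × ℕ × ℕ × List ℕ × PR.A R =>
      (List.range (x.2.2.2.1.length + (i x.1 + 1))).map fun j =>
        x.2.2.2.1.getD j 0 + if j = i x.1 then x.2.2.1 else 0 :=
    CF.map_range (n := fun x : α × ℕ × ℕ × List ℕ × PR.A R => x.2.2.2.1.length + (i x.1 + 1))
      (f := fun x j => x.2.2.2.1.getD j 0 + if j = i x.1 then x.2.2.1 else 0)
      (by fun_prop) ((PB.length (by fun_prop)).add ((hi'.comp PT.fst').add (PB.const 1)))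
      (by fun_prop)
  have h : CF fun x : α × ℕ × ℕ × List ℕ × PR.A R =>
      (((List.range (x.2.2.2.1.length + (i x.1 + 1))).map fun j =>
        x.2.2.2.1.getD j 0 + if j = i x.1 then x.2.2.1 else 0, x.2.2.2.2) : List ℕ × PR.A R) :=
    hl.prodMk (by fun_prop)
  refine ⟨fun _ => 1, fun x : α × ℕ × ℕ × List ℕ × PR.A R =>
      (((List.range (x.2.2.2.1.length + (i x.1 + 1))).map fun j =>
        x.2.2.2.1.getD j 0 + if j = i x.1 then x.2.2.1 else 0, x.2.2.2.2) : List ℕ × PR.A R),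
    PB.const 1, h, fun a f => ?_, fun a p t hp hk f => ?_⟩
  · refine nrm_mvEval₂_le _ _ Nat.one_le_two_pow (fun c => ?_) (fun j => ?_) f
    · rw [RingHom.comp_apply, nrm_C, nrm_mvC]
      exact Nat.le_self_pow (by positivity) _
    · refine (nrm_add_le _ _).trans ?_
      have a1 := nrm_mvX_le (R := R) j
      have a2 := nrm_X_le (R := MvPolynomial ℕ R)
      rw [nrm_C]
      change _ ≤ 4
      split_ifs
      · omega
      · rw [nrm_zero]
        omega
  · obtain ⟨s, l, t⟩ : ℕ × List ℕ × PR.A R := t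
    have e1 : ∀ q : MvPolynomial ℕ R, PR.ev (R := (MvPolynomial ℕ R)[X]) p (s, l, t)
        (Polynomial.C q) = q.eval₂ (PR.ev p t) fun i => ((l.getD i 0 : ℕ) : ZMod p) :=
      fun q => eval₂_C _ _
    have e2 : PR.ev (R := (MvPolynomial ℕ R)[X]) p (s, l, t) Polynomial.X = (s : ZMod p) :=
      eval₂_X _ _
    rw [ev_mv, MvPolynomial.map_eval₂Hom, MvPolynomial.coe_eval₂Hom]
    congr 1
    · refine RingHom.ext fun c => ?_
      rw [RingHom.comp_apply, RingHom.comp_apply, e1, MvPolynomial.eval₂_C]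
    · funext j
      rw [EH_getD_map_range, map_add, e1, MvPolynomial.eval₂_X]
      dsimp only
      by_cases hj : j = i a
      · rw [if_pos hj, if_pos hj, if_pos (by omega), e2, Nat.cast_add]
      · rw [if_neg hj, if_neg hj, map_zero, add_zero, add_zero]
        split_ifs with h
        · rfl
        · rw [List.getD_eq_default _ _ (by omega)]

theorem EV.eval {F : α → R[X]} {g : α → R} (hF : EV F) (hg : EV g) :
    EV fun a => (F a).eval (g a) := EV.hom (EH.eval₂ EH.id hg) hF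

end Crest.Agent.R316
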