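import Crest.Agent.R316.Nrm

/-!
# Row 316 (S0488): EV
Closure properties of `EV`.  Pattern: take `k, E` from the hypotheses, the new `k` is a polynomial in the old
ones (`PB.exists_unif`, `CF.exists_lt_two_pow`, `CF.exists_unif`, `PB.compCF`), the new `E` is built with
`fun_prop`.  Negation: `E' = (p - 1) * E`.  Sums: `CF.sum_range` (no reduction is needed: `CF` bounds the
size).  Products: `CF.exists_prodMod`.  Norms: `n * 2^2^k ≤ 2^2^(k + k')`, `(2^2^k)^n ≤ 2^2^(k + k')` when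
`n < 2^k'`.  `sum_fun`, `prod_fun`: `sum_digs`, `prod_digs`, `CF.digs`.
-/

set_option autoImplicit false

open Polynomial

noncomputable section

namespace Crest.Agent.R316

open Crest.Agent.Lib.PolyTime
variable {α R S : Type} [Enc α] [CommRing R] [PR R] [CommRing S] [PR S]


theorem EV.of_eq {F G : α → R} (h : EV F) (e : ∀ a, F a = G a) : EV G := funext e ▸ h

theorem EV_two_pow_le (k : ℕ) : 2 ^ k ≤ 2 ^ 2 ^ k :=
  Nat.pow_le_pow_right (by omega) Nat.lt_two_pow_self.le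

theorem EV_mono {k k' : ℕ} (h : k ≤ k') : 2 ^ 2 ^ k ≤ 2 ^ 2 ^ k' :=
  Nat.pow_le_pow_right (by omega) (Nat.pow_le_pow_right (by omega) h)

/-- a common bound for two families -/
theorem EV.exists_two {F G : α → R} (hF : EV F) (hG : EV G) :
    ∃ (k : α → ℕ) (E E' : α × ℕ × PR.A R → ℕ), PB k ∧ CF E ∧ CF E' ∧
      (∀ a, nrm (F a) ≤ 2 ^ 2 ^ k a) ∧ (∀ a, nrm (G a) ≤ 2 ^ 2 ^ k a) ∧
      (∀ a p t, p.Prime → 2 ^ k a ≤ p → (E (a, p, t) : ZMod p) = PR.ev p t (F a)) ∧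
      ∀ a p t, p.Prime → 2 ^ k a ≤ p → (E' (a, p, t) : ZMod p) = PR.ev p t (G a) := by
  obtain ⟨k, E, h1, h2, h3, h4⟩ := hF
  obtain ⟨k', E', h1', h2', h3', h4'⟩ := hG
  exact ⟨fun a => k a + k' a, E, E', h1.add h1', h2, h2',
    fun a => (h3 a).trans (EV_mono (Nat.le_add_right _ _)),
    fun a => (h3' a).trans (EV_mono (Nat.le_add_left _ _)),
    fun a p t hp hk => h4 a p t hp
      ((Nat.pow_le_pow_right (by omega) (Nat.le_add_right _ _)).trans hk),
    fun a p t hp hk => h4' a p t hp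
      ((Nat.pow_le_pow_right (by omega) (Nat.le_add_left _ _)).trans hk)⟩

@[fun_prop] theorem EV.comp {β : Type} [Enc β] {F : β → R} {f : α → β} (hF : EV F) (hf : CF f) :
    EV fun a => F (f a) := by
  obtain ⟨k, E, h1, h2, h3, h4⟩ := hF
  exact ⟨fun a => k (f a), fun x => E (f x.1, x.2), PB.compCF h1 hf,
    h2.comp (f := fun x : α × ℕ × PR.A R => (f x.1, x.2)) (by fun_prop), fun a => h3 _,
    fun a p t => h4 _ p t⟩

@[fun_prop] theorem EV.natCast {n : α → ℕ} (hn : CF n) : EV fun a => (n a : R) := by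
  obtain ⟨k, -, h2, h3⟩ := hn.exists_lt_two_pow
  exact ⟨k, fun x => n x.1, h2, by fun_prop,
    fun a => (nrm_natCast_le _).trans ((h3 a).le.trans (EV_two_pow_le _)),
    fun a p t _ _ => (map_natCast _ _).symm⟩

@[fun_prop] theorem EV.intCast {n : α → ℤ} (hn : CF n) : EV fun a => (n a : R) := by
  have hn' : CF fun a => (n a).natAbs := (CF.of_PT (f := fun z : ℤ => z.natAbs) (by fun_prop)).comp hn
  obtain ⟨k, -, h2, h3⟩ := hn'.exists_lt_two_pow
  refine ⟨k, fun x => (n x.1 % (x.2.1 : ℤ)).toNat, h2,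
    (CF.of_PT (f := fun z : ℤ × ℕ => (z.1 % (z.2 : ℤ)).toNat) (by fun_prop)).comp
      (f := fun x : α × ℕ × PR.A R => (n x.1, x.2.1)) (by fun_prop),
    fun a => (nrm_intCast_le _).trans ((h3 a).le.trans (EV_two_pow_le _)),
    fun a p t hp _ => ?_⟩
  have h : ((n a % (p : ℤ)).toNat : ℤ) = n a % p :=
    Int.toNat_of_nonneg (Int.emod_nonneg _ (by have := hp.pos; omega))
  rw [map_intCast, ← Int.cast_natCast, h]
  simp

theorem EV.int {n : α → ℤ} (hn : CF n) : EV n := by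
  exact (EV.intCast (R := ℤ) hn).of_eq fun a => Int.cast_id

/-- constants (`PR.ev_const`) -/
@[fun_prop] theorem EV.const (c : R) : EV fun _ : α => c := by
  obtain ⟨E, h1, h2⟩ := PR.ev_const c
  exact ⟨fun _ => nrm c, fun x => E x.2, PB.const _, (CF.of_PT h1).comp (by fun_prop),
    fun _ => Nat.lt_two_pow_self.le.trans (EV_two_pow_le _), fun _ p t hp _ => h2 p t hp.pos⟩

theorem EV.two : EV fun _ : α => (2 : R) := EV.const 2
@[fun_prop] theorem EV.add {F G : α → R} (hF : EV F) (hG : EV G) : EV fun a => F a + G a := by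
  obtain ⟨k, E, E', h1, h2, h2', h3, h3', h4, h4'⟩ := hF.exists_two hG
  refine ⟨fun a => k a + 1, fun x => E x + E' x, by fun_prop, by fun_prop, fun a => ?_,
    fun a p t hp hk => ?_⟩
  · have h5 := nrm_add_le (F a) (G a)
    have h6 := h3 a
    have h7 := h3' a
    have h8 : 2 ≤ 2 ^ 2 ^ k a := Nat.le_self_pow (by positivity) 2
    rw [pow_succ, pow_mul, sq]
    nlinarith
  · have hk' : 2 ^ k a ≤ p := (Nat.pow_le_pow_right (by omega) (Nat.le_succ _)).trans hk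
    rw [Nat.cast_add, map_add, h4 a p t hp hk', h4' a p t hp hk']

@[fun_prop] theorem EV.neg {F : α → R} (hF : EV F) : EV fun a => -F a := by
  obtain ⟨k, E, h1, h2, h3, h4⟩ := hF
  refine ⟨k, fun x => (x.2.1 - 1) * E x, h1, by fun_prop, fun a => (nrm_neg _).trans_le (h3 a),
    fun a p t hp hk => ?_⟩
  rw [Nat.cast_mul, Nat.cast_sub hp.one_lt.le, map_neg, h4 a p t hp hk]
  simp

@[fun_prop] theorem EV.sub {F G : α → R} (hF : EV F) (hG : EV G) : EV fun a => F a - G a := by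
  exact (hF.add hG.neg).of_eq fun a => (sub_eq_add_neg _ _).symm

@[fun_prop] theorem EV.mul {F G : α → R} (hF : EV F) (hG : EV G) : EV fun a => F a * G a := by
  obtain ⟨k, E, E', h1, h2, h2', h3, h3', h4, h4'⟩ := hF.exists_two hG
  refine ⟨fun a => k a + 1, fun x => E x * E' x, by fun_prop, by fun_prop, fun a => ?_,
    fun a p t hp hk => ?_⟩
  · rw [pow_succ, pow_mul, sq]
    exact (nrm_mul_le _ _).trans (Nat.mul_le_mul (h3 a) (h3' a))
  · have hk' : 2 ^ k a ≤ p := (Nat.pow_le_pow_right (by omega) (Nat.le_succ _)).trans hk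
    rw [Nat.cast_mul, map_mul, h4 a p t hp hk', h4' a p t hp hk']

@[fun_prop] theorem EV.ite {c : α → Prop} [∀ a, Decidable (c a)] {F G : α → R} (hc : CF c)
    (hF : EV F) (hG : EV G) : EV fun a => if c a then F a else G a := by
  obtain ⟨k, E, E', h1, h2, h2', h3, h3', h4, h4'⟩ := hF.exists_two hG
  refine ⟨k, fun x => if c x.1 then E x else E' x, h1,
    CF.ite (c := fun x : α × ℕ × PR.A R => c x.1) (hc.comp (by fun_prop)) h2 h2', fun a => ?_,
    fun a p t hp hk => ?_⟩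
  · dsimp only
    split_ifs
    · exact h3 a
    · exact h3' a
  · dsimp only
    split_ifs
    · exact h4 a p t hp hk
    · exact h4' a p t hp hk

@[fun_prop] theorem EV.C {F : α → R} (hF : EV F) : EV fun a => (C (F a) : R[X]) := by
  obtain ⟨k, E, h1, h2, h3, h4⟩ := hF
  refine EV.poly_iff.2 ⟨k, fun x => E (x.1, x.2.1, x.2.2.2), h1,
    h2.comp (f := fun x : α × ℕ × ℕ × PR.A R => (x.1, x.2.1, x.2.2.2)) (by fun_prop),
    fun a => (nrm_C _).trans_le (h3 a), fun a p s t hp hk => ?_⟩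
  rw [eval₂_C]
  exact h4 a p t hp hk

theorem EV.X : EV fun _ : α => (X : R[X]) := EV.const _
@[fun_prop] theorem EV.mvC {F : α → R} (hF : EV F) :
    EV fun a => (MvPolynomial.C (F a) : MvPolynomial ℕ R) := by
  obtain ⟨k, E, h1, h2, h3, h4⟩ := hF
  refine EV.mv_iff.2 ⟨k, fun x => E (x.1, x.2.1, x.2.2.2), h1,
    h2.comp (f := fun x : α × ℕ × List ℕ × PR.A R => (x.1, x.2.1, x.2.2.2)) (by fun_prop),
    fun a => (nrm_mvC _).trans_le (h3 a), fun a p s t hp hk => ?_⟩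
  rw [MvPolynomial.eval₂_C]
  exact h4 a p t hp hk

@[fun_prop] theorem EV.mvX {i : α → ℕ} (hi : CF i) :
    EV fun a => (MvPolynomial.X (i a) : MvPolynomial ℕ R) := by
  refine EV.mv_iff.2 ⟨fun _ => 0, fun x => x.2.2.1.getD (i x.1) 0, PB.const _,
    (CF.of_PT (f := fun z : List ℕ × ℕ => z.1.getD z.2 0) (by fun_prop)).comp
      (f := fun x : α × ℕ × List ℕ × PR.A R => (x.2.2.1, i x.1)) (by fun_prop),
    fun a => nrm_mvX_le _, fun a p s t _ _ => ?_⟩
  rw [MvPolynomial.eval₂_X]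


theorem EV.exists_nrm {F : α → R} (hF : EV F) :
    ∃ Λ : α → ℕ, CF Λ ∧ ∀ a, nrm (F a) ≤ 2 ^ Λ a := by
  obtain ⟨k, E, h1, -, h3, -⟩ := hF
  obtain ⟨K, hK1, hK2, hK3⟩ := PB.exists_PT h1
  exact ⟨fun a => 2 ^ K a, CF.of_PT (by fun_prop), fun a => (h3 a).trans (EV_mono (hK3 a))⟩

theorem EV.exists_nrm_unif {F : α × ℕ → R} {n : α → ℕ} (hF : EV F) (hn : CF n) :
    ∃ Λ : α → ℕ, CF Λ ∧ ∀ a, ∀ i ≤ n a, nrm (F (a, i)) ≤ 2 ^ Λ a := by
  obtain ⟨k, E, h1, -, h3, -⟩ := hF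
  obtain ⟨K, hK1, hK2, hK3⟩ := PB.exists_unif h1 hn
  exact ⟨fun a => 2 ^ K a, CF.of_PT (by fun_prop),
    fun a i hi => (h3 _).trans (EV_mono (hK3 a i hi))⟩

theorem EV.exists_natDegree_lt {F : α → R[X]} (hF : EV F) :
    ∃ D : α → ℕ, CF D ∧ ∀ a, (F a).natDegree < D a := by
  obtain ⟨Λ, h1, h2⟩ := hF.exists_nrm
  exact ⟨fun a => Λ a + 1, by fun_prop,
    fun a => Nat.lt_succ_of_le (natDegree_le_of_nrm_le (h2 a))⟩

theorem EV.exists_totalDegree_lt {F : α → MvPolynomial ℕ R} (hF : EV F) :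
    ∃ D : α → ℕ, CF D ∧ ∀ a, (F a).totalDegree < D a := by
  obtain ⟨Λ, h1, h2⟩ := hF.exists_nrm
  exact ⟨fun a => Λ a + 1, by fun_prop,
    fun a => Nat.lt_succ_of_le (totalDegree_le_of_nrm_le (h2 a))⟩


end Crest.Agent.R316
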