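import Mathlib

/-!
# Row 316 (S0488): Eig
Power traces are power sums of the eigenvalues.  Decompose `V` into the generalised eigenspaces
(`Module.End.iSup_maxGenEigenspace_eq_top`, `Module.End.independent_maxGenEigenspace`,
`DirectSum.isInternal_submodule_of_iSupIndep_of_iSup_eq_top`, `LinearMap.trace_eq_sum_trace_restrict'`); on
`V_μ`, `M = μ + N` with `N` nilpotent, so `M^j - μ^j` is nilpotent and has trace `0`
(`LinearMap.isNilpotent_trace_of_isNilpotent`), i.e. `tr M^j = ∑_μ dim V_μ μ^j`; enumerate the multiset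
`∑_μ dim V_μ • {μ}` (cardinality `finrank`, take `j = 0`).  Alternatively induct on the dimension
(eigenvector, quotient), or use `Matrix.charpoly` roots.
-/

set_option autoImplicit false

namespace Crest.Agent.R316

open Polynomial in
theorem Eig_det_aeval {V : Type} [AddCommGroup V] [Module ℂ V] [FiniteDimensional ℂ V]
    (M : V →ₗ[ℂ] V) (lam : Fin (Module.finrank ℂ V) → ℂ)
    (hl : ∀ z : ℂ, M.charpoly.eval z = ∏ i, (z - lam i)) (q : ℂ[X]) :
    LinearMap.det (aeval (A := Module.End ℂ V) M q) = ∏ i, q.eval (lam i) := by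
  have hq : q ∈ Submonoid.closure ({C a | a : ℂ} ∪ {X + C a | a : ℂ}) := IsAlgClosed.splits q
  induction hq using Submonoid.closure_induction with
  | mem x hx =>
    rcases hx with ⟨a, rfl⟩ | ⟨a, rfl⟩
    · simp [Algebra.algebraMap_eq_smul_one, LinearMap.det_smul]
    · have h1 := hl (-a)
      rw [LinearMap.eval_charpoly] at h1
      have h2 : aeval (A := Module.End ℂ V) M (X + C a) =
          (-1 : ℂ) • (algebraMap ℂ (Module.End ℂ V) (-a) - M) := by
        simp
      rw [h2, LinearMap.det_smul, h1]
      simp only [eval_add, eval_X, eval_C]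
      rw [← Fin.prod_const, ← Finset.prod_mul_distrib]
      exact Finset.prod_congr rfl fun i _ => by ring
  | one => simp
  | mul x y _ _ hx hy => simp [hx, hy, Finset.prod_mul_distrib]

open Polynomial in
theorem exists_eig {V : Type} [AddCommGroup V] [Module ℂ V] [FiniteDimensional ℂ V]
    (M : V →ₗ[ℂ] V) : ∃ lam : Fin (Module.finrank ℂ V) → ℂ,
      (∀ j : ℕ, LinearMap.trace ℂ V (M ^ j) = ∑ i, lam i ^ j) ∧
      ((∃ i, lam i = 0) ↔ ¬ Function.Injective M) := by
  have hs : M.charpoly.Splits := IsAlgClosed.splits _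
  have hc : M.charpoly.roots.toList.length = Module.finrank ℂ V := by
    rw [Multiset.length_toList, ← hs.natDegree_eq_card_roots, LinearMap.charpoly_natDegree]
  set lam : Fin (Module.finrank ℂ V) → ℂ := fun i => M.charpoly.roots.toList.get (i.cast hc.symm)
    with hlam
  have hm : Multiset.map lam Finset.univ.val = M.charpoly.roots := by
    rw [Fin.univ_val_map, hlam, ← List.ofFn_congr hc, List.ofFn_get, Multiset.coe_toList]
  have hl : ∀ z : ℂ, M.charpoly.eval z = ∏ i, (z - lam i) := by
    intro z
    rw [hs.eval_eq_prod_roots_of_monic M.charpoly_monic, ← hm, Multiset.map_map]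
    rfl
  refine ⟨lam, fun j => ?_, ?_⟩
  · have h1 : (M ^ j).charpoly = ((Finset.univ.val.map fun i => lam i ^ j).map (X - C ·)).prod := by
      refine Polynomial.funext fun z => ?_
      have h2 := Eig_det_aeval M lam hl (C z - X ^ j)
      simp only [map_sub, aeval_C, map_pow, aeval_X, eval_sub, eval_C, eval_pow, eval_X] at h2
      rw [LinearMap.eval_charpoly, h2, Multiset.map_map, eval_multiset_prod, Multiset.map_map]
      simp only [Function.comp, eval_sub, eval_X, eval_C]
      rfl
    rw [Module.End.trace_eq_sum_roots_charpoly_of_splits (IsAlgClosed.splits _), h1,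
      roots_multiset_prod_X_sub_C]
    rfl
  · have h2 := Eig_det_aeval M lam hl X
    simp only [aeval_X, eval_X] at h2
    rw [← LinearMap.ker_eq_bot, ← ne_eq, ← LinearMap.det_eq_zero_iff_ker_ne_bot, h2,
      Finset.prod_eq_zero_iff]
    simp

end Crest.Agent.R316
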