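import Crest.Agent.R316.Coeff

/-!
# Row 316 (S0488): Kl
Elimination for the systems `A Xᵢ^D = gᵢ`, `deg gᵢ < D`.  With `H > totalDegree h` (`EV.exists_totalDegree_lt`),
`K = n H + n`, `J = ∑_{π : Fin n → Fin n} (∏_{j<n} ∏_{i<j} sign(π j - π i)) ∏_{i<n} pderiv (π i) (C A * X i^D - g i)`
(`det_eq_sum_fun`; `EV.sum_fun`, write everything with `l.getD i 0` for the list `l` of `π`; the index of
`pderiv` can be written `min (l.getD i 0) n` to be `PB`), put
`T (a,j) = ∑_{α : Fin n → Fin (jH+1)} A^(K j - (|α| + n)) * coeff (l2f [(αᵢ+1) D - 1]) (h^j * J * ∏_{i<n} gᵢ^αᵢ)`.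
Transfer to `Fin n` variables by `kl φ = killCompl Fin.val_injective ∘ map φ` (`kl_*` lemmas below,
`l2f_ofFn`, `MvPolynomial.coeff_killCompl`): `φ (T (a,j)) = φ(A)^(K j) rho (φ A)⁻¹ … = ∑ (φ(A)^K λᵢ)^j` by
`exists_eig_res` (`|α| + n ≤ K j` on the box for `j ≥ 1`).  Conclude with `exists_newton` (`Δ = D^n`, `L = ℂ`).
-/

set_option autoImplicit false

open Polynomial

noncomputable section

namespace Crest.Agent.R316

open Crest.Agent.Lib.PolyTime
variable {α R S : Type} [Enc α] [CommRing R] [PR R] [CommRing S] [PR S]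


theorem det_eq_sum_fun {B : Type} [CommRing B] {n : ℕ} (M : Matrix (Fin n) (Fin n) B) :
    M.det = ∑ π : Fin n → Fin n,
      (∏ j : Fin n, ∏ i ∈ Finset.Iio j, ((Int.sign ((π j : ℤ) - (π i : ℤ)) : ℤ) : B)) *
        ∏ i, M i (π i) := by
  rw [← Matrix.det_transpose, Matrix.det_apply']
  refine Finset.sum_of_injOn (fun σ : Equiv.Perm (Fin n) => (σ : Fin n → Fin n))
    (fun σ _ τ _ h => Equiv.coe_fn_injective h) (fun _ _ => by simp) (fun π _ hπ => ?_)
    (fun σ _ => ?_)
  · have h1 : ¬ Function.Injective π := fun h =>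
      hπ ⟨Equiv.ofBijective π (Finite.injective_iff_bijective.1 h), by simp, rfl⟩
    have h2 : ∃ j i : Fin n, i < j ∧ π i = π j := by
      by_contra h
      push Not at h
      refine h1 fun i j hij => ?_
      rcases lt_trichotomy i j with h3 | h3 | h3
      · exact absurd hij (h j i h3)
      · exact h3
      · exact absurd hij.symm (h i j h3)
    obtain ⟨j, i, hij, h⟩ := h2
    rw [Finset.prod_eq_zero (Finset.mem_univ j)
      (Finset.prod_eq_zero (Finset.mem_Iio.2 hij) (by simp [h])), zero_mul]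
  · congr 1
    rw [σ.sign_eq_prod_prod_Iio]
    simp only [Units.coe_prod, Int.cast_prod]
    refine Finset.prod_congr rfl fun j _ => Finset.prod_congr rfl fun i hi => ?_
    have hij : i ≠ j := (Finset.mem_Iio.1 hi).ne
    congr 1
    split_ifs with h
    · have : (0 : ℤ) < (σ j : ℤ) - (σ i : ℤ) := by
        have := Fin.lt_def.1 h
        omega
      rw [Int.sign_eq_one_of_pos this]
      rfl
    · have h3 : σ j < σ i := lt_of_le_of_ne (not_lt.1 h) fun h4 => hij (σ.injective h4).symm
      have : (σ j : ℤ) - (σ i : ℤ) < 0 := by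
        have := Fin.lt_def.1 h3
        omega
      rw [Int.sign_eq_neg_one_of_neg this]
      rfl

/-- map the coefficients and kill the variables `≥ n` -/
def kl {A K : Type} [CommRing A] [CommRing K] (φ : A →+* K) (n : ℕ) :
    MvPolynomial ℕ A →+* MvPolynomial (Fin n) K :=
  (MvPolynomial.killCompl (Fin.val_injective (n := n))).toRingHom.comp (MvPolynomial.map φ)

section
variable {A K : Type} [CommRing A] [CommRing K] (φ : A →+* K) {n : ℕ}
theorem kl_apply (f : MvPolynomial ℕ A) :
    kl φ n f = MvPolynomial.killCompl (Fin.val_injective (n := n)) (MvPolynomial.map φ f) := rfl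
theorem kl_X_ite (j : ℕ) : kl φ n (MvPolynomial.X j) =
    if h : j < n then MvPolynomial.X ⟨j, h⟩ else 0 := by
  rw [kl_apply, MvPolynomial.map_X]
  split_ifs with h
  · have := MvPolynomial.killCompl_rename_app (R := K) (Fin.val_injective (n := n))
      (MvPolynomial.X ⟨j, h⟩)
    rwa [MvPolynomial.rename_X] at this
  · rw [MvPolynomial.killCompl, MvPolynomial.aeval_X, dif_neg]
    rintro ⟨i, rfl⟩
    exact h i.2
theorem kl_C' (c : A) : kl φ n (MvPolynomial.C c) = MvPolynomial.C (φ c) := by
  rw [kl_apply, MvPolynomial.map_C, MvPolynomial.killCompl_C]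
theorem eval_kl (ξ : Fin n → K) (f : MvPolynomial ℕ A) :
    MvPolynomial.eval ξ (kl φ n f) = evl φ ξ f := by
  induction f using MvPolynomial.induction_on with
  | C c => rw [kl_C']; simp [evl]
  | add f g hf hg => rw [map_add, map_add, map_add, hf, hg]
  | mul_X f j hf =>
    rw [map_mul, map_mul, map_mul, hf, kl_X_ite]
    congr 1
    by_cases h : j < n <;> simp [evl, ext0, h]
theorem kl_C (c : A) : kl φ n (MvPolynomial.C c) = MvPolynomial.C (φ c) :=
  kl_C' φ c
theorem kl_X (i : Fin n) : kl φ n (MvPolynomial.X i) = MvPolynomial.X i := by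
  rw [kl_X_ite, dif_pos i.2]
theorem kl_pderiv (i : Fin n) (f : MvPolynomial ℕ A) :
    kl φ n (MvPolynomial.pderiv (i : ℕ) f) = MvPolynomial.pderiv i (kl φ n f) := by
  induction f using MvPolynomial.induction_on with
  | C c => rw [kl_C']; simp
  | add f g hf hg => rw [map_add, map_add, map_add, map_add, hf, hg]
  | mul_X f j hf =>
    have h1 : kl φ n (MvPolynomial.pderiv (i : ℕ) (MvPolynomial.X j : MvPolynomial ℕ A)) =
        MvPolynomial.pderiv i (kl φ n (MvPolynomial.X j)) := by
      rw [kl_X_ite]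
      by_cases h : j < n
      · rw [dif_pos h]
        by_cases h2 : j = i
        · subst h2
          simp
        · have h3 : (⟨j, h⟩ : Fin n) ≠ i := fun h4 => h2 (congrArg Fin.val h4)
          rw [MvPolynomial.pderiv_X_of_ne h2, MvPolynomial.pderiv_X_of_ne h3, map_zero]
      · have h2 : j ≠ i := fun h4 => h (h4 ▸ i.2)
        rw [dif_neg h, MvPolynomial.pderiv_X_of_ne h2, map_zero, map_zero]
    rw [MvPolynomial.pderiv_mul, map_add, map_mul, map_mul, map_mul, MvPolynomial.pderiv_mul, hf, h1]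
theorem coeff_kl (e : Fin n → ℕ) (f : MvPolynomial ℕ A) :
    (kl φ n f).coeff (Finsupp.equivFunOnFinite.symm e) = φ (f.coeff (l2f (List.ofFn e))) := by
  rw [kl_apply, MvPolynomial.coeff_killCompl, MvPolynomial.coeff_map, l2f_ofFn]
theorem totalDegree_kl_le (f : MvPolynomial ℕ A) : (kl φ n f).totalDegree ≤ f.totalDegree := by
  refine Finset.sup_le fun e he => ?_
  rw [MvPolynomial.mem_support_iff, kl_apply, MvPolynomial.coeff_killCompl,
    MvPolynomial.coeff_map] at he
  have h1 : e.mapDomain Fin.val ∈ f.support :=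
    MvPolynomial.mem_support_iff.2 fun h => he (by rw [h, map_zero])
  exact (Finsupp.sum_mapDomain_index (f := (Fin.val : Fin n → ℕ)) (h := fun _ (x : ℕ) => x)
    (fun _ => rfl) (fun _ _ _ => rfl)).symm.trans_le (MvPolynomial.le_totalDegree h1)
end

end Crest.Agent.R316
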