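import Crest.Agent.R316.Res2
import Crest.Agent.R316.Newton
import Crest.Agent.R316.Kl

/-!
# Row 316 (S0488): Elim
Elimination for the systems `A Xᵢ^D = gᵢ`, `deg gᵢ < D`.  With `H > totalDegree h` (`EV.exists_totalDegree_lt`),
`K = n H + n`, `J = ∑_{π : Fin n → Fin n} (∏_{j<n} ∏_{i<j} sign(π j - π i)) ∏_{i<n} pderiv (π i) (C A * X i^D - g i)`
(`det_eq_sum_fun`; `EV.sum_fun`, write everything with `l.getD i 0` for the list `l` of `π`; the index of
`pderiv` can be written `min (l.getD i 0) n` to be `PB`), put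
`T (a,j) = ∑_{α : Fin n → Fin (jH+1)} A^(K j - (|α| + n)) * coeff (l2f [(αᵢ+1) D - 1]) (h^j * J * ∏_{i<n} gᵢ^αᵢ)`.
Transfer to `Fin n` variables by `kl φ = killCompl Fin.val_injective ∘ map φ` (`kl_*` lemmas below,
`l2f_ofFn`, `MvPolynomial.coeff_killCompl`): `φ (T (a,j)) = φ(A)^(K j) rho (φ A)⁻¹ … = ∑ (φ(A)^K λᵢ)^j` by
`exists_eig_res` (`|α| + n ≤ K j` on the box for `j ≥ 1`).  Conclude with `exists_newton` (`Δ = D^n`, `L = ℂ`).
-/

set_option autoImplicit false

open Polynomial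

noncomputable section

namespace Crest.Agent.R316

open Crest.Agent.Lib.PolyTime
variable {α R S : Type} [Enc α] [CommRing R] [PR R] [CommRing S] [PR S]


/-- one term of the Jacobian determinant -/
def elimJt {R : Type} [CommRing R] (n D : ℕ) (A : R) (g : ℕ → MvPolynomial ℕ R) (l : List ℕ) :
    MvPolynomial ℕ R :=
  (∏ j ∈ Finset.range n, ∏ i ∈ Finset.range j,
    ((Int.sign ((l.getD j 0 : ℤ) - (l.getD i 0 : ℤ)) : ℤ) : MvPolynomial ℕ R)) *
  ∏ i ∈ Finset.range n,
    MvPolynomial.pderiv (min (l.getD i 0) n) (MvPolynomial.C A * MvPolynomial.X i ^ D - g i)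

/-- the Jacobian determinant -/
def elimJ {R : Type} [CommRing R] (n D : ℕ) (A : R) (g : ℕ → MvPolynomial ℕ R) :
    MvPolynomial ℕ R :=
  ∑ κ : Fin n → Fin n, elimJt n D A g (List.ofFn fun i => (κ i : ℕ))

/-- one term of the residue, denominators cleared -/
def elimTt {R : Type} [CommRing R] (n D M : ℕ) (A : R) (g : ℕ → MvPolynomial ℕ R)
    (w : MvPolynomial ℕ R) (l : List ℕ) : R :=
  A ^ (M - (l.sum + n)) * (w * ∏ i ∈ Finset.range n, g i ^ l.getD i 0).coeff
    (l2f (l.map fun x => (x + 1) * D - 1))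

/-- the residue, denominators cleared -/
def elimT {R : Type} [CommRing R] (n D M N : ℕ) (A : R) (g : ℕ → MvPolynomial ℕ R)
    (w : MvPolynomial ℕ R) : R :=
  ∑ κ : Fin n → Fin N, elimTt n D M A g w (List.ofFn fun i => (κ i : ℕ))

theorem elim_EV_J {n D : α → ℕ} {A : α → R} {g : α × ℕ → MvPolynomial ℕ R}
    (hn : CF n) (hn' : PB n) (hD : CF D) (hA : EV A) (hg : EV g) :
    EV fun a => elimJ (n a) (D a) (A a) (fun i => g (a, i)) := by
  refine EV.sum_fun (F := fun a l => elimJt (n a) (D a) (A a) (fun i => g (a, i)) l) hn hn' hn ?_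
  unfold elimJt
  refine EV.mul ?_ ?_
  · refine EV.prod_range (by fun_prop) ?_
    refine EV.prod_range (by fun_prop) ?_
    refine EV.intCast ?_
    exact CF.of_PT (by fun_prop)
  · refine EV.prod_range (by fun_prop) ?_
    refine EV.pderiv ?_ ?_ ?_
    · have h1 : EV fun x : (α × List ℕ) × ℕ => g (x.1.1, x.2) := hg.comp (by fun_prop)
      have h2 : EV fun x : (α × List ℕ) × ℕ => A x.1.1 := hA.comp (by fun_prop)
      have h3 : CF fun x : (α × List ℕ) × ℕ => D x.1.1 := hD.comp (by fun_prop)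
      exact (h2.mvC.mul ((EV.mvX (by fun_prop)).pow h3)).sub h1
    · have h3 : CF fun x : (α × List ℕ) × ℕ => n x.1.1 := hn.comp (by fun_prop)
      have h4 : CF fun x : (α × List ℕ) × ℕ => x.1.2.getD x.2 0 := CF.of_PT (by fun_prop)
      exact (CF.of_PT (f := fun y : ℕ × ℕ => min y.1 y.2) (by fun_prop)).comp (h4.prodMk h3)
    · exact PB.min_right (hn'.comp (f := fun x : (α × List ℕ) × ℕ => x.1.1) (by fun_prop))

theorem elim_EV_T {n D M N : α → ℕ} {A : α → R} {g : α × ℕ → MvPolynomial ℕ R}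
    {w : α → MvPolynomial ℕ R} (hn : CF n) (hn' : PB n) (hD : CF D) (hM : CF M) (hN : CF N)
    (hA : EV A) (hg : EV g) (hw : EV w) :
    EV fun a => elimT (n a) (D a) (M a) (N a) (A a) (fun i => g (a, i)) (w a) := by
  refine EV.sum_fun (F := fun a l => elimTt (n a) (D a) (M a) (A a) (fun i => g (a, i)) (w a) l)
    hn hn' hN ?_
  unfold elimTt
  have h1 : CF fun x : α × List ℕ => n x.1 := hn.comp (by fun_prop)
  have h2 : CF fun x : α × List ℕ => M x.1 := hM.comp (by fun_prop)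
  have h3 : CF fun x : α × List ℕ => D x.1 := hD.comp (by fun_prop)
  refine EV.mul (EV.pow (hA.comp (by fun_prop)) ?_) (EV.mvCoeff (EV.mul (hw.comp (by fun_prop)) ?_) ?_)
  · exact (CF.of_PT (f := fun y : ℕ × ℕ × List ℕ => y.1 - (y.2.2.sum + y.2.1)) (by fun_prop)).comp
      (h2.prodMk (h1.prodMk (CF.of_PT PT.snd')))
  · refine EV.prod_range h1 ?_
    have h4 : EV fun x : (α × List ℕ) × ℕ => g (x.1.1, x.2) := hg.comp (by fun_prop)
    exact h4.pow (CF.of_PT (by fun_prop))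
  · exact (CF.of_PT (f := fun y : ℕ × List ℕ => y.2.map fun x => (x + 1) * y.1 - 1)
      (by fun_prop)).comp (h3.prodMk (CF.of_PT PT.snd'))

theorem elim_getD {n N : ℕ} (κ : Fin n → Fin N) (i : Fin n) :
    (List.ofFn fun i => (κ i : ℕ)).getD i 0 = κ i := by
  simp

theorem elim_kl_J {A K : Type} [CommRing A] [CommRing K] (φ : A →+* K) (n D : ℕ) (a : A)
    (g : ℕ → MvPolynomial ℕ A) :
    kl φ n (elimJ n D a g) = jac (φ a) D (fun i : Fin n => kl φ n (g i)) := by
  rw [jac, det_eq_sum_fun, elimJ, map_sum]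
  refine Finset.sum_congr rfl fun κ _ => ?_
  rw [elimJt, map_mul, map_prod, map_prod, Finset.prod_range, Finset.prod_range]
  congr 1
  · refine Finset.prod_congr rfl fun j _ => ?_
    rw [map_prod]
    refine (Finset.prod_bij (fun (i : Fin n) _ => (i : ℕ)) ?_ ?_ ?_ ?_).symm
    · intro i hi
      simpa using hi
    · intro i _ i' _ h
      exact Fin.ext h
    · intro i hi
      have hi' : i < (j : ℕ) := Finset.mem_range.1 hi
      exact ⟨⟨i, hi'.trans j.2⟩, by simpa [Fin.lt_def] using hi', rfl⟩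
    · intro i _
      rw [elim_getD, elim_getD, map_intCast]
  · refine Finset.prod_congr rfl fun i _ => ?_
    rw [elim_getD, min_eq_left (κ i).2.le, kl_pderiv, map_sub, map_mul, map_pow, kl_C, kl_X]
    rfl

theorem elim_phi_T {A : Type} [CommRing A] (φ : A →+* ℂ) {n D M N : ℕ} {a : A} (ha : φ a ≠ 0)
    (g : ℕ → MvPolynomial ℕ A) (w : MvPolynomial ℕ A) (hM : n * (N - 1) + n ≤ M) :
    φ (elimT n D M N a g w) =
      φ a ^ M * rho (φ a)⁻¹ D (fun i : Fin n => kl φ n (g i)) N (kl φ n w) := by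
  rw [elimT, rho, map_sum, Finset.mul_sum]
  refine Finset.sum_congr rfl fun κ _ => ?_
  have h1 : ∑ i, (κ i : ℕ) ≤ n * (N - 1) := by
    have := Finset.sum_le_card_nsmul Finset.univ (fun i => (κ i : ℕ)) (N - 1)
      fun i _ => Nat.le_sub_one_of_lt (κ i).2
    simpa using this
  have h2 : kl φ n (w * ∏ i ∈ Finset.range n, g i ^ (List.ofFn fun i => (κ i : ℕ)).getD i 0) =
      kl φ n w * ∏ i : Fin n, kl φ n (g i) ^ (κ i : ℕ) := by
    rw [map_mul, map_prod, Finset.prod_range]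
    congr 1
    refine Finset.prod_congr rfl fun i _ => ?_
    rw [elim_getD, map_pow]
  rw [elimTt, rterm, map_mul, map_pow, List.sum_ofFn, List.map_ofFn, ← coeff_kl, h2, ← mul_assoc,
    pow_sub₀ _ ha (by omega), inv_pow]
  rfl

theorem exists_elim {n D : α → ℕ} {A : α → R} {g : α × ℕ → MvPolynomial ℕ R}
    {h : α → MvPolynomial ℕ R} (hn : CF n) (hn' : PB n) (hD : CF D) (hD1 : ∀ a, 1 ≤ D a) (hA : EV A)
    (hg : EV g) (hh : EV h) (hdeg : ∀ a, ∀ i < n a, (g (a, i)).totalDegree < D a) :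
    ∃ N : α → R, EV N ∧ ∀ a (φ : R →+* ℂ), φ (A a) ≠ 0 → (φ (N a) = 0 ↔
      ∃ ξ : Fin (n a) → ℂ, (∀ i : Fin (n a), φ (A a) * ξ i ^ D a = evl φ ξ (g (a, i))) ∧
        evl φ ξ (h a) = 0) := by
  obtain ⟨H, hH, hH'⟩ := hh.exists_totalDegree_lt
  have hJ := elim_EV_J hn hn' hD hA hg
  have hn1 : CF fun x : α × ℕ => n x.1 := hn.comp (by fun_prop)
  have hH1 : CF fun x : α × ℕ => H x.1 := hH.comp (by fun_prop)
  have hT : EV fun x : α × ℕ => elimT (n x.1) (D x.1) ((n x.1 * H x.1 + n x.1) * x.2)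
      (x.2 * H x.1 + 1) (A x.1) (fun i => g (x.1, i))
      (h x.1 ^ x.2 * elimJ (n x.1) (D x.1) (A x.1) fun i => g (x.1, i)) :=
    elim_EV_T (g := fun y : (α × ℕ) × ℕ => g (y.1.1, y.2)) hn1
      (hn'.comp (f := fun x : α × ℕ => x.1) (by fun_prop)) (hD.comp (by fun_prop))
      ((CF.of_PT (f := fun y : ℕ × ℕ × ℕ => (y.1 * y.2.1 + y.1) * y.2.2) (by fun_prop)).comp
        (hn1.prodMk (hH1.prodMk (CF.of_PT PT.snd'))))
      ((CF.of_PT (f := fun y : ℕ × ℕ => y.2 * y.1 + 1) (by fun_prop)).comp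
        (hH1.prodMk (CF.of_PT PT.snd')))
      (hA.comp (by fun_prop)) (hg.comp (by fun_prop))
      (((hh.comp (by fun_prop)).pow (CF.of_PT PT.snd')).mul (hJ.comp (by fun_prop)))
  obtain ⟨N, c, hN, hc, hNc⟩ := exists_newton hT (CF.nat_pow hD hn hn')
  refine ⟨N, hN, fun a φ ha => ?_⟩
  obtain ⟨lam, h1, h2⟩ := exists_eig_res (g := fun i : Fin (n a) => kl φ (n a) (g (a, i))) ha
    (hD1 a) (fun i => (totalDegree_kl_le φ _).trans_lt (hdeg a i i.2)) (kl φ (n a) (h a))
  have h3 := hNc a ℂ φ (Fin (D a ^ n a)) (fun i => φ (A a) ^ (n a * H a + n a) * lam i)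
    (by simp) fun j hj _ => by
      have h4 : j * (kl φ (n a) (h a)).totalDegree < j * H a + 1 :=
        Nat.lt_succ_of_le (Nat.mul_le_mul_left _ ((totalDegree_kl_le φ _).trans (hH' a).le))
      have h5 : n a * (j * H a + 1 - 1) + n a ≤ (n a * H a + n a) * j := by
        rw [Nat.add_sub_cancel]
        nlinarith [Nat.mul_le_mul_left (n a) hj]
      simp only
      rw [elim_phi_T φ ha _ _ h5, map_mul, map_pow, elim_kl_J, h1 j _ h4, Finset.mul_sum]
      refine Finset.sum_congr rfl fun i _ => ?_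
      rw [mul_pow, pow_mul]
  simp only [eval_kl] at h2
  rw [h3, ← h2, mul_eq_zero, Finset.prod_eq_zero_iff]
  simp [hc a, ha]

end Crest.Agent.R316
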