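import Crest.Agent.R316.Coeff

/-!
# Row 316 (S0488): EvalRat
Evaluation at rational points, names of real roots, sign determination.
`exists_eval_rat`: `Bt = ∏_{i<m} B i`, `A' i = A i * ∏_{j<m} (if j = i then 1 else B j)`, `K > totalDegree q`,
`w = eval₂Hom (Int.castRingHom _) (fun i => if i < m then C (A' i) * X else 0) q ∈ ℤ[s]` (degree `< K`),
`U = ∑_{k<K} Bt^(K-k) coeff k w`, `V = Bt^K`; `U/V = w(1/Bt)`.
`exists_names`: `Λ` from `exists_sep`, `L₁ = L + Λ + 2`, `τ = 2^(-L₁ (Λ+1))`, `L₂ = L₁ (Λ+1) + Λ + (Λ+2) Λ`,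
`exists_approx` at precision `L₂`; `V c := 0 < B ∧ |ψ(A/B)| ≤ τ` (`exists_eval_rat` with `m = 1` for
`eval₂RingHom (Int.castRingHom _) (X 0) ψ`, `EV.lt`).  If valid, `|lc| ∏ ‖x - ρ i‖ ≤ τ < 1` forces `D ≥ 1` and some
`‖x - ρ i‖ ≤ 2^(-L₁)` (otherwise the product is `> 2^(-L₁ D) ≥ τ`); `conj (ρ i)` is a root at distance
`≤ 2^(1-L₁) < 2^(-Λ)`, so `ρ i` is real.  Conversely `|ψ(x)| ≤ 2^Λ 2^(-L₂) (2^(Λ+2))^(D-1) ≤ τ`.
`exists_precision`: `G₀` from `exists_gap`, `G = G₀ + 1`, `Λ` bounds the roots, `nrm q` and `totalDegree q`;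
`L = G₀ + 2 + Λ + (Λ+1) Λ`; `abs_ivl_sub_le` with `B = 2^(Λ+1)` gives `|q x - q ξ| ≤ 2^(-G₀-2)`.
-/

set_option autoImplicit false

open Polynomial

noncomputable section

namespace Crest.Agent.R316

open Crest.Agent.Lib.PolyTime
variable {α R S : Type} [Enc α] [CommRing R] [PR R] [CommRing S] [PR S]


theorem exists_eval_rat {q : α → MvPolynomial ℕ ℤ} {m : α → ℕ} {A B : α × ℕ → ℤ} (hq : EV q)
    (hm : CF m) (hm' : PB m) (hA : EV A) (hB : EV B) : ∃ U V : α → ℤ, EV U ∧ EV V ∧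
      ∀ a, (∀ i < m a, 0 < B (a, i)) → 0 < V a ∧
        (U a : ℝ) / V a = ivl (fun i : Fin (m a) => (A (a, i) : ℝ) / B (a, i)) (q a) := by
  have hBt : EV fun a => ∏ i ∈ Finset.range (m a), B (a, i) :=
    EV.prod_range (F := fun a i => B (a, i)) hm hB
  have hP : EV fun x : α × ℕ => ∏ j ∈ Finset.range (m x.1), if j = x.2 then 1 else B (x.1, j) :=
    EV.prod_range (F := fun (x : α × ℕ) j => if j = x.2 then 1 else B (x.1, j))
      (hm.comp (f := fun x : α × ℕ => x.1) (by fun_prop))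
      (EV.ite (c := fun y : (α × ℕ) × ℕ => y.2 = y.1.2) (CF.of_PT (by fun_prop)) (EV.const 1)
        (hB.comp (f := fun y : (α × ℕ) × ℕ => (y.1.1, y.2)) (by fun_prop)))
  have hw : EV fun a => MvPolynomial.eval₂Hom (Int.castRingHom ℤ[X]) (fun i => if i < m a then
      C (A (a, i) * ∏ j ∈ Finset.range (m a), if j = i then 1 else B (a, j)) * X else 0) (q a) :=
    EV.hom (EH.mvEval₂ (g := fun a i =>
      C (A (a, i) * ∏ j ∈ Finset.range (m a), if j = i then 1 else B (a, j)) * X)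
      EH.intCast hm hm' ((hA.mul hP).C.mul EV.X)) hq
  obtain ⟨K, hK, hK'⟩ := hw.exists_natDegree_lt
  set w : α → ℤ[X] := fun a => MvPolynomial.eval₂Hom (Int.castRingHom ℤ[X]) (fun i => if i < m a then
      C (A (a, i) * ∏ j ∈ Finset.range (m a), if j = i then 1 else B (a, j)) * X else 0) (q a)
    with hwdef
  refine ⟨fun a => ∑ k ∈ Finset.range (K a),
      (∏ i ∈ Finset.range (m a), B (a, i)) ^ (K a - k) * (w a).coeff k,
    fun a => (∏ i ∈ Finset.range (m a), B (a, i)) ^ K a,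
    EV.sum_range (F := fun a k => (∏ i ∈ Finset.range (m a), B (a, i)) ^ (K a - k) * (w a).coeff k)
      hK (((hBt.comp (f := fun x : α × ℕ => x.1) (by fun_prop)).pow
        (n := fun x : α × ℕ => K x.1 - x.2) (by fun_prop)).mul
        ((hw.comp (f := fun x : α × ℕ => x.1) (by fun_prop)).coeff
          (k := fun x : α × ℕ => x.2) (by fun_prop))),
    hBt.pow hK, fun a hpos => ?_⟩
  have hb : 0 < ∏ i ∈ Finset.range (m a), B (a, i) :=
    Finset.prod_pos fun i hi => hpos i (Finset.mem_range.1 hi)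
  refine ⟨pow_pos hb _, ?_⟩
  set b : ℤ := ∏ i ∈ Finset.range (m a), B (a, i) with hbdef
  have hb' : (b : ℝ) ≠ 0 := by exact_mod_cast hb.ne'
  have e1 : zev (b : ℝ)⁻¹ (w a) = ivl (fun i : Fin (m a) => (A (a, i) : ℝ) / B (a, i)) (q a) := by
    simp only [hwdef]
    rw [MvPolynomial.map_eval₂Hom]
    unfold ivl evl
    congr 2
    · exact RingHom.ext_int _ _
    · funext i
      split_ifs with hi
      · rw [ext0_of_lt _ hi]
        have hBi : (B (a, i) : ℝ) ≠ 0 := by exact_mod_cast (hpos i hi).ne'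
        have e2 : (∏ j ∈ Finset.range (m a), if j = i then 1 else B (a, j)) * B (a, i) = b := by
          rw [hbdef, ← Finset.mul_prod_erase _ _ (Finset.mem_range.2 hi),
            ← Finset.mul_prod_erase _ (fun j => B (a, j)) (Finset.mem_range.2 hi), if_pos rfl,
            one_mul, mul_comm]
          congr 1
          exact Finset.prod_congr rfl fun j hj => if_neg (Finset.ne_of_mem_erase hj)
        have e3 := congrArg (Int.cast : ℤ → ℝ) e2
        rw [Int.cast_mul] at e3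
        rw [zev, coe_eval₂RingHom, eval₂_mul_X, eval₂_C, eq_intCast, Int.cast_mul]
        rw [← e3] at hb' ⊢
        have h4 := left_ne_zero_of_mul hb'
        field_simp
      · rw [ext0_of_le _ (not_lt.1 hi), map_zero]
  have hK'' : (w a).natDegree < K a := hK' a
  rw [← e1, zev, coe_eval₂RingHom, eval₂_eq_sum_range' _ hK'']
  change (((∑ k ∈ Finset.range (K a), b ^ (K a - k) * (w a).coeff k : ℤ) : ℝ)) / ((b ^ K a : ℤ) : ℝ) = _
  clear_value b w
  push_cast
  rw [Finset.sum_div]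
  refine Finset.sum_congr rfl fun k hk => ?_
  obtain ⟨d, hd⟩ := Nat.exists_eq_add_of_le (Finset.mem_range.1 hk).le
  rw [hd, Nat.add_sub_cancel_left, eq_intCast, pow_add, inv_pow]
  field_simp

end Crest.Agent.R316
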