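import Crest.Agent.R316.Norm

/-!
# Row 316 (S0488): Gap
Products and sums over (tuples of) roots of an integer polynomial.
`exists_norm`: `K > totalDegree h`, `lc = leadingCoeff ψ`, `λ_κ = lc^K h(ρ ∘ κ)`,
`T (a,j) = ∑_{e : Fin n → Fin (K j + 1)} coeff (l2f e) (h^j) * lc^(K j - |e|) * ∏_{i<n} P (a, eᵢ)` (`exists_psum`,
`EV.mvCoeff`, `EV.sum_fun`, integers are cast by `EV.hom EH.intCast`); the coefficient vanishes when
`|e| > K j`; expand `evl φ ξ (h^j)` over the box (`evl_eq_sum_box`) and use `Finset.prod_univ_sum`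
(`∑_κ ∏ᵢ x(κ i)^eᵢ = ∏ᵢ ∑_l x(l)^eᵢ`); then `exists_newton` with `Δ = natDegree ψ ^ n`; `c = c' * lc^(K Δ)`.
`exists_sum_roots`: `exists_norm` with `n = 1` over the ring `R[s]` for `B(X₀) + s A(X₀)`, `L = ℂ[X]`,
`φ' = mapRingHom φ`; `B'`, `A'` are the coefficients `0`, `1` of the norm.
`exists_gap`: `exists_norm` over `ℤ[U]` for `U - q`, the norm `N` is nonzero (`L = ℂ[X]`), every value `q(ξ)` is a
root; `le_norm_root`, `EV.exists_nrm`.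
-/

set_option autoImplicit false

open Polynomial

noncomputable section

namespace Crest.Agent.R316

open Crest.Agent.Lib.PolyTime
variable {α R S : Type} [Enc α] [CommRing R] [PR R] [CommRing S] [PR S]


theorem gap_coeff {ι : Type} (s : Finset ι) (a b : ι → ℂ) (hb : ∀ i ∈ s, b i ≠ 0) :
    (∏ i ∈ s, (C (b i) + X * C (a i))).coeff 0 = ∏ i ∈ s, b i ∧
      (∏ i ∈ s, (C (b i) + X * C (a i))).coeff 1 = (∏ i ∈ s, b i) * ∑ i ∈ s, a i / b i := by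
  classical
  induction s using Finset.induction_on with
  | empty => simp [coeff_one]
  | insert i s hi ih =>
    obtain ⟨h1, h2⟩ := ih fun j hj => hb j (Finset.mem_insert_of_mem hj)
    have h3 := hb i (Finset.mem_insert_self i s)
    rw [Finset.prod_insert hi, Finset.prod_insert hi, Finset.sum_insert hi, add_mul, mul_assoc,
      coeff_add, coeff_add, coeff_C_mul, coeff_C_mul, coeff_X_mul_zero, coeff_X_mul, coeff_C_mul,
      h1, h2]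
    refine ⟨add_zero _, ?_⟩
    field_simp
    ring

omit [PR R] in
theorem gap_evl_theta (φ : R →+* ℂ) (z : Fin 1 → ℂ) (f : R[X]) :
    evl (mapRingHom φ) (fun i => algebraMap ℂ ℂ[X] (z i)) (Polynomial.eval₂RingHom
      ((MvPolynomial.C : R[X] →+* MvPolynomial ℕ R[X]).comp (C : R →+* R[X]))
      (MvPolynomial.X 0) f) = C (f.eval₂ φ (z 0)) := by
  rw [coe_eval₂RingHom, hom_eval₂, hom_eval₂, evl_X]
  congr 1
  ext c : 1
  simp

theorem gap_succ_le {N Λ : ℕ} (h : N ≤ 2 ^ Λ) : (N : ℝ) + 1 ≤ 2 ^ (Λ + 1) := by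
  have h1 : 1 ≤ 2 ^ Λ := Nat.one_le_two_pow
  exact_mod_cast (by rw [pow_succ]; omega : N + 1 ≤ 2 ^ (Λ + 1))

theorem exists_sum_roots {ψ : α → ℤ[X]} {A B : α → R[X]} (hψ : EV ψ) (h0 : ∀ a, ψ a ≠ 0)
    (hA : EV A) (hB : EV B) : ∃ A' B' : α → R, EV A' ∧ EV B' ∧
      ∀ a (D : ℕ) (ρ : Fin D → ℂ), Enum (ψ a) ρ → ∀ φ : R →+* ℂ,
        (∀ i, (B a).eval₂ φ (ρ i) ≠ 0) → φ (B' a) ≠ 0 ∧
          φ (A' a) / φ (B' a) = ∑ i, (A a).eval₂ φ (ρ i) / (B a).eval₂ φ (ρ i) := by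
  have hθ : EH fun _ : α => Polynomial.eval₂RingHom
      ((MvPolynomial.C : R[X] →+* MvPolynomial ℕ R[X]).comp (C : R →+* R[X]))
      (MvPolynomial.X 0) := EH.eval₂ (EH.mvC.comp EH.C) (EV.const _)
  obtain ⟨N, c, hN, hc, h⟩ := exists_norm (n := fun _ => 1) hψ h0 (CF.const 1) (PB.const 1)
    ((EV.hom hθ hB).add ((EV.const (MvPolynomial.C X)).mul (EV.hom hθ hA)))
  refine ⟨fun a => (N a).coeff 1, fun a => (N a).coeff 0, hN.coeff (CF.const 1),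
    hN.coeff (CF.const 0), fun a D ρ hρ φ hb => ?_⟩
  have h1 := h a D ρ hρ ℂ[X] (mapRingHom φ)
  have h2 : (N a).map φ = c a * ∏ i, (C ((B a).eval₂ φ (ρ i)) + X * C ((A a).eval₂ φ (ρ i))) := by
    refine h1.trans ?_
    congr 1
    refine Fintype.prod_equiv (Equiv.funUnique (Fin 1) (Fin D)) _ _ fun κ => ?_
    rw [map_add, map_mul, gap_evl_theta, gap_evl_theta, evl_C, coe_mapRingHom, map_X]
    rfl
  obtain ⟨h3, h4⟩ := gap_coeff Finset.univ (fun i => (A a).eval₂ φ (ρ i))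
    (fun i => (B a).eval₂ φ (ρ i)) fun i _ => hb i
  have h5 : (c a : ℂ) * ∏ i, (B a).eval₂ φ (ρ i) ≠ 0 :=
    mul_ne_zero (Int.cast_ne_zero.2 (hc a)) (Finset.prod_ne_zero_iff.2 fun i _ => hb i)
  rw [← coeff_map, ← coeff_map, h2, coeff_intCast_mul, coeff_intCast_mul, h3, h4, ← mul_assoc]
  exact ⟨h5, mul_div_cancel_left₀ _ h5⟩

theorem exists_gap {ψ : α → ℤ[X]} {n : α → ℕ} {q : α → MvPolynomial ℕ ℤ} (hψ : EV ψ)
    (h0 : ∀ a, ψ a ≠ 0) (hn : CF n) (hn' : PB n) (hq : EV q) :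
    ∃ G : α → ℕ, CF G ∧ ∀ a (ξ : Fin (n a) → ℂ), (∀ i, zev (ξ i) (ψ a) = 0) →
      ivl ξ (q a) ≠ 0 → ((2 : ℝ) ^ G a)⁻¹ ≤ ‖ivl ξ (q a)‖ := by
  obtain ⟨N, c, hN, hc, h⟩ := exists_norm hψ h0 hn hn'
    ((EV.const (MvPolynomial.C (X : ℤ[X]))).sub (EV.hom (EH.mvMap EH.C) hq))
  obtain ⟨Λ, hΛ, hΛ'⟩ := hN.exists_nrm
  refine ⟨fun a => Λ a + 1, by fun_prop, fun a ξ hξ hq0 => ?_⟩
  obtain ⟨ρ, hρ⟩ := exists_enum (h0 a)
  have hN0 : N a ≠ 0 := by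
    intro hN0
    have h1 := h a _ ρ hρ ℂ[X] (mapRingHom (Int.castRingHom ℂ))
    rw [hN0, map_zero] at h1
    refine mul_ne_zero (Int.cast_ne_zero.2 (hc a)) (Finset.prod_ne_zero_iff.2 fun κ _ => ?_) h1.symm
    rw [map_sub, evl_C, evl_map, coe_mapRingHom, map_X,
      RingHom.ext_int ((mapRingHom (Int.castRingHom ℂ)).comp C)
        ((C : ℂ →+* ℂ[X]).comp (Int.castRingHom ℂ))]
    have h2 := map_evl (Int.castRingHom ℂ) (C : ℂ →+* ℂ[X]) (fun i => ρ (κ i)) (q a)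
    exact h2 ▸ X_sub_C_ne_zero _
  choose κ hκ using fun i => (hρ.root_iff (h0 a) (ξ i)).1 (hξ i)
  have h1 := h a _ ρ hρ ℂ (zev (ivl ξ (q a)))
  rw [Finset.prod_eq_zero (Finset.mem_univ κ), mul_zero] at h1
  · refine le_trans (inv_anti₀ (by positivity) ?_) (le_norm_root hN0 h1 hq0)
    exact gap_succ_le (hΛ' a)
  · rw [map_sub, evl_C, evl_map, RingHom.ext_int ((zev (ivl ξ (q a))).comp C) (Int.castRingHom ℂ),
      show (fun i => algebraMap ℂ ℂ (ρ (κ i))) = ξ from funext hκ]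
    simp [zev]

/-- degree, size and separation of the roots -/
theorem exists_sep {ψ : α → ℤ[X]} (hψ : EV ψ) (h0 : ∀ a, ψ a ≠ 0) :
    ∃ Λ : α → ℕ, CF Λ ∧ ∀ a, nrm (ψ a) ≤ 2 ^ Λ a ∧ (ψ a).natDegree ≤ Λ a ∧
      (∀ z : ℂ, zev z (ψ a) = 0 → ‖z‖ ≤ 2 ^ Λ a) ∧
      ∀ z w : ℂ, zev z (ψ a) = 0 → zev w (ψ a) = 0 → z ≠ w → ((2 : ℝ) ^ Λ a)⁻¹ ≤ ‖z - w‖ := by
  obtain ⟨G, hG, h⟩ := exists_gap (n := fun _ => 2) hψ h0 (CF.const 2) (PB.const 2)
    (EV.const (MvPolynomial.X 0 - MvPolynomial.X 1))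
  obtain ⟨Λ, hΛ, hΛ'⟩ := hψ.exists_nrm
  refine ⟨fun a => Λ a + 1 + G a, by fun_prop, fun a => ?_⟩
  have h1 : nrm (ψ a) ≤ 2 ^ (Λ a + 1 + G a) :=
    (hΛ' a).trans (Nat.pow_le_pow_right (by norm_num) (by omega))
  refine ⟨h1, natDegree_le_of_nrm_le h1, fun z hz => ?_, fun z w hz hw hzw => ?_⟩
  · exact (norm_root_le (h0 a) hz).trans ((gap_succ_le (hΛ' a)).trans
      (pow_le_pow_right₀ (by norm_num) (Nat.le_add_right _ _)))
  · have h2 : ivl ![z, w] (MvPolynomial.X 0 - MvPolynomial.X 1) = z - w := by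
      rw [map_sub, evl_X, evl_X]
      rfl
    have h3 := h a ![z, w] (Fin.forall_fin_two.2 ⟨hz, hw⟩) (by rw [h2]; exact sub_ne_zero.2 hzw)
    rw [h2] at h3
    exact (inv_anti₀ (by positivity) (pow_le_pow_right₀ (by norm_num) (Nat.le_add_left _ _))).trans
      h3

end Crest.Agent.R316
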