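import Crest.Agent.R316.CircuitEV
import Crest.Agent.R316.Decide

/-!
# Row 316 (S0488): Main
-/

set_option autoImplicit false

namespace Crest.Agent.R316

open Crest.Agent.Lib.PolyTime Crest.RealEA

theorem eatr_mem_level : ∃ j : ℕ, EATR ∈ Crest.CountHier.level j := by
  have h1 : CF fun d : Data => ∃ x : Fin (nvar d) → ℝ, ∀ y : Fin (nvar d) → ℝ,
      bform d (sgl (cpoly d) x y) :=
    decide_EA (p := fun x : Data × ℕ => cpoly x.1 x.2) (B := fun x => bform x.1 x.2)
      (CF.of_PT nvar_pt) nvar_pb cpoly_ev (CF.of_PT bform_pt)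
  have h2 := CF.of_PT print_pt
  have h3 := CF.of_PT valid_pt
  have h4 : CF fun w : List Bool => ∃ d : Data, valid d ∧ print d = w ∧
      ∃ x : Fin (nvar d) → ℝ, ∀ y : Fin (nvar d) → ℝ, bform d (sgl (cpoly d) x y) :=
    CF.exists_dec (s := fun w => 20 * w.length + 20) (by fun_prop)
      ((h3.comp (by fun_prop)).and (CF.and (by fun_prop) (h1.comp (by fun_prop))))
      fun w d h => h.2.1 ▸ esize_le_of_valid h.1
  obtain ⟨j, hj⟩ := h4.mem_level
  refine ⟨j, ?_⟩
  convert hj using 1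
  ext w
  constructor
  · rintro ⟨S, h1, h2, rfl⟩
    exact ⟨dataOf S, valid_dataOf h1, print_dataOf S, (isTrue_iff h1).1 h2⟩
  · rintro ⟨d, h1, rfl, h2⟩
    obtain ⟨S, h3, rfl⟩ := exists_of_valid h1
    exact ⟨S, h3, (isTrue_iff h3).2 h2, (print_dataOf S).symm⟩

end Crest.Agent.R316
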