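import Crest.Agent.R316.Root
import Crest.Agent.R316.EvalRat

/-!
# Row 316 (S0488): Names
Evaluation at rational points, names of real roots, sign determination.
`exists_eval_rat`: `Bt = ∏_{i<m} B i`, `A' i = A i * ∏_{j<m} (if j = i then 1 else B j)`, `K > totalDegree q`,
`w = eval₂Hom (Int.castRingHom _) (fun i => if i < m then C (A' i) * X else 0) q ∈ ℤ[s]` (degree `< K`),
`U = ∑_{k<K} Bt^(K-k) coeff k w`, `V = Bt^K`; `U/V = w(1/Bt)`.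
`exists_names`: `Λ` from `exists_sep`, `L₁ = L + Λ + 2`, `τ = 2^(-L₁ (Λ+1))`, `L₂ = L₁ (Λ+1) + Λ + (Λ+2) Λ`,
`exists_approx` at precision `L₂`; `V c := 0 < B ∧ |ψ(A/B)| ≤ τ` (`exists_eval_rat` with `m = 1` for
`eval₂RingHom (Int.castRingHom _) (X 0) ψ`, `EV.lt`).  If valid, `|lc| ∏ ‖x - ρ i‖ ≤ τ < 1` forces `D ≥ 1` and some
`‖x - ρ i‖ ≤ 2^(-L₁)` (otherwise the product is `> 2^(-L₁ D) ≥ τ`); `conj (ρ i)` is a root at distance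
`≤ 2^(1-L₁) < 2^(-Λ)`, so `ρ i` is real.  Conversely `|ψ(x)| ≤ 2^Λ 2^(-L₂) (2^(Λ+2))^(D-1) ≤ τ`.
`exists_precision`: `G₀` from `exists_gap`, `G = G₀ + 1`, `Λ` bounds the roots, `nrm q` and `totalDegree q`;
`L = G₀ + 2 + Λ + (Λ+1) Λ`; `abs_ivl_sub_le` with `B = 2^(Λ+1)` gives `|q x - q ξ| ≤ 2^(-G₀-2)`.
-/

set_option autoImplicit false

open Polynomial

noncomputable section

namespace Crest.Agent.R316

open Crest.Agent.Lib.PolyTime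
variable {α R S : Type} [Enc α] [CommRing R] [PR R] [CommRing S] [PR S]


theorem names_sound {ψ : ℤ[X]} (h0 : ψ ≠ 0) {Λ : ℕ} (hD : ψ.natDegree ≤ Λ)
    (hsep : ∀ z w : ℂ, zev z ψ = 0 → zev w ψ = 0 → z ≠ w → ((2 : ℝ) ^ Λ)⁻¹ ≤ ‖z - w‖)
    (L : ℕ) (x : ℝ) (hx : |zev x ψ| ≤ ((2 : ℝ) ^ ((L + Λ + 2) * (Λ + 1)))⁻¹) :
    ∃ ξ : ℝ, zev ξ ψ = 0 ∧ |x - ξ| ≤ ((2 : ℝ) ^ L)⁻¹ := by
  obtain ⟨ρ, hρ⟩ := exists_enum h0
  obtain ⟨ε, hε⟩ : ∃ ε : ℝ, ε = ((2 : ℝ) ^ (L + Λ + 2))⁻¹ := ⟨_, rfl⟩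
  have hε0 : 0 < ε := by rw [hε]; positivity
  have hε1 : ε < 1 := by
    rw [hε]
    exact inv_lt_one_of_one_lt₀ (one_lt_pow₀ one_lt_two (by omega))
  have hx' : ‖zev (x : ℂ) ψ‖ ≤ ε ^ (Λ + 1) := by
    rw [← ofReal_zev, Complex.norm_real, Real.norm_eq_abs, hε, inv_pow, ← pow_mul]
    exact hx
  have hlc : (1 : ℝ) ≤ ‖(ψ.leadingCoeff : ℂ)‖ := by
    rw [Complex.norm_intCast]
    exact_mod_cast Int.one_le_abs (leadingCoeff_ne_zero.2 h0)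
  obtain ⟨i, hi⟩ : ∃ i, ‖(x : ℂ) - ρ i‖ < ε := by
    by_contra hno
    push Not at hno
    rw [hρ.zev_eq, norm_mul, norm_prod] at hx'
    have h1 : ε ^ ψ.natDegree ≤ ∏ i, ‖(x : ℂ) - ρ i‖ := by
      have := Finset.prod_le_prod (s := Finset.univ) (f := fun _ : Fin ψ.natDegree => ε)
        (g := fun i => ‖(x : ℂ) - ρ i‖) (fun _ _ => hε0.le) fun i _ => hno i
      rwa [Finset.prod_const, Finset.card_univ, Fintype.card_fin] at this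
    have h2 : ε ^ (Λ + 1) < ε ^ ψ.natDegree := pow_lt_pow_right_of_lt_one₀ hε0 hε1 (by omega)
    have h3 := le_mul_of_one_le_left (Finset.prod_nonneg (s := Finset.univ)
      fun (i : Fin ψ.natDegree) _ => norm_nonneg ((x : ℂ) - ρ i)) hlc
    linarith
  have hr : zev (ρ i) ψ = 0 := (hρ.root_iff h0 _).2 ⟨i, rfl⟩
  have hc : zev ((starRingEnd ℂ) (ρ i)) ψ = 0 := by rw [← map_zev, hr, map_zero]
  have hre : (starRingEnd ℂ) (ρ i) = ρ i := by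
    by_contra hne
    have h1 := hsep _ _ hc hr hne
    have h2 : ‖(starRingEnd ℂ) (ρ i) - x‖ < ε := by
      rw [← Complex.conj_ofReal x, ← map_sub, Complex.norm_conj, norm_sub_rev]
      exact hi
    have h3 := norm_sub_le_norm_sub_add_norm_sub ((starRingEnd ℂ) (ρ i)) (x : ℂ) (ρ i)
    have h4 : 4 * ε ≤ ((2 : ℝ) ^ Λ)⁻¹ := by
      rw [hε, show L + Λ + 2 = Λ + (L + 2) by ring, pow_add, mul_inv, mul_left_comm]
      refine mul_le_of_le_one_right (by positivity) ?_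
      rw [← div_eq_mul_inv, div_le_one (by positivity), pow_add]
      have := one_le_pow₀ (one_le_two (α := ℝ)) (n := L)
      linarith
    linarith
  obtain ⟨ξ, hξ⟩ := Complex.conj_eq_iff_real.1 hre
  refine ⟨ξ, ?_, ?_⟩
  · rw [hξ, ← ofReal_zev] at hr
    exact_mod_cast hr
  · rw [hξ, ← Complex.ofReal_sub, Complex.norm_real, Real.norm_eq_abs] at hi
    refine hi.le.trans ?_
    rw [hε]
    exact inv_anti₀ (by positivity) (pow_le_pow_right₀ one_le_two (by omega))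

theorem names_complete {ψ : ℤ[X]} (h0 : ψ ≠ 0) {Λ : ℕ} (hN : nrm ψ ≤ 2 ^ Λ) (hD : ψ.natDegree ≤ Λ)
    (hR : ∀ z : ℂ, zev z ψ = 0 → ‖z‖ ≤ 2 ^ Λ) (e : ℕ) (x ξ : ℝ) (hξ : zev ξ ψ = 0)
    (hx : |x - ξ| ≤ ((2 : ℝ) ^ (e + Λ + (Λ + 2) * Λ))⁻¹) : |zev x ψ| ≤ ((2 : ℝ) ^ e)⁻¹ := by
  obtain ⟨ρ, hρ⟩ := exists_enum h0
  have hξ' : zev (ξ : ℂ) ψ = 0 := by rw [← ofReal_zev, hξ, Complex.ofReal_zero]
  obtain ⟨i, hi⟩ := (hρ.root_iff h0 _).1 hξ'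
  have hx' : ‖(x : ℂ) - ξ‖ ≤ ((2 : ℝ) ^ (e + Λ + (Λ + 2) * Λ))⁻¹ := by
    rwa [← Complex.ofReal_sub, Complex.norm_real, Real.norm_eq_abs]
  have h1 : (1 : ℝ) ≤ 2 ^ Λ := one_le_pow₀ one_le_two
  have h2 : ∀ j, ‖(x : ℂ) - ρ j‖ ≤ 2 ^ (Λ + 2) := fun j => by
    have a1 := norm_sub_le_norm_sub_add_norm_sub (x : ℂ) ξ (ρ j)
    have a2 := norm_sub_le (ξ : ℂ) (ρ j)
    have a3 := hR _ hξ'
    have a4 := hR _ ((hρ.root_iff h0 _).2 ⟨j, rfl⟩)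
    have a5 := hx'.trans (inv_le_one_of_one_le₀ (one_le_pow₀ one_le_two))
    rw [pow_add]
    linarith
  have h3 : ‖(ψ.leadingCoeff : ℂ)‖ ≤ 2 ^ Λ := by
    rw [Complex.norm_intCast]
    have := (abs_coeff_le_nrm ψ ψ.natDegree).trans (Int.ofNat_le.2 hN)
    exact_mod_cast this
  have h4 : ∏ j ∈ Finset.univ.erase i, ‖(x : ℂ) - ρ j‖ ≤ (2 ^ (Λ + 2)) ^ Λ := by
    refine (Finset.prod_le_prod (fun _ _ => norm_nonneg _) fun j _ => h2 j).trans ?_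
    rw [Finset.prod_const]
    refine pow_le_pow_right₀ (one_le_pow₀ one_le_two) (Finset.card_erase_le.trans ?_)
    rwa [Finset.card_univ, Fintype.card_fin]
  rw [← Real.norm_eq_abs, ← Complex.norm_real, ofReal_zev, hρ.zev_eq, norm_mul, norm_prod,
    ← Finset.mul_prod_erase _ _ (Finset.mem_univ i)]
  have h5 : ‖(x : ℂ) - ρ i‖ ≤ ((2 : ℝ) ^ (e + Λ + (Λ + 2) * Λ))⁻¹ := by
    simpa only [hi] using hx'
  refine (mul_le_mul h3 (mul_le_mul h5 h4 (Finset.prod_nonneg fun _ _ => norm_nonneg _)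
    (by positivity)) (by positivity) (by positivity)).trans (le_of_eq ?_)
  rw [← pow_mul, pow_add, pow_add]
  field_simp

theorem names_ivl (x : ℝ) (ψ : ℤ[X]) :
    ivl (fun _ : Fin 1 => x) (Polynomial.eval₂RingHom (Int.castRingHom (MvPolynomial ℕ ℤ))
      (MvPolynomial.X 0) ψ) = zev x ψ := by
  have := map_zev (ivl (fun _ : Fin 1 => x)) (MvPolynomial.X 0) ψ
  rw [evl_X, ext0_of_lt _ one_pos] at this
  exact this

theorem names_test {U V : ℤ} (hV : 0 < V) (e : ℕ) :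
    (¬ V < U * 2 ^ e ∧ ¬ V < -(U * 2 ^ e)) ↔ |(U : ℝ) / V| ≤ ((2 : ℝ) ^ e)⁻¹ := by
  have hV' : (0 : ℝ) < V := by exact_mod_cast hV
  rw [abs_div, abs_of_pos hV', ← one_div, div_le_div_iff₀ hV' (by positivity), one_mul,
    ← abs_of_pos (show (0 : ℝ) < 2 ^ e by positivity), ← abs_mul, abs_le', not_lt, not_lt]
  norm_cast

theorem exists_names {ψ : α → ℤ[X]} {L : α → ℕ} (hψ : EV ψ) (h0 : ∀ a, ψ a ≠ 0) (hL : CF L) :
    ∃ (A B : α × ℕ → ℤ) (V : α × ℕ → Prop) (b : α → ℕ), EV A ∧ EV B ∧ CF V ∧ CF b ∧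
      (∀ a c, V (a, c) → 0 < B (a, c) ∧ ∃ ξ : ℝ, zev ξ (ψ a) = 0 ∧
        |(A (a, c) : ℝ) / B (a, c) - ξ| ≤ ((2 : ℝ) ^ L a)⁻¹) ∧
      ∀ a (ξ : ℝ), zev ξ (ψ a) = 0 → ∃ c < b a, V (a, c) ∧
        |(A (a, c) : ℝ) / B (a, c) - ξ| ≤ ((2 : ℝ) ^ L a)⁻¹ := by
  obtain ⟨Λ, hΛ, hsep⟩ := exists_sep hψ h0
  obtain ⟨A, B, b, hA, hB, hb, happ⟩ := exists_approx
    (L := fun a => (L a + Λ a + 2) * (Λ a + 1) + Λ a + (Λ a + 2) * Λ a) hψ h0 (by fun_prop)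
  have hq : EV fun x : α × ℕ => Polynomial.eval₂RingHom (Int.castRingHom (MvPolynomial ℕ ℤ))
      (MvPolynomial.X 0) (ψ x.1) :=
    EV.hom (EH.eval₂ EH.intCast (EV.const _)) (hψ.comp (by fun_prop))
  obtain ⟨U, W, hU, hW, hev⟩ := exists_eval_rat (m := fun _ => 1)
    (A := fun y : (α × ℕ) × ℕ => A y.1) (B := fun y : (α × ℕ) × ℕ => B y.1) hq (CF.const 1)
    (PB.const 1) (hA.comp (by fun_prop)) (hB.comp (by fun_prop))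
  have hT : EV fun x : α × ℕ => U x * 2 ^ ((L x.1 + Λ x.1 + 2) * (Λ x.1 + 1)) :=
    hU.mul (EV.two_pow (by fun_prop))
  have key : ∀ a c, 0 < B (a, c) →
      ((¬ W (a, c) < U (a, c) * 2 ^ ((L a + Λ a + 2) * (Λ a + 1)) ∧
        ¬ W (a, c) < -(U (a, c) * 2 ^ ((L a + Λ a + 2) * (Λ a + 1)))) ↔
      |zev ((A (a, c) : ℝ) / B (a, c)) (ψ a)| ≤ ((2 : ℝ) ^ ((L a + Λ a + 2) * (Λ a + 1)))⁻¹) := by
    intro a c hpos
    obtain ⟨h1, h2⟩ := hev (a, c) fun _ _ => hpos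
    dsimp only at h2
    rw [names_ivl] at h2
    rw [names_test h1, h2]
  refine ⟨A, B, fun x => 0 < B x ∧ ¬ W x < U x * 2 ^ ((L x.1 + Λ x.1 + 2) * (Λ x.1 + 1)) ∧
    ¬ W x < -(U x * 2 ^ ((L x.1 + Λ x.1 + 2) * (Λ x.1 + 1))), b, hA, hB,
    hB.pos.and ((hW.lt hT).not.and (hW.lt hT.neg).not), hb, fun a c hV => ?_, fun a ξ hξ => ?_⟩
  · exact ⟨hV.1, names_sound (h0 a) (hsep a).2.1 (hsep a).2.2.2 _ _ ((key a c hV.1).1 hV.2)⟩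
  · obtain ⟨c, hc, hpos, hx⟩ := happ a ξ hξ
    refine ⟨c, hc, ⟨hpos, (key a c hpos).2
      (names_complete (h0 a) (hsep a).1 (hsep a).2.1 (hsep a).2.2.1 _ _ ξ hξ hx)⟩, hx.trans ?_⟩
    refine inv_anti₀ (by positivity) (pow_le_pow_right₀ one_le_two ?_)
    nlinarith [Nat.zero_le (L a * Λ a), Nat.zero_le (Λ a * Λ a)]

end Crest.Agent.R316
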