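import Mathlib

/-!
# Row 316 (S0488): Newman
Newman's rational approximation of the sign of the real part.
`newman`: every factor satisfies `‖2^k - w‖ ≤ ‖2^k + w‖` (`re w ≥ 0`); for the `k ≤ L` with
`2^k ≤ ‖w‖ ≤ 2^(k+1)` (`k = ⌊log₂ ‖w‖⌋`), `‖2^k + w‖² - ‖2^k - w‖² = 4 2^k re w ≥ 4 η 4^k` and
`‖2^k + w‖² ≤ 9 · 4^k`.
`cls_approx`: `(1 - 4/(9E))^M ≤ exp (-4M/(9E)) ≤ 4^(-(s+1))` as `M ≥ 4E(s+1)` and `16/9 ≥ log 4`; so the ratio of the
two powers is `θ ≤ 2^(-(s+1)) ≤ 1/2` and the error is `≤ θ/(1-θ) ≤ 2θ`; for `re w < 0` apply `newman` to `-w`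
(`re w ≠ 0` since `1 ≤ ‖w‖ ≤ E |re w|`).
`exists_good_dir`: `z = x + iy`.  If `|x| ≥ 2W|y|`, then `|x + t y| ≥ |x|/2` and (for `W ≥ 1`) `‖z‖ ≤ 2|x|`; otherwise
`‖z‖ ≤ (2W+1)|y|` and `|x + t y| < |y|/2` for at most one integer `t`.  There are `W + 1` values of `t` and at
most `W` bad ones.  (For `W = 0` the family is empty.)
-/

set_option autoImplicit false

noncomputable section

namespace Crest.Agent.R316

/-- Newman's polynomial -/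
def nwP {K : Type} [CommRing K] (L : ℕ) (w : K) : K := ∏ k ∈ Finset.range (L + 1), (2 ^ k + w)

lemma newman_sq_add (a : ℝ) (w : ℂ) : ‖(a : ℂ) + w‖ ^ 2 = a ^ 2 + 2 * a * w.re + ‖w‖ ^ 2 := by
  rw [Complex.sq_norm, Complex.sq_norm, Complex.normSq_apply, Complex.normSq_apply]
  simp
  ring

theorem newman {w : ℂ} {L : ℕ} {η : ℝ} (hη : 0 < η) (h1 : 1 ≤ ‖w‖) (h2 : ‖w‖ ≤ 2 ^ L)
    (h3 : η * ‖w‖ ≤ w.re) :
    nwP L w ≠ 0 ∧ ‖nwP L (-w)‖ ^ 2 ≤ (1 - 4 * η / 9) * ‖nwP L w‖ ^ 2 := by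
  have hre : 0 < w.re := lt_of_lt_of_le (by positivity) h3
  have hc : ∀ k : ℕ, (2 : ℂ) ^ k = (((2 : ℝ) ^ k : ℝ) : ℂ) := fun k => by push_cast; rfl
  constructor
  · refine Finset.prod_ne_zero_iff.2 fun k _ h => ?_
    have h' := congrArg Complex.re h
    rw [hc, Complex.add_re, Complex.ofReal_re, Complex.zero_re] at h'
    have : (0 : ℝ) < 2 ^ k := by positivity
    linarith
  · obtain ⟨k, hk1, hk2⟩ := exists_nat_pow_near h1 (by norm_num : (1 : ℝ) < 2)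
    have hkL : k ∈ Finset.range (L + 1) := by
      rw [Finset.mem_range, Nat.lt_succ_iff]
      exact (pow_le_pow_iff_right₀ (by norm_num : (1 : ℝ) < 2)).1 (hk1.trans h2)
    unfold nwP
    rw [norm_prod, norm_prod, ← Finset.prod_pow, ← Finset.prod_pow,
      ← Finset.mul_prod_erase _ _ hkL, ← Finset.mul_prod_erase _ _ hkL, ← mul_assoc]
    have hk : ‖(2 : ℂ) ^ k + -w‖ ^ 2 ≤ (1 - 4 * η / 9) * ‖(2 : ℂ) ^ k + w‖ ^ 2 := by
      rw [hc, newman_sq_add, newman_sq_add, norm_neg, Complex.neg_re]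
      rw [pow_succ] at hk2
      set a : ℝ := 2 ^ k
      have ha : 0 < a := by positivity
      have hr : w.re ≤ ‖w‖ := Complex.re_le_norm w
      have e1 : a ^ 2 + 2 * a * w.re + ‖w‖ ^ 2 ≤ 9 * a * ‖w‖ := by nlinarith
      have e2 : η * (a ^ 2 + 2 * a * w.re + ‖w‖ ^ 2) ≤ 9 * a * w.re := by
        have := mul_le_mul_of_nonneg_left e1 hη.le
        have := mul_le_mul_of_nonneg_left h3 ha.le
        nlinarith
      nlinarith
    refine mul_le_mul hk (Finset.prod_le_prod (fun _ _ => sq_nonneg _) fun j _ => ?_)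
      (Finset.prod_nonneg fun _ _ => sq_nonneg _) ((sq_nonneg _).trans hk)
    rw [hc, newman_sq_add, newman_sq_add, norm_neg, Complex.neg_re]
    have : (0 : ℝ) < 2 ^ j := by positivity
    nlinarith

lemma newman_ratio {P Q : ℂ} {θ : ℝ} (hP : P ≠ 0) (hθ : θ ≤ 1 / 2) (h : ‖Q‖ ≤ θ * ‖P‖) :
    P + Q ≠ 0 ∧ ‖Q / (P + Q)‖ ≤ 2 * θ := by
  have hP0 : 0 < ‖P‖ := norm_pos_iff.2 hP
  have hθ0 : 0 ≤ θ := by
    by_contra hh
    have := mul_neg_of_neg_of_pos (not_le.1 hh) hP0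
    linarith [norm_nonneg Q]
  have h1 : ‖P‖ / 2 ≤ ‖P + Q‖ := by
    have : ‖P‖ ≤ ‖P + Q‖ + ‖Q‖ := by
      simpa using norm_sub_le (P + Q) Q
    nlinarith
  have h2 : 0 < ‖P + Q‖ := by linarith
  refine ⟨norm_pos_iff.1 h2, ?_⟩
  rw [norm_div, div_le_iff₀ h2]
  nlinarith

lemma newman_pow {w : ℂ} {L E M s : ℕ} (h1 : 1 ≤ ‖w‖) (h2 : ‖w‖ ≤ 2 ^ L)
    (h3 : ‖w‖ ≤ E * w.re) (hM : 4 * E * (s + 1) ≤ M) :
    nwP L w ^ M ≠ 0 ∧ ‖nwP L (-w) ^ M‖ ≤ ((2 : ℝ) ^ (s + 1))⁻¹ * ‖nwP L w ^ M‖ := by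
  have hE : (0 : ℝ) < E := by
    rcases Nat.eq_zero_or_pos E with h | h
    · subst h
      simp only [Nat.cast_zero, zero_mul] at h3
      linarith
    · exact_mod_cast h
  obtain ⟨hne, hle⟩ := newman (η := (E : ℝ)⁻¹) (inv_pos.2 hE) h1 h2
    (by rw [inv_mul_le_iff₀ hE]; exact h3)
  refine ⟨pow_ne_zero _ hne, ?_⟩
  have e1 : 1 - 4 * (E : ℝ)⁻¹ / 9 ≤ Real.exp (-(4 * (E : ℝ)⁻¹ / 9)) := by
    linarith [Real.add_one_le_exp (-(4 * (E : ℝ)⁻¹ / 9))]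
  have e2 : ‖nwP L (-w)‖ ^ 2 ≤ Real.exp (-(4 * (E : ℝ)⁻¹ / 9)) * ‖nwP L w‖ ^ 2 :=
    hle.trans (mul_le_mul_of_nonneg_right e1 (sq_nonneg _))
  have e3 : Real.exp (-(4 * (E : ℝ)⁻¹ / 9)) ^ M ≤ (((2 : ℝ) ^ (s + 1))⁻¹) ^ 2 := by
    have : (((2 : ℝ) ^ (s + 1))⁻¹) ^ 2 = Real.exp (-(2 * (s + 1) * Real.log 2)) := by
      rw [Real.exp_neg, show (2 * ((s : ℝ) + 1)) = (((s + 1) * 2 : ℕ) : ℝ) by push_cast; ring,
        Real.exp_nat_mul, Real.exp_log two_pos, pow_mul, inv_pow]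
    rw [this, ← Real.exp_nat_mul, Real.exp_le_exp]
    have hM' : 4 * (E : ℝ) * (s + 1) ≤ M := by exact_mod_cast hM
    have hM2 : 4 * ((s : ℝ) + 1) ≤ M * (E : ℝ)⁻¹ := by
      rw [← div_eq_mul_inv, le_div_iff₀ hE]; linarith
    have hl := Real.log_two_lt_d9
    have hs : (0 : ℝ) ≤ s := Nat.cast_nonneg s
    nlinarith
  refine (pow_le_pow_iff_left₀ (norm_nonneg _) (by positivity) two_ne_zero).1 ?_
  rw [norm_pow, norm_pow, mul_pow, ← pow_mul, mul_comm M 2, pow_mul, ← pow_mul _ M 2, mul_comm M 2,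
    pow_mul]
  refine (pow_le_pow_left₀ (sq_nonneg _) e2 M).trans ?_
  rw [mul_pow]
  exact mul_le_mul_of_nonneg_right e3 (by positivity)

theorem cls_approx {w : ℂ} {L E M s : ℕ} (h1 : 1 ≤ ‖w‖) (h2 : ‖w‖ ≤ 2 ^ L)
    (h3 : ‖w‖ ≤ E * |w.re|) (hM : 4 * E * (s + 1) ≤ M) :
    nwP L w ^ M + nwP L (-w) ^ M ≠ 0 ∧
      ‖nwP L w ^ M / (nwP L w ^ M + nwP L (-w) ^ M) - (if 0 < w.re then 1 else 0)‖ ≤
        ((2 : ℝ) ^ s)⁻¹ := by
  have hθ : ((2 : ℝ) ^ (s + 1))⁻¹ ≤ 1 / 2 := by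
    rw [one_div]
    refine inv_anti₀ two_pos ?_
    rw [pow_succ]
    have : (1 : ℝ) ≤ 2 ^ s := one_le_pow₀ (by norm_num)
    linarith
  have hθ2 : 2 * ((2 : ℝ) ^ (s + 1))⁻¹ = ((2 : ℝ) ^ s)⁻¹ := by
    rw [pow_succ]; field_simp
  by_cases hre : 0 < w.re
  · rw [abs_of_pos hre] at h3
    obtain ⟨hne, hle⟩ := newman_pow h1 h2 h3 hM
    obtain ⟨h4, h5⟩ := newman_ratio hne hθ hle
    refine ⟨h4, ?_⟩
    rw [if_pos hre, ← hθ2]
    refine le_trans (le_of_eq ?_) h5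
    rw [← norm_neg]
    congr 1
    field_simp
    ring
  · rw [abs_of_nonpos (not_lt.1 hre)] at h3
    obtain ⟨hne, hle⟩ := newman_pow (w := -w) (L := L) (by rwa [norm_neg]) (by rwa [norm_neg])
      (by rwa [norm_neg, Complex.neg_re]) hM
    rw [neg_neg] at hle
    obtain ⟨h4, h5⟩ := newman_ratio hne hθ hle
    rw [add_comm] at h4 h5
    refine ⟨h4, ?_⟩
    rw [if_neg hre, ← hθ2, sub_zero]
    exact h5

lemma newman_bad_unique (z : ℂ) {W t t' : ℕ} (ht : t ≤ W)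
    (h : (4 * W + 4) * |z.re + t * z.im| < ‖z‖) (h' : (4 * W + 4) * |z.re + t' * z.im| < ‖z‖) :
    t = t' := by
  by_contra hne
  have hW : (0 : ℝ) ≤ W := Nat.cast_nonneg W
  have ht0 : (0 : ℝ) ≤ t := Nat.cast_nonneg t
  have htW : (t : ℝ) ≤ W := by exact_mod_cast ht
  have h1 : (1 : ℝ) ≤ |(t : ℝ) - t'| := by
    have : (1 : ℤ) ≤ |(t : ℤ) - t'| := Int.one_le_abs (by omega)
    exact_mod_cast this
  have h2 : |z.im| ≤ |z.re + t * z.im| + |z.re + t' * z.im| := by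
    calc |z.im| ≤ |(t : ℝ) - t'| * |z.im| := le_mul_of_one_le_left (abs_nonneg _) h1
      _ = |(z.re + t * z.im) - (z.re + t' * z.im)| := by rw [← abs_mul]; congr 1; ring
      _ ≤ _ := abs_sub _ _
  have h3 : |z.re| ≤ |z.re + t * z.im| + W * |z.im| := by
    calc |z.re| = |(z.re + t * z.im) - t * z.im| := by congr 1; ring
      _ ≤ |z.re + t * z.im| + |t * z.im| := abs_sub _ _
      _ ≤ _ := by
        rw [abs_mul, abs_of_nonneg ht0]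
        have := mul_le_mul_of_nonneg_right htW (abs_nonneg z.im)
        linarith
  have h4 := Complex.norm_le_abs_re_add_abs_im z
  set A := |z.re + t * z.im|
  set B := |z.re + t' * z.im|
  have hA : 0 ≤ A := abs_nonneg _
  have hB : 0 ≤ B := abs_nonneg _
  have h5 : (W + 1) * |z.im| ≤ (W + 1) * (A + B) := mul_le_mul_of_nonneg_left h2 (by linarith)
  nlinarith

theorem exists_good_dir {ι : Type} [Fintype ι] (z : ι → ℂ) {W : ℕ} (hW : Fintype.card ι ≤ W) :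
    ∃ t ≤ W, ∀ i, ‖z i‖ ≤ (4 * W + 4) * |(z i).re + t * (z i).im| := by
  by_contra hcon
  push Not at hcon
  choose f hf using fun t : Fin (W + 1) => hcon t (Nat.lt_succ_iff.1 t.2)
  have hinj : Function.Injective f := fun t t' h =>
    Fin.ext (newman_bad_unique (z (f t)) (Nat.lt_succ_iff.1 t.2) (hf t) (h ▸ hf t'))
  have := Fintype.card_le_of_injective f hinj
  rw [Fintype.card_fin] at this
  omega

end Crest.Agent.R316
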