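import Crest.Agent.R316.Defs

/-!
# Row 316 (S0488): Nrm
Properties of the norms.  Everything follows from the class axioms and `nrm_poly`, `nrm_mv`,
`polyNrm_eq`, `mvNrm_eq`, `polyNrm_monomial`, `mvNrm_monomial` (`Defs.lean`).
Root bounds: `Polynomial.IsRoot.norm_lt_cauchyBound` or directly: if `‖z‖ > nrm ψ + 1 ≥ 1` the top term
dominates (`|lc| ≥ 1`, the other coefficients have total size `≤ nrm ψ`); if `‖z‖ < 1/(nrm ψ + 1)` the
trailing term dominates.  Lipschitz bound: monomial by monomial,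
`|∏ xᵢ^eᵢ - ∏ yᵢ^eᵢ| ≤ |e| B^|e| ε ≤ 2^|e| B^deg ε`.
-/

set_option autoImplicit false

open Polynomial

noncomputable section

namespace Crest.Agent.R316

open Crest.Agent.Lib.PolyTime
variable {α R S : Type} [Enc α] [CommRing R] [PR R] [CommRing S] [PR S]


theorem one_le_nrm {f : R} (h : f ≠ 0) : 1 ≤ nrm f := by
  exact Nat.one_le_iff_ne_zero.2 fun h0 => h ((nrm_eq_zero f).1 h0)
theorem nrm_sub_le (f g : R) : nrm (f - g) ≤ nrm f + nrm g := by
  rw [sub_eq_add_neg, ← nrm_neg g]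
  exact nrm_add_le _ _
theorem nrm_sum_le {ι : Type} (s : Finset ι) (f : ι → R) :
    nrm (∑ i ∈ s, f i) ≤ ∑ i ∈ s, nrm (f i) := by
  exact sum_le_of_subadd nrm nrm_zero nrm_add_le s f
theorem nrm_prod_le {ι : Type} (s : Finset ι) (f : ι → R) :
    nrm (∏ i ∈ s, f i) ≤ ∏ i ∈ s, nrm (f i) := by
  classical
  induction s using Finset.induction_on with
  | empty => simpa using nrm_one_le
  | insert i s hi ih =>
    rw [Finset.prod_insert hi, Finset.prod_insert hi]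
    exact (nrm_mul_le _ _).trans (Nat.mul_le_mul_left _ ih)
theorem nrm_pow_le (f : R) (n : ℕ) : nrm (f ^ n) ≤ nrm f ^ n := by
  simpa using nrm_prod_le (Finset.range n) fun _ => f
theorem nrm_natCast_le (n : ℕ) : nrm (n : R) ≤ n := by
  induction n with
  | zero => simp
  | succ n ih =>
    rw [Nat.cast_succ]
    exact (nrm_add_le _ _).trans (Nat.add_le_add ih nrm_one_le)
theorem nrm_intCast_le (z : ℤ) : nrm (z : R) ≤ z.natAbs := by
  obtain ⟨n, rfl | rfl⟩ := z.eq_nat_or_neg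
  · simpa using nrm_natCast_le n
  · simpa [nrm_neg] using nrm_natCast_le n

theorem nrm_C (c : R) : nrm (C c : R[X]) = nrm c := by
  have h := polyNrm_monomial 0 c
  rwa [monomial_zero_left, pow_zero, mul_one] at h
theorem nrm_X_le : nrm (X : R[X]) ≤ 2 := by
  have h := polyNrm_monomial 1 (1 : R)
  rw [monomial_one_one_eq_X, pow_one] at h
  have h1 := nrm_one_le (R := R)
  exact h.le.trans (by omega)
theorem nrm_coeff_le (f : R[X]) (k : ℕ) : nrm (f.coeff k) * 2 ^ k ≤ nrm f := by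
  by_cases hk : k ∈ f.support
  · exact Finset.single_le_sum (f := fun k => nrm (f.coeff k) * 2 ^ k) (fun _ _ => Nat.zero_le _) hk
  · simp [Polynomial.notMem_support_iff.1 hk]
theorem natDegree_le_of_nrm_le {f : R[X]} {Λ : ℕ} (h : nrm f ≤ 2 ^ Λ) : f.natDegree ≤ Λ := by
  rcases eq_or_ne f 0 with rfl | hf
  · simp
  · have h1 := one_le_nrm (Polynomial.leadingCoeff_ne_zero.2 hf)
    refine (Nat.pow_le_pow_iff_right (by norm_num : 1 < 2)).1 ?_
    exact (Nat.le_mul_of_pos_left _ h1).trans ((nrm_coeff_le f f.natDegree).trans h)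
theorem nrm_mvC (c : R) : nrm (MvPolynomial.C c : MvPolynomial ℕ R) = nrm c := by
  have h := mvNrm_monomial 0 c
  rwa [map_zero, pow_zero, mul_one] at h
theorem nrm_mvX_le (i : ℕ) : nrm (MvPolynomial.X i : MvPolynomial ℕ R) ≤ 2 := by
  have h := mvNrm_monomial (Finsupp.single i 1) (1 : R)
  rw [Finsupp.degree_single, pow_one] at h
  have h1 := nrm_one_le (R := R)
  exact h.le.trans (by omega)
theorem nrm_mvCoeff_le (f : MvPolynomial ℕ R) (e : ℕ →₀ ℕ) :
    nrm (f.coeff e) * 2 ^ e.degree ≤ nrm f := by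
  by_cases hk : e ∈ f.support
  · exact Finset.single_le_sum (f := fun e => nrm (f.coeff e) * 2 ^ e.degree)
      (fun _ _ => Nat.zero_le _) hk
  · simp [MvPolynomial.notMem_support_iff.1 hk]
theorem totalDegree_le_of_nrm_le {f : MvPolynomial ℕ R} {Λ : ℕ} (h : nrm f ≤ 2 ^ Λ) :
    f.totalDegree ≤ Λ := by
  refine Finset.sup_le fun e he => ?_
  have h1 := one_le_nrm (MvPolynomial.mem_support_iff.1 he)
  refine (Nat.pow_le_pow_iff_right (by norm_num : 1 < 2)).1 ?_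
  exact (Nat.le_mul_of_pos_left _ h1).trans ((nrm_mvCoeff_le f e).trans h)

theorem nrm_sum_pow_le {ι : Type} {K : ℕ} (hK : 1 ≤ K) (s : Finset ι) (a : ι → ℕ) :
    ∑ i ∈ s, a i ^ K ≤ (∑ i ∈ s, a i) ^ K := by
  classical
  induction s using Finset.induction_on with
  | empty => simp
  | insert i s hi ih =>
    rw [Finset.sum_insert hi, Finset.sum_insert hi]
    exact (Nat.add_le_add_left ih _).trans
      (pow_add_pow_le (Nat.zero_le _) (Nat.zero_le _) (by omega))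

/-- substitution: `∑ ‖Φ c_k‖ ‖g‖^k ≤ ∑ (‖c_k‖ 2^k)^K ≤ ‖f‖^K` -/
theorem nrm_eval₂_le (Φ : R →+* S) (g : S) {K : ℕ} (hK : 1 ≤ K) (hΦ : ∀ c, nrm (Φ c) ≤ nrm c ^ K)
    (hg : nrm g ≤ 2 ^ K) (f : R[X]) : nrm (f.eval₂ Φ g) ≤ nrm f ^ K := by
  rw [Polynomial.eval₂_eq_sum, Polynomial.sum_def, nrm_poly]
  refine (nrm_sum_le _ _).trans (le_trans (Finset.sum_le_sum fun k _ => ?_) (nrm_sum_pow_le hK _ _))
  rw [mul_pow, ← pow_mul, mul_comm k K, pow_mul]
  exact (nrm_mul_le _ _).trans (Nat.mul_le_mul (hΦ _)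
    ((nrm_pow_le _ _).trans (Nat.pow_le_pow_left hg _)))
theorem nrm_mvEval₂_le (Φ : R →+* S) (g : ℕ → S) {K : ℕ} (hK : 1 ≤ K)
    (hΦ : ∀ c, nrm (Φ c) ≤ nrm c ^ K) (hg : ∀ i, nrm (g i) ≤ 2 ^ K) (f : MvPolynomial ℕ R) :
    nrm (f.eval₂ Φ g) ≤ nrm f ^ K := by
  rw [MvPolynomial.eval₂_eq, nrm_mv]
  refine (nrm_sum_le _ _).trans (le_trans (Finset.sum_le_sum fun e _ => ?_) (nrm_sum_pow_le hK _ _))
  rw [mul_pow, ← pow_mul, mul_comm _ K, pow_mul]
  refine (nrm_mul_le _ _).trans (Nat.mul_le_mul (hΦ _) ((nrm_prod_le _ _).trans ?_))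
  rw [Finsupp.degree_apply, ← Finset.prod_pow_eq_pow_sum]
  exact Finset.prod_le_prod' fun i _ => (nrm_pow_le _ _).trans (Nat.pow_le_pow_left (hg i) _)

end Crest.Agent.R316
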