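import Crest.Agent.R316.ZT

/-!
# Row 316 (S0488): PSum
Enumerations of the complex roots and their power sums.  `exists_enum`: `IsAlgClosed.splits`,
`Polynomial.C_leadingCoeff_mul_prod_multiset_X_sub_C`/`eq_prod_roots_of_splits`, enumerate the multiset of
roots.  Power sums: with `D = natDegree`, `a = leadingCoeff`, `μᵢ = a ρᵢ`:
`E = ∏ (1 - μᵢ X) = 1 - w`, `w = -∑_{k<D} c_k a^(D-k-1) X^(D-k)` (compare coefficients, or reverse and scale
the defining identity of `Enum`), and for `m ≥ 1`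
`∑ μᵢ^m = coeff m (X * w' * ∑_{i ≤ m} w^i)`, because `∑_{m ≥ 1} p_m X^m = ∑ᵢ μᵢ X/(1 - μᵢ X) = -X E'/E` and
`(1 - w) ∑_{i ≤ m} w^i ≡ 1 mod X^(m+1)`; write `X * w' = -∑_{k<D} (D-k) c_k a^(D-k-1) X^(D-k)` explicitly.
`P (a, 0) = D`.
-/

set_option autoImplicit false

open Polynomial

noncomputable section

namespace Crest.Agent.R316

open Crest.Agent.Lib.PolyTime
variable {α R S : Type} [Enc α] [CommRing R] [PR R] [CommRing S] [PR S]


theorem exists_enum {ψ : ℤ[X]} (hψ : ψ ≠ 0) : ∃ ρ : Fin ψ.natDegree → ℂ, Enum ψ ρ := by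
  have hinj : Function.Injective (Int.castRingHom ℂ) := RingHom.injective_int _
  have hcard : (ψ.map (Int.castRingHom ℂ)).roots.card = (ψ.map (Int.castRingHom ℂ)).natDegree :=
    IsAlgClosed.card_roots_eq_natDegree
  have h1 := C_leadingCoeff_mul_prod_multiset_X_sub_C hcard
  rw [natDegree_map_eq_of_injective hinj] at hcard
  rw [leadingCoeff_map_of_injective hinj] at h1
  obtain ⟨l, hl⟩ : ∃ l : List ℂ, (l : Multiset ℂ) = (ψ.map (Int.castRingHom ℂ)).roots :=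
    ⟨_, Multiset.coe_toList _⟩
  have hlen : l.length = ψ.natDegree := by rw [← hcard, ← hl]; rfl
  refine ⟨fun i => l.get (i.cast hlen.symm), ?_⟩
  unfold Enum
  rw [← h1, ← hl]
  congr 1
  rw [Multiset.map_coe, Multiset.prod_coe,
    ← Fin.prod_univ_fun_getElem l (fun a => X - C a)]
  exact (Fin.prod_congr' (fun i : Fin l.length => X - C (l.get i)) hlen.symm).symm

theorem Enum.card {ψ : ℤ[X]} {D : ℕ} {ρ : Fin D → ℂ} (h : Enum ψ ρ) (hψ : ψ ≠ 0) :
    D = ψ.natDegree := by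
  have hinj : Function.Injective (Int.castRingHom ℂ) := RingHom.injective_int _
  have h0 : (ψ.leadingCoeff : ℂ) ≠ 0 := by exact_mod_cast leadingCoeff_ne_zero.2 hψ
  have h1 := congrArg natDegree h
  rw [natDegree_map_eq_of_injective hinj, natDegree_C_mul h0, natDegree_finsetProd_X_sub_C_eq_card]
    at h1
  simpa using h1.symm

theorem Enum.zev_eq {ψ : ℤ[X]} {D : ℕ} {ρ : Fin D → ℂ} (h : Enum ψ ρ) (z : ℂ) :
    zev z ψ = ψ.leadingCoeff * ∏ i, (z - ρ i) := by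
  have h1 := congrArg (eval z) h
  rw [eval_map] at h1
  simpa [eval_prod, zev] using h1

theorem Enum.root_iff {ψ : ℤ[X]} {D : ℕ} {ρ : Fin D → ℂ} (h : Enum ψ ρ) (hψ : ψ ≠ 0) (z : ℂ) :
    zev z ψ = 0 ↔ ∃ i, ρ i = z := by
  have h0 : (ψ.leadingCoeff : ℂ) ≠ 0 := by exact_mod_cast leadingCoeff_ne_zero.2 hψ
  rw [h.zev_eq, mul_eq_zero, or_iff_right h0, Finset.prod_eq_zero_iff]
  simp only [Finset.mem_univ, true_and, sub_eq_zero]
  exact exists_congr fun _ => eq_comm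

/-- the power sums are coefficients of the truncated logarithmic derivative -/
theorem PSum_coeff {K ι : Type} [CommRing K] [Fintype ι] (μ : ι → K) {E : K[X]}
    (hE : E = ∏ i, (1 - C (μ i) * X)) {m : ℕ} (hm : m ≠ 0) :
    (-(X * derivative E) * ∑ i ∈ Finset.range (m + 1), (1 - E) ^ i).coeff m = ∑ i, μ i ^ m := by
  classical
  have hX : X ∣ 1 - E := by
    rw [X_dvd_iff, coeff_sub, coeff_one_zero, coeff_zero_eq_eval_zero, hE, eval_prod]
    simp
  have h1 : X ^ (m + 1) ∣ E * ∑ i ∈ Finset.range (m + 1), (1 - E) ^ i - 1 := by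
    have := mul_neg_geom_sum (1 - E) (m + 1)
    rw [sub_sub_cancel] at this
    rw [this, sub_sub_cancel_left, dvd_neg]
    exact pow_dvd_pow_of_dvd hX _
  have h2 : X ^ (m + 1) ∣ -(X * derivative E) -
      E * ∑ i, ∑ j ∈ Finset.range m, (C (μ i) * X) ^ (j + 1) := by
    have e1 : -(X * derivative E) =
        ∑ i, (∏ l ∈ Finset.univ.erase i, (1 - C (μ l) * X)) * (C (μ i) * X) := by
      rw [hE, derivative_prod_finset, Finset.mul_sum, ← Finset.sum_neg_distrib]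
      refine Finset.sum_congr rfl fun i _ => ?_
      simp only [derivative_sub, derivative_one, derivative_C_mul_X]
      ring
    rw [e1, Finset.mul_sum, ← Finset.sum_sub_distrib]
    refine Finset.dvd_sum fun i _ => ?_
    have e2 : E = (∏ l ∈ Finset.univ.erase i, (1 - C (μ l) * X)) * (1 - C (μ i) * X) := by
      rw [hE, Finset.prod_erase_mul _ _ (Finset.mem_univ i)]
    have e3 : ∑ j ∈ Finset.range m, (C (μ i) * X) ^ (j + 1) =
        (∑ j ∈ Finset.range m, (C (μ i) * X) ^ j) * (C (μ i) * X) := by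
      rw [Finset.sum_mul]
      exact Finset.sum_congr rfl fun j _ => pow_succ _ _
    have e4 := mul_neg_geom_sum (C (μ i) * X) m
    refine ⟨(∏ l ∈ Finset.univ.erase i, (1 - C (μ l) * X)) * C (μ i) ^ (m + 1), ?_⟩
    rw [e2, e3]
    linear_combination (-(∏ l ∈ Finset.univ.erase i, (1 - C (μ l) * X)) * (C (μ i) * X)) * e4
  have h3 : X ^ (m + 1) ∣ -(X * derivative E) * ∑ i ∈ Finset.range (m + 1), (1 - E) ^ i -
      ∑ i, ∑ j ∈ Finset.range m, (C (μ i) * X) ^ (j + 1) := by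
    have := (h2.mul_right (∑ i ∈ Finset.range (m + 1), (1 - E) ^ i)).add
      (h1.mul_left (∑ i, ∑ j ∈ Finset.range m, (C (μ i) * X) ^ (j + 1)))
    convert this using 1
    ring
  have h4 := X_pow_dvd_iff.1 h3 m (Nat.lt_succ_self m)
  rw [coeff_sub, sub_eq_zero] at h4
  rw [h4, finsetSum_coeff]
  refine Finset.sum_congr rfl fun i _ => ?_
  obtain ⟨m, rfl⟩ := Nat.exists_eq_succ_of_ne_zero hm
  simp only [finsetSum_coeff, mul_pow, ← C_pow, coeff_C_mul_X_pow]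
  rw [Finset.sum_eq_single m]
  · simp
  · intro j _ hj
    rw [if_neg (by omega)]
  · simp

/-- the reversed and scaled polynomial, without its constant term -/
def psumW (ψ : ℤ[X]) : ℤ[X] := ∑ k ∈ Finset.range ψ.natDegree,
  C (ψ.coeff (ψ.natDegree - 1 - k) * ψ.leadingCoeff ^ k) * X ^ (k + 1)

/-- `X` times the derivative of `psumW` -/
def psumW' (ψ : ℤ[X]) : ℤ[X] := ∑ k ∈ Finset.range ψ.natDegree,
  C (ψ.coeff (ψ.natDegree - 1 - k) * ψ.leadingCoeff ^ k * ((k + 1 : ℕ) : ℤ)) * X ^ (k + 1)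

theorem psumW'_eq (ψ : ℤ[X]) : psumW' ψ = X * derivative (1 + psumW ψ) := by
  unfold psumW psumW'
  rw [derivative_add, derivative_one, zero_add, derivative_sum, Finset.mul_sum]
  refine Finset.sum_congr rfl fun k _ => ?_
  rw [derivative_C_mul_X_pow, Nat.add_sub_cancel]
  ring

theorem psumW_map {ψ : ℤ[X]} (hψ : ψ ≠ 0) {D : ℕ} {ρ : Fin D → ℂ} (h : Enum ψ ρ) :
    (1 + psumW ψ).map (Int.castRingHom ℂ) = ∏ i, (1 - C ((ψ.leadingCoeff : ℂ) * ρ i) * X) := by
  have h0 : (ψ.leadingCoeff : ℂ) ≠ 0 := by exact_mod_cast leadingCoeff_ne_zero.2 hψ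
  have hD := h.card hψ
  refine eq_of_infinite_eval_eq _ _ ((Set.finite_singleton (0 : ℂ)).infinite_compl.mono ?_)
  intro z hz
  have hz0 : z ≠ 0 := hz
  have hw : (ψ.leadingCoeff : ℂ) * z ≠ 0 := mul_ne_zero h0 hz0
  have h1 := h.zev_eq ((ψ.leadingCoeff : ℂ) * z)⁻¹
  have h2 : zev ((ψ.leadingCoeff : ℂ) * z)⁻¹ ψ = ∑ j ∈ Finset.range (D + 1),
      (ψ.coeff j : ℂ) * ((ψ.leadingCoeff : ℂ) * z)⁻¹ ^ j := by
    rw [hD]
    exact eval₂_eq_sum_range _ _
  show eval z _ = eval z _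
  refine mul_left_cancel₀ h0 ?_
  have h3 : (ψ.leadingCoeff : ℂ) * eval z (∏ i, (1 - C ((ψ.leadingCoeff : ℂ) * ρ i) * X)) =
      ((ψ.leadingCoeff : ℂ) * z) ^ D * zev ((ψ.leadingCoeff : ℂ) * z)⁻¹ ψ := by
    rw [h1, eval_prod, mul_left_comm]
    congr 1
    rw [← Fin.prod_const, ← Finset.prod_mul_distrib]
    refine Finset.prod_congr rfl fun i _ => ?_
    simp only [eval_sub, eval_one, eval_mul, eval_C, eval_X]
    rw [mul_sub, mul_inv_cancel₀ hw]
    ring
  rw [h3, h2, Finset.sum_range_succ, ← Finset.sum_range_reflect, mul_add, Finset.mul_sum, psumW, ← hD]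
  simp only [Polynomial.map_add, Polynomial.map_one, Polynomial.map_sum, Polynomial.map_mul,
    Polynomial.map_pow, map_C, map_X, eval_add, eval_one, eval_finsetSum, eval_mul, eval_C, eval_pow,
    eval_X]
  simp only [eq_intCast, Int.cast_mul, Int.cast_pow]
  rw [mul_add, add_comm, Finset.mul_sum]
  congr 1
  · refine Finset.sum_congr rfl fun k hk => ?_
    have hk' : k < D := Finset.mem_range.1 hk
    obtain ⟨e, he⟩ : ∃ e, D = e + (k + 1) := ⟨D - (k + 1), by omega⟩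
    have e1 : D - 1 - k = e := by omega
    rw [e1]
    conv_rhs => rw [he, pow_add, inv_pow]
    have := pow_ne_zero e hw
    field_simp
    ring
  · rw [inv_pow, mul_left_comm, mul_inv_cancel₀ (pow_ne_zero _ hw), hD]
    rfl

theorem exists_psum {ψ : α → ℤ[X]} (hψ : EV ψ) : ∃ P : α × ℕ → ℤ, EV P ∧ ∀ a, ψ a ≠ 0 →
    ∀ (D : ℕ) (ρ : Fin D → ℂ), Enum (ψ a) ρ → ∀ m,
      (P (a, m) : ℂ) = ∑ i, (((ψ a).leadingCoeff : ℂ) * ρ i) ^ m := by
  obtain ⟨d, hd, hd'⟩ : ∃ d : α → ℕ, CF d ∧ ∀ a, (ψ a).natDegree = d a :=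
    ⟨_, hψ.natDegree, fun _ => rfl⟩
  obtain ⟨l, hl, hl'⟩ : ∃ l : α → ℤ, EV l ∧ ∀ a, (ψ a).leadingCoeff = l a :=
    ⟨_, hψ.leadingCoeff, fun _ => rfl⟩
  obtain ⟨W, hW, hW1⟩ : ∃ W : α → ℤ[X], EV W ∧ ∀ a, W a = psumW (ψ a) := by
    refine ⟨_, ?_, fun _ => rfl⟩
    simp only [psumW, hd', hl']
    fun_prop
  obtain ⟨W', hW', hW1'⟩ : ∃ W : α → ℤ[X], EV W ∧ ∀ a, W a = psumW' (ψ a) := by
    refine ⟨_, ?_, fun _ => rfl⟩
    simp only [psumW', hd', hl']
    fun_prop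
  refine ⟨fun x => if x.2 = 0 then (d x.1 : ℤ) else
    (-W' x.1 * ∑ i ∈ Finset.range (x.2 + 1), (-W x.1) ^ i).coeff x.2,
    by fun_prop, fun a ha D ρ h m => ?_⟩
  by_cases hm : m = 0
  · subst hm
    simp [h.card ha, hd']
  · have h1 := PSum_coeff _ (psumW_map ha h) hm
    rw [← h1]
    simp only [if_neg hm, hW1, hW1']
    rw [← eq_intCast (Int.castRingHom ℂ), ← coeff_map, psumW'_eq, derivative_map]
    congr 1
    simp only [Polynomial.map_mul, Polynomial.map_neg, Polynomial.map_sum, Polynomial.map_pow,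
      map_X, Polynomial.map_add, Polynomial.map_one, sub_add_cancel_left]

end Crest.Agent.R316
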