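import Crest.Agent.R316.CF

/-!
# Row 316 (S0488): Primes
Chebyshev lower bound.  With `N = 2n = 2^c`: `4^n < n * centralBinom n` (`Nat.four_pow_lt_mul_centralBinom`)
and `centralBinom n = ∏ p^ν_p ≤ (2n)^π(2n)` (`Nat.pow_factorization_choose_le`,
`Nat.prod_pow_factorization_centralBinom`), hence `2^c < c - 1 + c π(N)`.  With `s = a + b`,
`c = 2s + 6`: `2^c ≥ c (2^(s+1) + 1)`, and at most `2^a` primes are `< 2^a`.
-/

set_option autoImplicit false



noncomputable section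

namespace Crest.Agent.R316

open Crest.Agent.Lib.PolyTime

theorem Primes_cheb (c : ℕ) : 2 ^ c - 1 ≤ c * ((Nat.primesBelow (2 ^ c)).card + 1) := by
  have h0 : 2 ^ c - 1 + 1 = 2 ^ c := Nat.sub_add_cancel Nat.one_le_two_pow
  have h1 := Chebyshev.two_pow_le_mul_lcmUpto (2 ^ c - 1)
  rw [Nat.lcmUpto_eq_prod_pow_log, h0, ← Nat.primesBelow_eq_primesLE_sub_one] at h1
  have h2 : ∏ p ∈ Nat.primesBelow (2 ^ c), p ^ p.log (2 ^ c - 1) ≤
      (2 ^ c) ^ (Nat.primesBelow (2 ^ c)).card :=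
    Finset.prod_le_pow_card _ _ _ fun p hp => by
      have h3 := Nat.mem_primesBelow.1 hp
      have h4 := h3.2.two_le
      exact (Nat.pow_log_le_self p (by omega)).trans (Nat.sub_le _ _)
  have h3 := h1.trans (Nat.mul_le_mul_left _ h2)
  rw [← pow_succ', ← pow_mul] at h3
  exact (Nat.pow_le_pow_iff_right one_lt_two).1 h3

theorem card_primes_ge (a b : ℕ) :
    2 ^ b ≤ ((Finset.range (2 ^ (2 * (a + b) + 6))).filter fun p => p.Prime ∧ 2 ^ a ≤ p).card := by
  by_contra hc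
  rw [not_le] at hc
  have h1 := Primes_cheb (2 * (a + b) + 6)
  have h2 : (Nat.primesBelow (2 ^ (2 * (a + b) + 6))).card ≤
      ((Finset.range (2 ^ (2 * (a + b) + 6))).filter fun p => p.Prime ∧ 2 ^ a ≤ p).card + 2 ^ a := by
    refine (Finset.card_le_card fun p hp => ?_).trans ((Finset.card_union_le
      ((Finset.range (2 ^ (2 * (a + b) + 6))).filter fun p => p.Prime ∧ 2 ^ a ≤ p)
      (Finset.range (2 ^ a))).trans_eq (congrArg _ (Finset.card_range _)))
    have h3 := Nat.mem_primesBelow.1 hp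
    simp only [Finset.mem_union, Finset.mem_filter, Finset.mem_range]
    by_cases h : 2 ^ a ≤ p
    · exact Or.inl ⟨h3.1, h3.2, h⟩
    · exact Or.inr (not_le.1 h)
  have h3 : 2 ^ a ≤ 2 ^ (a + b) := Nat.pow_le_pow_right two_pos (by omega)
  have h4 : 2 ^ b ≤ 2 ^ (a + b) := Nat.pow_le_pow_right two_pos (by omega)
  have h5 : a + b < 2 ^ (a + b) := Nat.lt_two_pow_self
  have h6 : 2 ^ (2 * (a + b) + 6) = 64 * (2 ^ (a + b) * 2 ^ (a + b)) := by ring
  have h7 := h1.trans (Nat.mul_le_mul (show 2 * (a + b) + 6 ≤ 6 * 2 ^ (a + b) by omega)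
    (show _ ≤ 2 * 2 ^ (a + b) by omega))
  have h8 : 0 < 2 ^ (a + b) * 2 ^ (a + b) := by positivity
  rw [h6, mul_mul_mul_comm] at h7
  omega

end Crest.Agent.R316
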