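import Crest.Agent.R316.Newman

/-!
# Row 316 (S0488): Rank
Root finding by ranks.  `P = Λ + L + 10`, `W = Λ²`, `t` from `exists_good_dir` for the family `ρ i - ρ j`;
`ℓ z = re z + t im z = re ((1 - t I) z)`.  For `z = ρ i - ρ j ≠ 0`: `‖z‖ ≥ 2^(-Λ)`, `4W + 4 ≤ 2^P`, so
`2^(2P+1) |ℓ z| ≥ 2`; `w = rkW = 2^(2P+1) (1 - t I) z - 1` has `|re w| ≥ 2^(2P) |ℓ z| ≥ 1`, `0 < re w ↔ 0 < ℓ z`,
`‖w‖ ≤ 2^(4P+1)` and `‖w‖ ≤ E |re w|` with `E = 8 (W+1)² + 1`; for `z = 0`, `w = -1`.  By `cls_approx`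
(`s = 3P + 2`) `rkN i` is within `D 2^(-s)` of the integer `N i = #{j | ℓ (ρ j) < ℓ (ρ i)}`, and
`N i = N i' ↔ ρ i = ρ i'` (`ℓ` separates distinct roots; strict inclusion of the sets).  Take `k = N i₀ < D`.
With `T₀ = 2^(2P)`, `T₀ D 2^(-s) ≤ 1/4`: if `ρ i = ρ i₀` then `‖rkWt i - 1‖ ≤ 1/3`; otherwise
`‖1 + T₀ (rkN i - k)‖ ≥ T₀ - 5/4 ≥ T₀/4`, `‖rkWt i‖ ≤ 4/T₀`.  So `re ∑ rkWt ≥ 2/3 - 4D/T₀ ≥ 1/4` and
`‖∑ (ρ i - ρ i₀) rkWt i‖ ≤ D 2^(Λ+1) 4/T₀`, the error is `≤ 32 Λ 2^Λ/T₀ ≤ 2^(-L)`.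
-/

set_option autoImplicit false

noncomputable section

namespace Crest.Agent.R316

section
variable {K : Type} [CommRing K]

/-- the rotated, scaled and shifted difference (`I` is the imaginary unit) -/
def rkW (Λ L t : ℕ) (I z : K) : K := 2 ^ (2 * (Λ + L + 10) + 1) * (1 - t * I) * z - 1

/-- the exponent -/
def rkM (Λ L : ℕ) : ℕ := 4 * (8 * (Λ ^ 2 + 1) ^ 2 + 1) * (3 * (Λ + L + 10) + 2 + 1)

/-- numerator of the classifier -/
def rkA (Λ L t : ℕ) (I z : K) : K := nwP (4 * (Λ + L + 10) + 1) (rkW Λ L t I z) ^ rkM Λ L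

/-- denominator of the classifier -/
def rkB (Λ L t : ℕ) (I z : K) : K :=
  nwP (4 * (Λ + L + 10) + 1) (rkW Λ L t I z) ^ rkM Λ L +
    nwP (4 * (Λ + L + 10) + 1) (-rkW Λ L t I z) ^ rkM Λ L

end

/-- approximate rank of the `i`-th root -/
def rkN (Λ L t : ℕ) {D : ℕ} (ρ : Fin D → ℂ) (i : Fin D) : ℂ :=
  ∑ j, rkA Λ L t Complex.I (ρ i - ρ j) / rkB Λ L t Complex.I (ρ i - ρ j)

/-- the weight peaked at rank `k` -/
def rkWt (Λ L t k : ℕ) {D : ℕ} (ρ : Fin D → ℂ) (i : Fin D) : ℂ :=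
  1 / (1 + 2 ^ (2 * (Λ + L + 10)) * (rkN Λ L t ρ i - k))

lemma Rank_sq_le (n : ℕ) : n ^ 2 + 1 ≤ 2 ^ (n + 2) := by
  induction n with
  | zero => norm_num
  | succ n ih =>
    have h : n < 2 ^ n := Nat.lt_two_pow_self
    have e1 : 2 ^ (n + 1 + 2) = 2 * 2 ^ (n + 2) := by ring
    have e2 : 2 ^ (n + 2) = 4 * 2 ^ n := by ring
    have e3 : (n + 1) ^ 2 = n ^ 2 + 2 * n + 1 := by ring
    omega

lemma Rank_W_re (Λ L t : ℕ) (z : ℂ) :
    (rkW Λ L t Complex.I z).re = 2 ^ (2 * (Λ + L + 10) + 1) * (z.re + t * z.im) - 1 := by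
  have h : rkW Λ L t Complex.I z =
      ((2 ^ (2 * (Λ + L + 10) + 1) : ℝ) : ℂ) * ((1 - t * Complex.I) * z) - 1 := by
    unfold rkW; push_cast; ring
  rw [h, Complex.sub_re, Complex.re_ofReal_mul]
  simp

lemma Rank_W_norm (Λ L t : ℕ) (z : ℂ) :
    ‖rkW Λ L t Complex.I z‖ ≤ 2 ^ (2 * (Λ + L + 10) + 1) * (1 + t) * ‖z‖ + 1 := by
  have h1 : ‖(1 : ℂ) - t * Complex.I‖ ≤ 1 + t := by
    refine (norm_sub_le _ _).trans ?_
    simp
  unfold rkW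
  refine (norm_sub_le _ _).trans ?_
  rw [norm_mul, norm_mul, norm_pow, norm_one, Complex.norm_two]
  gcongr

/-- the classifier approximates the indicator of `0 < ℓ z` -/
lemma Rank_cls {Λ L t : ℕ} {z : ℂ} (ht : t ≤ Λ ^ 2) (hz : ‖z‖ ≤ 2 ^ (Λ + 1))
    (hsep : z ≠ 0 → ((2 : ℝ) ^ Λ)⁻¹ ≤ ‖z‖)
    (hdir : ‖z‖ ≤ (4 * ((Λ ^ 2 : ℕ) : ℝ) + 4) * |z.re + t * z.im|) :
    rkB Λ L t Complex.I z ≠ 0 ∧
      ‖rkA Λ L t Complex.I z / rkB Λ L t Complex.I z - (if 0 < z.re + t * z.im then 1 else 0)‖ ≤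
        ((2 : ℝ) ^ (3 * (Λ + L + 10) + 2))⁻¹ := by
  have hre := Rank_W_re Λ L t z
  have hnorm := Rank_W_norm Λ L t z
  have hW : ((Λ ^ 2 : ℕ) : ℝ) + 1 ≤ 2 ^ (Λ + 2) := by exact_mod_cast Rank_sq_le Λ
  have ht' : (t : ℝ) ≤ ((Λ ^ 2 : ℕ) : ℝ) := by exact_mod_cast ht
  have hW0 : (0 : ℝ) ≤ ((Λ ^ 2 : ℕ) : ℝ) := Nat.cast_nonneg _
  have key : 1 ≤ |(rkW Λ L t Complex.I z).re| ∧
      ‖rkW Λ L t Complex.I z‖ ≤ ((8 * (Λ ^ 2 + 1) ^ 2 + 1 : ℕ) : ℝ) * |(rkW Λ L t Complex.I z).re| ∧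
      (0 < (rkW Λ L t Complex.I z).re ↔ 0 < z.re + t * z.im) := by
    by_cases h0 : z = 0
    · subst h0
      have e : rkW Λ L t Complex.I 0 = -1 := by simp [rkW]
      rw [e]
      have : (1 : ℝ) ≤ ((8 * (Λ ^ 2 + 1) ^ 2 + 1 : ℕ) : ℝ) := by
        exact_mod_cast Nat.le_add_left 1 _
      simpa using this
    · obtain ⟨l, hl⟩ : ∃ l : ℝ, l = z.re + t * z.im := ⟨_, rfl⟩
      obtain ⟨Q, hQ⟩ : ∃ Q : ℝ, Q = 2 ^ (2 * (Λ + L + 10)) := ⟨_, rfl⟩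
      have hQ0 : 0 < Q := by rw [hQ]; positivity
      rw [← hl] at hdir hre ⊢
      rw [pow_succ, ← hQ] at hre hnorm
      have h1 : 1 ≤ Q * |l| := by
        have e1 := (hsep h0).trans hdir
        rw [inv_le_iff_one_le_mul₀ (by positivity)] at e1
        calc (1 : ℝ) ≤ (4 * ((Λ ^ 2 : ℕ) : ℝ) + 4) * |l| * 2 ^ Λ := e1
          _ = 4 * (((Λ ^ 2 : ℕ) : ℝ) + 1) * 2 ^ Λ * |l| := by ring
          _ ≤ 4 * 2 ^ (Λ + 2) * 2 ^ Λ * |l| := by gcongr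
          _ = 2 ^ (2 * Λ + 4) * |l| := by ring
          _ ≤ Q * |l| := by
              rw [hQ]; gcongr
              · norm_num
              · omega
      have h2 : Q * |l| ≤ |(rkW Λ L t Complex.I z).re| := by
        rw [hre]
        have e1 : |Q * 2 * l| - |(1 : ℝ)| ≤ |Q * 2 * l - 1| := abs_sub_abs_le_abs_sub _ _
        rw [abs_mul, abs_of_pos (by positivity : 0 < Q * 2), abs_one] at e1
        linarith
      refine ⟨h1.trans h2, ?_, ?_⟩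
      · refine hnorm.trans ?_
        push_cast at hdir ht' ⊢
        calc Q * 2 * (1 + t) * ‖z‖ + 1
            ≤ Q * 2 * (1 + (Λ : ℝ) ^ 2) * ((4 * (Λ : ℝ) ^ 2 + 4) * |l|) + Q * |l| := by gcongr
          _ = (8 * ((Λ : ℝ) ^ 2 + 1) ^ 2 + 1) * (Q * |l|) := by ring
          _ ≤ _ := by gcongr
      · rw [hre]
        constructor
        · intro h
          by_contra hl0
          have : Q * 2 * l ≤ 0 := mul_nonpos_of_nonneg_of_nonpos (by positivity) (not_lt.1 hl0)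
          linarith
        · intro h
          rw [abs_of_pos h] at h1
          linarith
  obtain ⟨k1, k2, k3⟩ := key
  have k4 : ‖rkW Λ L t Complex.I z‖ ≤ 2 ^ (4 * (Λ + L + 10) + 1) := by
    refine hnorm.trans ?_
    calc (2 : ℝ) ^ (2 * (Λ + L + 10) + 1) * (1 + t) * ‖z‖ + 1
        ≤ 2 ^ (2 * (Λ + L + 10) + 1) * 2 ^ (Λ + 2) * 2 ^ (Λ + 1) + 2 ^ (4 * (Λ + L + 10)) := by
          gcongr
          · linarith
          · exact one_le_pow₀ (by norm_num)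
      _ = 2 ^ (2 * (Λ + L + 10) + 1 + (Λ + 2) + (Λ + 1)) + 2 ^ (4 * (Λ + L + 10)) := by
          rw [← pow_add, ← pow_add]
      _ ≤ 2 ^ (4 * (Λ + L + 10)) + 2 ^ (4 * (Λ + L + 10)) := by
          gcongr
          · norm_num
          · omega
      _ = 2 ^ (4 * (Λ + L + 10) + 1) := by rw [pow_succ]; ring
  have h := cls_approx (M := rkM Λ L) (s := 3 * (Λ + L + 10) + 2)
    (k1.trans (Complex.abs_re_le_norm _)) k4 k2 le_rfl
  simp only [k3] at h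
  exact h

/-- the exact rank separates distinct values -/
lemma Rank_card_lt {D : ℕ} (f : Fin D → ℝ) {i i' : Fin D} (h : f i < f i') :
    (Finset.univ.filter (fun j => f j < f i)).card <
      (Finset.univ.filter (fun j => f j < f i')).card := by
  refine Finset.card_lt_card ⟨fun j hj => ?_, fun hsub => ?_⟩
  · simp only [Finset.mem_filter, Finset.mem_univ, true_and] at hj ⊢
    exact hj.trans h
  · have := hsub (show i ∈ Finset.univ.filter (fun j => f j < f i') by simpa using h)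
    simp at this

/-- the weight at the chosen rank -/
lemma Rank_wt_eq {δ : ℂ} (hδ : ‖δ‖ ≤ 1 / 4) : 1 + δ ≠ 0 ∧ 2 / 3 ≤ (1 / (1 + δ)).re := by
  have h1 : 3 / 4 ≤ ‖1 + δ‖ := by
    have := norm_sub_norm_le (1 : ℂ) (-δ)
    rw [norm_one, norm_neg, sub_neg_eq_add] at this
    linarith
  have h2 : 1 + δ ≠ 0 := by
    intro h; rw [h, norm_zero] at h1; norm_num at h1
  refine ⟨h2, ?_⟩
  have h3 : 1 / (1 + δ) = 1 - δ / (1 + δ) := by field_simp; ring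
  have h4 : ‖δ / (1 + δ)‖ ≤ 1 / 3 := by
    rw [norm_div, div_le_iff₀ (by linarith)]; linarith
  have h5 := (Complex.re_le_norm (δ / (1 + δ))).trans h4
  rw [h3, Complex.sub_re, Complex.one_re]
  linarith

/-- the weight at another rank -/
lemma Rank_wt_ne {δ n : ℂ} {Q : ℝ} (hQ : 2 ≤ Q) (hδ : ‖δ‖ ≤ 1 / 4) (hn : 1 ≤ ‖n‖) :
    1 + (Q * n + δ) ≠ 0 ∧ ‖1 / (1 + (Q * n + δ))‖ ≤ 4 / Q := by
  have hQ0 : 0 < Q := by linarith
  have h1 : Q / 4 ≤ ‖1 + (Q * n + δ)‖ := by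
    have e1 := norm_sub_norm_le ((Q : ℂ) * n) (-(1 + δ))
    have e2 : ‖1 + δ‖ ≤ 5 / 4 := by
      refine (norm_add_le _ _).trans ?_
      rw [norm_one]; linarith
    have e3 : Q ≤ ‖(Q : ℂ) * n‖ := by
      rw [norm_mul, Complex.norm_real, Real.norm_eq_abs, abs_of_pos hQ0]
      exact le_mul_of_one_le_right hQ0.le hn
    rw [norm_neg, show (Q : ℂ) * n - -(1 + δ) = 1 + (Q * n + δ) by ring] at e1
    linarith
  refine ⟨fun h => ?_, ?_⟩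
  · rw [h, norm_zero] at h1; linarith
  · rw [norm_div, norm_one, div_le_div_iff₀ (by linarith) hQ0]
    linarith

theorem rank_approx {Λ L D : ℕ} {ρ : Fin D → ℂ} (hD : D ≤ Λ) (hρ : ∀ i, ‖ρ i‖ ≤ 2 ^ Λ)
    (hsep : ∀ i j, ρ i ≠ ρ j → ((2 : ℝ) ^ Λ)⁻¹ ≤ ‖ρ i - ρ j‖) (i₀ : Fin D) :
    ∃ t ≤ Λ ^ 2, ∃ k ≤ Λ, (∀ i j, rkB Λ L t Complex.I (ρ i - ρ j) ≠ 0) ∧
      (∀ i, 1 + 2 ^ (2 * (Λ + L + 10)) * (rkN Λ L t ρ i - k) ≠ 0) ∧
      ∑ i, rkWt Λ L t k ρ i ≠ 0 ∧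
      ‖(∑ i, ρ i * rkWt Λ L t k ρ i) / (∑ i, rkWt Λ L t k ρ i) - ρ i₀‖ ≤ ((2 : ℝ) ^ L)⁻¹ := by
  classical
  obtain ⟨t, ht, hdir⟩ := exists_good_dir (fun p : Fin D × Fin D => ρ p.1 - ρ p.2) (W := Λ ^ 2)
    (by simpa [sq] using Nat.mul_le_mul hD hD)
  have hdiff : ∀ i j, ‖ρ i - ρ j‖ ≤ 2 ^ (Λ + 1) := fun i j => by
    refine (norm_sub_le _ _).trans ?_
    rw [pow_succ]; linarith [hρ i, hρ j]
  obtain ⟨f, hf⟩ : ∃ f : Fin D → ℝ, ∀ i, f i = (ρ i).re + t * (ρ i).im := ⟨_, fun _ => rfl⟩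
  have hfs : ∀ i j, (ρ i - ρ j).re + t * (ρ i - ρ j).im = f i - f j := fun i j => by
    rw [hf, hf, Complex.sub_re, Complex.sub_im]; ring
  have hcls := fun i j => Rank_cls (L := L) ht (hdiff i j)
    (fun h => hsep i j (sub_ne_zero.1 h)) (hdir (i, j))
  obtain ⟨N, hN⟩ : ∃ N : Fin D → ℕ, ∀ i, N i = (Finset.univ.filter (fun j => f j < f i)).card :=
    ⟨_, fun _ => rfl⟩
  have hNne : ∀ i, ρ i ≠ ρ i₀ → N i ≠ N i₀ := fun i hi => by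
    have h1 : f i ≠ f i₀ := fun h => by
      have := hdir (i, i₀)
      simp only [hfs, h, sub_self, abs_zero, mul_zero, norm_le_zero_iff] at this
      exact hi (sub_eq_zero.1 this)
    rw [hN, hN]
    rcases lt_or_gt_of_ne h1 with h | h
    · exact (Rank_card_lt f h).ne
    · exact (Rank_card_lt f h).ne'
  have hNeq : ∀ i, ρ i = ρ i₀ → N i = N i₀ := fun i hi => by
    rw [hN, hN, hf i, hf i₀, hi]
  have hD' : (D : ℝ) ≤ 2 ^ Λ := by exact_mod_cast hD.trans Nat.lt_two_pow_self.le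
  obtain ⟨Q, hQ⟩ : ∃ Q : ℝ, Q = 2 ^ (2 * (Λ + L + 10)) := ⟨_, rfl⟩
  have hQc : (2 : ℂ) ^ (2 * (Λ + L + 10)) = Q := by rw [hQ]; push_cast; rfl
  have hQ0 : 0 < Q := by rw [hQ]; positivity
  have hQe : ∀ e : ℕ, e ≤ 2 * (Λ + L + 10) → 2 ^ e ≤ Q := fun e he => by
    rw [hQ]; exact pow_le_pow_right₀ (by norm_num) he
  have hQ2 : 2 ≤ Q := by simpa using hQe 1 (by omega)
  have herr : ∀ i, ‖(Q : ℂ) * (rkN Λ L t ρ i - N i)‖ ≤ 1 / 4 := fun i => by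
    have e1 : rkN Λ L t ρ i - N i = ∑ j, (rkA Λ L t Complex.I (ρ i - ρ j) /
        rkB Λ L t Complex.I (ρ i - ρ j) -
          (if 0 < (ρ i - ρ j).re + t * (ρ i - ρ j).im then 1 else 0)) := by
      rw [Finset.sum_sub_distrib, hN, Finset.card_filter]
      simp only [hfs, sub_pos]
      push_cast
      rfl
    have e2 : ‖rkN Λ L t ρ i - N i‖ ≤ D * ((2 : ℝ) ^ (3 * (Λ + L + 10) + 2))⁻¹ := by
      rw [e1]
      refine (norm_sum_le _ _).trans ((Finset.sum_le_sum (fun j _ => (hcls i j).2)).trans ?_)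
      simp
    rw [norm_mul, Complex.norm_real, Real.norm_eq_abs, abs_of_pos hQ0]
    calc Q * ‖rkN Λ L t ρ i - N i‖ ≤ Q * (2 ^ Λ * ((2 : ℝ) ^ (3 * (Λ + L + 10) + 2))⁻¹) := by
          gcongr
          exact e2.trans (by gcongr)
      _ ≤ 1 / 4 := by
          rw [hQ, ← mul_assoc, ← pow_add, mul_inv_le_iff₀ (by positivity)]
          calc (2 : ℝ) ^ (2 * (Λ + L + 10) + Λ) ≤ 2 ^ (3 * (Λ + L + 10)) :=
                pow_le_pow_right₀ (by norm_num) (by omega)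
            _ = 1 / 4 * 2 ^ (3 * (Λ + L + 10) + 2) := by rw [pow_add _ _ 2]; ring
  have hA : ∀ i, ρ i = ρ i₀ → 1 + 2 ^ (2 * (Λ + L + 10)) * (rkN Λ L t ρ i - N i₀) ≠ 0 ∧
      2 / 3 ≤ (rkWt Λ L t (N i₀) ρ i).re := fun i hi => by
    unfold rkWt
    rw [hQc, ← hNeq i hi]
    exact Rank_wt_eq (herr i)
  have hB : ∀ i, ρ i ≠ ρ i₀ → 1 + 2 ^ (2 * (Λ + L + 10)) * (rkN Λ L t ρ i - N i₀) ≠ 0 ∧
      ‖rkWt Λ L t (N i₀) ρ i‖ ≤ 4 / Q := fun i hi => by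
    unfold rkWt
    rw [hQc, show (Q : ℂ) * (rkN Λ L t ρ i - N i₀) =
      Q * ((N i : ℂ) - N i₀) + Q * (rkN Λ L t ρ i - N i) by ring]
    refine Rank_wt_ne hQ2 (herr i) ?_
    have e1 : (N i : ℂ) - N i₀ = (((N i : ℤ) - N i₀ : ℤ) : ℂ) := by push_cast; rfl
    rw [e1, Complex.norm_intCast]
    have e2 : (N i : ℤ) - N i₀ ≠ 0 := by have := hNne i hi; omega
    exact_mod_cast Int.one_le_abs e2
  have h4Q : 0 ≤ 4 / Q := by positivity
  have hS : 1 / 4 ≤ (∑ i, rkWt Λ L t (N i₀) ρ i).re := by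
    have e1 : ∀ i, (if i = i₀ then 2 / 3 else 0) - 4 / Q ≤ (rkWt Λ L t (N i₀) ρ i).re := fun i => by
      by_cases hi : ρ i = ρ i₀
      · have := (hA i hi).2
        split_ifs <;> linarith
      · have e2 : i ≠ i₀ := fun h => hi (by rw [h])
        have e3 := (abs_le.1 ((Complex.abs_re_le_norm _).trans (hB i hi).2)).1
        rw [if_neg e2]
        linarith
    rw [Complex.re_sum]
    refine le_trans ?_ (Finset.sum_le_sum (fun i _ => e1 i))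
    rw [Finset.sum_sub_distrib, Finset.sum_ite_eq' Finset.univ i₀, if_pos (Finset.mem_univ _),
      Finset.sum_const, Finset.card_univ, Fintype.card_fin, nsmul_eq_mul]
    have e4 : (D : ℝ) * (4 / Q) ≤ 1 / 4 := by
      rw [← mul_div_assoc, div_le_iff₀ hQ0]
      have := hQe (Λ + 4) (by omega)
      rw [pow_add] at this
      linarith
    linarith
  have hS' : 1 / 4 ≤ ‖∑ i, rkWt Λ L t (N i₀) ρ i‖ := hS.trans (Complex.re_le_norm _)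
  have hS0 : ∑ i, rkWt Λ L t (N i₀) ρ i ≠ 0 := fun h => by
    rw [h, norm_zero] at hS'; norm_num at hS'
  refine ⟨t, ht, N i₀, ?_, fun i j => (hcls i j).1, fun i => ?_, hS0, ?_⟩
  · rw [hN]
    exact (Finset.card_filter_le _ _).trans (by simpa using hD)
  · by_cases hi : ρ i = ρ i₀
    · exact (hA i hi).1
    · exact (hB i hi).1
  · have e1 : (∑ i, ρ i * rkWt Λ L t (N i₀) ρ i) / (∑ i, rkWt Λ L t (N i₀) ρ i) - ρ i₀ =
        (∑ i, (ρ i - ρ i₀) * rkWt Λ L t (N i₀) ρ i) / (∑ i, rkWt Λ L t (N i₀) ρ i) := by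
      rw [div_sub' hS0, Finset.sum_mul, ← Finset.sum_sub_distrib]
      congr 1
      exact Finset.sum_congr rfl (fun i _ => by ring)
    have e2 : ∀ i, ‖(ρ i - ρ i₀) * rkWt Λ L t (N i₀) ρ i‖ ≤ 2 ^ (Λ + 1) * (4 / Q) := fun i => by
      by_cases hi : ρ i = ρ i₀
      · rw [hi, sub_self, zero_mul, norm_zero]; positivity
      · rw [norm_mul]
        exact mul_le_mul (hdiff i i₀) (hB i hi).2 (norm_nonneg _) (by positivity)
    have e3 : ‖∑ i, (ρ i - ρ i₀) * rkWt Λ L t (N i₀) ρ i‖ ≤ 2 ^ Λ * (2 ^ (Λ + 1) * (4 / Q)) := by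
      refine (norm_sum_le _ _).trans ((Finset.sum_le_sum (fun i _ => e2 i)).trans ?_)
      rw [Finset.sum_const, Finset.card_univ, Fintype.card_fin, nsmul_eq_mul]
      gcongr
    rw [e1, norm_div, div_le_iff₀ (by linarith)]
    refine e3.trans (le_trans ?_ (mul_le_mul_of_nonneg_left hS' (by positivity)))
    rw [← mul_assoc, ← mul_div_assoc, div_le_iff₀ hQ0, mul_assoc _ _ Q, le_inv_mul_iff₀ (by positivity)]
    have := hQe (2 * Λ + L + 5) (by omega)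
    calc (2 : ℝ) ^ L * (2 ^ Λ * 2 ^ (Λ + 1) * 4) = 1 / 4 * 2 ^ (2 * Λ + L + 5) := by ring
      _ ≤ 1 / 4 * Q := by gcongr

end Crest.Agent.R316
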