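import Mathlib

/-!
# Row 316 (S0488): Res1
The global residue of the system `fᵢ = a Xᵢ^D - gᵢ`, `deg gᵢ < D`, `u a = 1`:
`ρ(h) = ∑_α u^(|α|+n) coeff_{(α+1)D-1} (h g^α)` (the coefficient of `(X₁⋯Xₙ)⁻¹` in `h / ∏ fᵢ`).
`rterm_eq_zero`: `deg (h g^α) ≤ deg h + (D-1)|α| < D|α| + n(D-1) = |rtop D α|`.
`rho_stable`: the terms with some `αᵢ ≥ N` vanish; compare the two sums through `Fintype.piFinset (range N)`.
`rhoL_mul_f`: `coeff (rtop α) (Xᵢ^D w) = coeff (rtop (α - eᵢ)) w` if `αᵢ ≥ 1` and `0` otherwise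
(`MvPolynomial.coeff_X_pow_mul'`/`coeff_monomial_mul'`), so after the shift `α = β + eᵢ` the two sums agree
(take a large box; boundary terms vanish by `rterm_eq_zero`).
`rhoL_det`: `det = ∏ (cᵢ Xᵢ^(D-1)) + (terms of degree < n(D-1))` (Leibniz formula; `Dl` is the filtration by
degree), `ρ` kills `Dl (n(D-1))`, and `ρ(∏ Xᵢ^(D-1)) = u^n` (only `α = 0` contributes).
`exists_divdiff`: induction on monomials / `MvPolynomial.induction_on`:
`X_k w - c_k w(c) = (X_k - c_k) w + c_k (w - w(c))`.
-/

set_option autoImplicit false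

open MvPolynomial

noncomputable section

namespace Crest.Agent.R316

variable {B : Type} [CommRing B] {n : ℕ}

/-- the exponent `(α+1) D - 1` -/
def rtop (D : ℕ) (α : Fin n → ℕ) : Fin n →₀ ℕ :=
  Finsupp.equivFunOnFinite.symm fun i => (α i + 1) * D - 1

/-- one term of the residue -/
def rterm (u : B) (D : ℕ) (g : Fin n → MvPolynomial (Fin n) B) (α : Fin n → ℕ)
    (h : MvPolynomial (Fin n) B) : B :=
  u ^ (∑ i, α i + n) * coeff (rtop D α) (h * ∏ i, g i ^ α i)

/-- the residue, truncated to a box -/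
def rho (u : B) (D : ℕ) (g : Fin n → MvPolynomial (Fin n) B) (N : ℕ) (h : MvPolynomial (Fin n) B) :
    B := ∑ α : Fin n → Fin N, rterm u D g (fun i => α i) h

/-- all monomials have degree `< m` -/
def Dl (m : ℕ) (h : MvPolynomial (Fin n) B) : Prop := ∀ e ∈ h.support, e.degree < m

variable {u : B} {D : ℕ} {g : Fin n → MvPolynomial (Fin n) B}

theorem rterm_eq_zero (hD : 1 ≤ D) (hg : ∀ i, (g i).totalDegree < D) {α : Fin n → ℕ}
    {h : MvPolynomial (Fin n) B} (hh : h.totalDegree < ∑ i, α i + n * (D - 1)) :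
    rterm u D g α h = 0 := by
  have h1 : (∏ i, g i ^ α i).totalDegree ≤ ∑ i, α i * (D - 1) :=
    (totalDegree_finsetProd _ _).trans (Finset.sum_le_sum fun i _ =>
      (totalDegree_pow _ _).trans (Nat.mul_le_mul_left _ (Nat.le_sub_one_of_lt (hg i))))
  have h2 : ∑ i ∈ (rtop D α).support, rtop D α i = ∑ i, α i * (D - 1) + (∑ i, α i + n * (D - 1)) := by
    rw [Finset.sum_subset (Finset.subset_univ _) fun i _ hi => Finsupp.notMem_support_iff.1 hi]
    have h3 : n * (D - 1) = ∑ _i : Fin n, (D - 1) := by simp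
    rw [h3, ← Finset.sum_add_distrib, ← Finset.sum_add_distrib]
    refine Finset.sum_congr rfl fun i _ => ?_
    obtain ⟨d, rfl⟩ := Nat.exists_eq_add_of_le' hD
    simp only [rtop, Finsupp.equivFunOnFinite_symm_apply_apply, Nat.add_sub_cancel]
    apply Nat.sub_eq_of_eq_add
    ring
  rw [rterm, coeff_eq_zero_of_totalDegree_lt, mul_zero]
  have h4 := totalDegree_mul h (∏ i, g i ^ α i)
  omega

theorem res1_rho_eq (N : ℕ) (h : MvPolynomial (Fin n) B) : rho u D g N h =
    ∑ α ∈ Fintype.piFinset fun _ : Fin n => Finset.range N, rterm u D g α h := by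
  refine Finset.sum_bij (fun α _ => fun i => (α i : ℕ)) (fun α _ => by simp)
    (fun α _ β _ h => funext fun i => Fin.ext (congrFun h i)) (fun α hα => ?_) fun _ _ => rfl
  simp only [Fintype.mem_piFinset, Finset.mem_range] at hα
  exact ⟨fun i => ⟨α i, hα i⟩, Finset.mem_univ _, rfl⟩

theorem res1_rho_add (N : ℕ) (h h' : MvPolynomial (Fin n) B) :
    rho u D g N (h + h') = rho u D g N h + rho u D g N h' := by
  simp [rho, rterm, add_mul, mul_add, Finset.sum_add_distrib]

theorem res1_rho_sub (N : ℕ) (h h' : MvPolynomial (Fin n) B) :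
    rho u D g N (h - h') = rho u D g N h - rho u D g N h' := by
  simp [rho, rterm, sub_mul, mul_sub, Finset.sum_sub_distrib]

theorem res1_rho_smul (N : ℕ) (c : B) (h : MvPolynomial (Fin n) B) :
    rho u D g N (c • h) = c * rho u D g N h := by
  simp [rho, rterm, Finset.mul_sum, mul_left_comm]

theorem rho_stable (hD : 1 ≤ D) (hg : ∀ i, (g i).totalDegree < D) {N N' : ℕ}
    {h : MvPolynomial (Fin n) B} (hN : 1 ≤ N) (hh : h.totalDegree < N + n * (D - 1)) (hN' : N ≤ N') :
    rho u D g N h = rho u D g N' h := by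
  rw [res1_rho_eq, res1_rho_eq]
  refine Finset.sum_subset (Fintype.piFinset_subset _ _ fun _ => Finset.range_mono hN')
    fun α _ hα => rterm_eq_zero hD hg ?_
  simp only [Fintype.mem_piFinset, Finset.mem_range, not_forall, not_lt] at hα
  obtain ⟨i, hi⟩ := hα
  have := Finset.single_le_sum (f := α) (fun _ _ => Nat.zero_le _) (Finset.mem_univ i)
  omega

/-- the residue as a linear map -/
theorem exists_rhoL (u : B) (hD : 1 ≤ D) (hg : ∀ i, (g i).totalDegree < D) :
    ∃ ρ : MvPolynomial (Fin n) B →ₗ[B] B, ∀ h N, 1 ≤ N → h.totalDegree < N + n * (D - 1) →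
      ρ h = rho u D g N h := by
  have key : ∀ (h : MvPolynomial (Fin n) B) N, h.totalDegree < N →
      rho u D g (h.totalDegree + 1) h = rho u D g N h := fun h N hN =>
    rho_stable hD hg (by omega) (by omega) hN
  refine ⟨⟨⟨fun h => rho u D g (h.totalDegree + 1) h, fun h h' => ?_⟩, fun c h => ?_⟩,
    fun h N hN hh => ?_⟩
  · have := totalDegree_add h h'
    rw [key (h + h') (h.totalDegree + h'.totalDegree + 1) (by omega),
      key h (h.totalDegree + h'.totalDegree + 1) (by omega),
      key h' (h.totalDegree + h'.totalDegree + 1) (by omega), res1_rho_add]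
  · have := totalDegree_smul_le c h
    simp only [RingHom.id_apply, smul_eq_mul]
    rw [key (c • h) (h.totalDegree + 1) (by omega), res1_rho_smul]
  · change rho u D g (h.totalDegree + 1) h = _
    rw [key h (h.totalDegree + N) (by omega), rho_stable hD hg hN hh (Nat.le_add_left _ _)]

theorem map_rho {B' : Type} [CommRing B'] (φ : B →+* B') (N : ℕ) (h : MvPolynomial (Fin n) B) :
    φ (rho u D g N h) = rho (φ u) D (fun i => map φ (g i)) N (map φ h) := by
  simp only [rho, rterm, map_sum, map_mul, map_pow, ← coeff_map, map_prod]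

theorem res1_rterm_zero (hD : 1 ≤ D) (a : B) (q : MvPolynomial (Fin n) B) {i : Fin n}
    {α : Fin n → ℕ} (hα : α i = 0) : rterm u D g α (q * (C a * X i ^ D)) = 0 := by
  classical
  rw [rterm, C_mul_X_pow_eq_monomial, mul_comm q, mul_assoc, coeff_monomial_mul', if_neg, mul_zero]
  intro h
  have := h i
  simp only [rtop, Finsupp.single_eq_same, Finsupp.equivFunOnFinite_symm_apply_apply, hα] at this
  omega

theorem res1_rterm_shift (hD : 1 ≤ D) {a : B} (hu : u * a = 1) (q : MvPolynomial (Fin n) B)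
    (i : Fin n) (β : Fin n → ℕ) :
    rterm u D g (β + Pi.single i 1) (q * (C a * X i ^ D)) = rterm u D g β (q * g i) := by
  classical
  have h1 : rtop D (β + Pi.single i 1) = Finsupp.single i D + rtop D β := by
    ext j
    obtain ⟨d, rfl⟩ := Nat.exists_eq_add_of_le' hD
    simp only [rtop, Finsupp.equivFunOnFinite_symm_apply_apply, Pi.add_apply, Finsupp.add_apply]
    have h2 : (β j + 1) * (d + 1) - 1 = β j * (d + 1) + d := by
      apply Nat.sub_eq_of_eq_add; ring
    by_cases hj : j = i
    · subst hj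
      rw [Pi.single_eq_same, Finsupp.single_eq_same, h2]
      apply Nat.sub_eq_of_eq_add; ring
    · rw [Pi.single_eq_of_ne hj, Finsupp.single_eq_of_ne hj, add_zero, zero_add]
  have h2 : ∏ j, g j ^ (β + Pi.single i 1 : Fin n → ℕ) j = g i * ∏ j, g j ^ β j := by
    simp only [Pi.add_apply, pow_add, Finset.prod_mul_distrib]
    rw [mul_comm, Finset.prod_eq_single i (fun j _ hj => by rw [Pi.single_eq_of_ne hj, pow_zero])
      (by simp), Pi.single_eq_same, pow_one]
  have h3 : ∑ j, (β + Pi.single i 1 : Fin n → ℕ) j + n = ∑ j, β j + n + 1 := by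
    simp only [Pi.add_apply, Finset.sum_add_distrib, Finset.sum_pi_single', Finset.mem_univ,
      if_true]
    ring
  rw [rterm, rterm, C_mul_X_pow_eq_monomial, mul_comm q, mul_assoc, h1, coeff_monomial_mul, h2, h3,
    pow_succ, mul_assoc, ← mul_assoc u, hu, one_mul, mul_assoc]

section
variable (hD : 1 ≤ D) (hg : ∀ i, (g i).totalDegree < D) {ρ : MvPolynomial (Fin n) B →ₗ[B] B}
  (hρ : ∀ h N, 1 ≤ N → h.totalDegree < N + n * (D - 1) → ρ h = rho u D g N h)
include hD hg hρ

theorem rhoL_mul_f {a : B} (hu : u * a = 1) (q : MvPolynomial (Fin n) B) (i : Fin n) :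
    ρ (q * (C a * X i ^ D - g i)) = 0 := by
  classical
  set N := (q * (C a * X i ^ D - g i)).totalDegree + (q * g i).totalDegree + 2 with hN
  rw [hρ _ N (by omega) (by omega), mul_sub, res1_rho_sub, sub_eq_zero, res1_rho_eq, res1_rho_eq,
    ← Finset.sum_filter_of_ne (f := fun α => rterm u D g α (q * (C a * X i ^ D)))
      (p := fun α : Fin n → ℕ => α i ≠ 0)
      (fun α _ h h0 => h (res1_rterm_zero hD a q h0)),
    ← Finset.sum_filter_of_ne (f := fun β => rterm u D g β (q * g i)) 
      (p := fun β : Fin n → ℕ => β i + 1 < N)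
      (fun β _ h => by
        by_contra h0
        have := Finset.single_le_sum (f := β) (fun _ _ => Nat.zero_le _) (Finset.mem_univ i)
        exact h (rterm_eq_zero hD hg (by omega)))]
  symm
  refine Finset.sum_nbij' (fun β => β + Pi.single i 1) (fun α => α - Pi.single i 1)
    (fun β hβ => ?_) (fun α hα => ?_) (fun β _ => by simp) (fun α hα => ?_)
    fun β _ => (res1_rterm_shift hD hu q i β).symm
  · simp only [Finset.mem_filter, Fintype.mem_piFinset, Finset.mem_range, Pi.add_apply,
      Pi.single_eq_same] at hβ ⊢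
    refine ⟨fun j => ?_, by omega⟩
    by_cases hj : j = i
    · subst hj
      rw [Pi.single_eq_same]
      exact hβ.2
    · rw [Pi.single_eq_of_ne hj]
      exact hβ.1 j
  · simp only [Finset.mem_filter, Fintype.mem_piFinset, Finset.mem_range, Pi.sub_apply,
      Pi.single_eq_same] at hα ⊢
    refine ⟨fun j => (Nat.sub_le _ _).trans_lt (hα.1 j), ?_⟩
    have := hα.1 i
    have := hα.2
    omega
  · simp only [Finset.mem_filter] at hα
    funext j
    simp only [Pi.add_apply, Pi.sub_apply]
    by_cases hj : j = i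
    · subst hj
      rw [Pi.single_eq_same]
      have := hα.2
      omega
    · rw [Pi.single_eq_of_ne hj]
      rfl

end

end Crest.Agent.R316
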