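import Crest.Agent.R316.Res1

/-!
# Row 316 (S0488): Res1b
The global residue of the system `fᵢ = a Xᵢ^D - gᵢ`, `deg gᵢ < D`, `u a = 1`:
`ρ(h) = ∑_α u^(|α|+n) coeff_{(α+1)D-1} (h g^α)` (the coefficient of `(X₁⋯Xₙ)⁻¹` in `h / ∏ fᵢ`).
`rterm_eq_zero`: `deg (h g^α) ≤ deg h + (D-1)|α| < D|α| + n(D-1) = |rtop D α|`.
`rho_stable`: the terms with some `αᵢ ≥ N` vanish; compare the two sums through `Fintype.piFinset (range N)`.
`rhoL_mul_f`: `coeff (rtop α) (Xᵢ^D w) = coeff (rtop (α - eᵢ)) w` if `αᵢ ≥ 1` and `0` otherwise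
(`MvPolynomial.coeff_X_pow_mul'`/`coeff_monomial_mul'`), so after the shift `α = β + eᵢ` the two sums agree
(take a large box; boundary terms vanish by `rterm_eq_zero`).
`rhoL_det`: `det = ∏ (cᵢ Xᵢ^(D-1)) + (terms of degree < n(D-1))` (Leibniz formula; `Dl` is the filtration by
degree), `ρ` kills `Dl (n(D-1))`, and `ρ(∏ Xᵢ^(D-1)) = u^n` (only `α = 0` contributes).
`exists_divdiff`: induction on monomials / `MvPolynomial.induction_on`:
`X_k w - c_k w(c) = (X_k - c_k) w + c_k (w - w(c))`.
-/

set_option autoImplicit false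

open MvPolynomial

noncomputable section

namespace Crest.Agent.R316

variable {B : Type} [CommRing B] {n : ℕ} {u : B} {D : ℕ} {g : Fin n → MvPolynomial (Fin n) B}

theorem Res1b_zero (m : ℕ) : Dl m (0 : MvPolynomial (Fin n) B) := by simp [Dl]

theorem Res1b_mono {m m' : ℕ} {p : MvPolynomial (Fin n) B} (h : Dl m p) (hm : m ≤ m') : Dl m' p :=
  fun e he => (h e he).trans_le hm

theorem Res1b_add {m : ℕ} {p q : MvPolynomial (Fin n) B} (hp : Dl m p) (hq : Dl m q) :
    Dl m (p + q) := fun e he => by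
  rcases Finset.mem_union.1 (support_add he) with h | h
  · exact hp e h
  · exact hq e h

theorem Res1b_sum {m : ℕ} {ι : Type} (s : Finset ι) {p : ι → MvPolynomial (Fin n) B}
    (hp : ∀ i ∈ s, Dl m (p i)) : Dl m (∑ i ∈ s, p i) :=
  Finset.sum_induction p (Dl m) (fun _ _ => Res1b_add) (Res1b_zero m) hp

theorem Res1b_mul {a b : ℕ} {p q : MvPolynomial (Fin n) B} (hp : Dl (a + 1) p) (hq : Dl b q) :
    Dl (a + b) (p * q) := fun e he => by
  obtain ⟨x, hx, y, hy, rfl⟩ := Finset.mem_add.1 (support_mul p q he)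
  have h1 := hp x hx
  have h2 := hq y hy
  rw [map_add]
  omega

theorem Res1b_monomial {m : ℕ} {e : Fin n →₀ ℕ} (he : e.degree < m) (a : B) :
    Dl m (monomial e a) := fun e' he' => by
  rwa [Finset.mem_singleton.1 (support_monomial_subset he')]

theorem Res1b_C_mul {m : ℕ} {p : MvPolynomial (Fin n) B} (hp : Dl m p) (a : B) :
    Dl m (C a * p) := by
  have := Res1b_mul (a := 0) (Res1b_monomial (n := n) (e := 0) (by simp) a) hp
  rwa [zero_add] at this

theorem Res1b_totalDegree_lt {m : ℕ} {p : MvPolynomial (Fin n) B} (hp : Dl (m + 1) p) :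
    p.totalDegree < m + 1 :=
  Nat.lt_succ_of_le (Finset.sup_le fun e he => Nat.le_of_lt_succ (hp e he))

theorem Res1b_divdiff_monomial (c : Fin n → B) (a : B) (m : ℕ) :
    ∀ e : Fin n →₀ ℕ, e.degree < m + 1 →
      ∃ w : Fin n → MvPolynomial (Fin n) B, (∀ j, Dl m (w j)) ∧
        monomial e a = C (eval c (monomial e a)) + ∑ j, (X j - C (c j)) * w j := by
  have h0 : ∀ m, ∃ w : Fin n → MvPolynomial (Fin n) B, (∀ j, Dl m (w j)) ∧
      monomial 0 a = C (eval c (monomial 0 a)) + ∑ j, (X j - C (c j)) * w j := fun m =>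
    ⟨fun _ => 0, fun _ => Res1b_zero m, by simp⟩
  induction m with
  | zero =>
    intro e he
    rw [(Finsupp.degree_eq_zero_iff e).1 (by omega)]
    exact h0 0
  | succ m ih =>
    intro e he
    by_cases he0 : e = 0
    · rw [he0]
      exact h0 _
    obtain ⟨k, hk⟩ := Finsupp.ne_iff.1 he0
    obtain ⟨e', rfl⟩ : ∃ e', e = e' + Finsupp.single k 1 :=
      ⟨e - Finsupp.single k 1, (tsub_add_cancel_of_le
        (Finsupp.single_le_iff.2 (Nat.one_le_iff_ne_zero.2 hk))).symm⟩
    have he' : e'.degree < m + 1 := by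
      rw [map_add, Finsupp.degree_single] at he
      omega
    obtain ⟨w, hw, h⟩ := ih e' he'
    refine ⟨fun j => C (c k) * w j + if j = k then monomial e' a else 0, fun j => ?_, ?_⟩
    · refine Res1b_add (Res1b_C_mul (Res1b_mono (hw j) (Nat.le_succ m)) _) ?_
      split_ifs
      · exact Res1b_monomial he' a
      · exact Res1b_zero _
    · rw [monomial_add_single, pow_one, map_mul, eval_X, map_mul]
      simp only [mul_add, Finset.sum_add_distrib, mul_ite, mul_zero, Finset.sum_ite_eq',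
        Finset.mem_univ, if_true, mul_left_comm _ (C (c k)), ← Finset.mul_sum]
      linear_combination (C (c k)) * h

theorem Res1b_prod {ι : Type} (s : Finset ι) {d : ℕ} {p q : ι → MvPolynomial (Fin n) B}
    (hq : ∀ i, Dl (d + 1) (q i)) (hp : ∀ i, Dl d (p i - q i)) :
    Dl (s.card * d + 1) (∏ i ∈ s, p i) ∧ Dl (s.card * d) (∏ i ∈ s, p i - ∏ i ∈ s, q i) := by
  classical
  induction s using Finset.induction_on with
  | empty =>
    refine ⟨?_, by simpa using Res1b_zero 0⟩
    simpa using Res1b_monomial (n := n) (e := 0) (m := 1) (by simp) (1 : B)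
  | insert a s ha ih =>
    rw [Finset.prod_insert ha, Finset.prod_insert ha, Finset.card_insert_of_notMem ha]
    have h1 : Dl (d + 1) (p a) := by
      have := Res1b_add (Res1b_mono (hp a) (Nat.le_succ d)) (hq a)
      rwa [sub_add_cancel] at this
    refine ⟨Res1b_mono (Res1b_mul h1 ih.1) (le_of_eq (by ring)), ?_⟩
    rw [show p a * ∏ i ∈ s, p i - q a * ∏ i ∈ s, q i =
      (∏ i ∈ s, p i) * (p a - q a) + q a * (∏ i ∈ s, p i - ∏ i ∈ s, q i) by ring]
    exact Res1b_add (Res1b_mono (Res1b_mul ih.1 (hp a)) (le_of_eq (by ring)))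
      (Res1b_mono (Res1b_mul (hq a) ih.2) (le_of_eq (by ring)))

/-- divided differences with control of the degree -/
theorem exists_divdiff {m : ℕ} {h : MvPolynomial (Fin n) B} (hh : Dl (m + 1) h) (c : Fin n → B) :
    ∃ w : Fin n → MvPolynomial (Fin n) B, (∀ j, Dl m (w j)) ∧
      h = C (eval c h) + ∑ j, (X j - C (c j)) * w j := by
  have key : ∀ e ∈ h.support, ∃ w : Fin n → MvPolynomial (Fin n) B, (∀ j, Dl m (w j)) ∧
      monomial e (coeff e h) = C (eval c (monomial e (coeff e h))) +
        ∑ j, (X j - C (c j)) * w j := fun e he => Res1b_divdiff_monomial c _ m e (hh e he)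
  choose! w hw hw' using key
  refine ⟨fun j => ∑ e ∈ h.support, w e j, fun j => Res1b_sum _ fun e he => hw e he j, ?_⟩
  calc h = ∑ e ∈ h.support, monomial e (coeff e h) := h.as_sum
    _ = ∑ e ∈ h.support, (C (eval c (monomial e (coeff e h))) +
        ∑ j, (X j - C (c j)) * w e j) := Finset.sum_congr rfl hw'
    _ = _ := by
      rw [Finset.sum_add_distrib, ← map_sum, ← map_sum, ← h.as_sum, Finset.sum_comm]
      simp only [Finset.mul_sum]

theorem Dl.of_totalDegree_lt {m : ℕ} {h : MvPolynomial (Fin n) B} (hh : h.totalDegree < m) :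
    Dl m h := fun _ he => (le_totalDegree he).trans_lt hh

theorem Dl.pderiv {m : ℕ} {h : MvPolynomial (Fin n) B} (hh : Dl (m + 1) h) (j : Fin n) :
    Dl m (pderiv j h) := by
  rw [h.as_sum, map_sum]
  refine Res1b_sum _ fun e he => ?_
  rw [pderiv_monomial]
  rcases Nat.eq_zero_or_pos (e j) with h0 | h0
  · rw [h0, Nat.cast_zero, mul_zero, map_zero]
    exact Res1b_zero m
  · refine Res1b_monomial ?_ _
    have h1 := hh e he
    rw [← tsub_add_cancel_of_le (Finsupp.single_le_iff.2 h0 : Finsupp.single j 1 ≤ e), map_add,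
      Finsupp.degree_single] at h1
    omega

section
variable (hD : 1 ≤ D) (hg : ∀ i, (g i).totalDegree < D) {ρ : MvPolynomial (Fin n) B →ₗ[B] B}
  (hρ : ∀ h N, 1 ≤ N → h.totalDegree < N + n * (D - 1) → ρ h = rho u D g N h)
include hD hg hρ

theorem rhoL_det (c : Fin n → B) (M : Matrix (Fin n) (Fin n) (MvPolynomial (Fin n) B))
    (hM : ∀ i j, Dl (D - 1) (M i j - if i = j then C (c i) * X i ^ (D - 1) else 0)) :
    ρ M.det = u ^ n * ∏ i, c i := by
  have _ := hD
  have _ := hg
  let T : Matrix (Fin n) (Fin n) (MvPolynomial (Fin n) B) :=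
    Matrix.diagonal fun i => C (c i) * X i ^ (D - 1)
  have hT : ∀ i j, Dl (D - 1 + 1) (T i j) := fun i j => by
    simp only [T, Matrix.diagonal_apply]
    split_ifs
    · rw [X_pow_eq_monomial]
      exact Res1b_C_mul (Res1b_monomial (by rw [Finsupp.degree_single]; omega) _) _
    · exact Res1b_zero _
  have hMT : ∀ i j, Dl (D - 1) (M i j - T i j) := fun i j => by
    simpa only [T, Matrix.diagonal_apply] using hM i j
  have hdeg : (rtop D (fun _ : Fin n => 0)).degree = n * (D - 1) := by
    simp [Finsupp.degree_eq_sum, rtop]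
  have hdet : T.det = monomial (rtop D (fun _ : Fin n => 0)) (∏ i, c i) := by
    rw [Matrix.det_diagonal, monomial_eq, Finsupp.prod_fintype _ _ (by simp),
      Finset.prod_mul_distrib, map_prod]
    simp [rtop]
  have h1 : Dl (n * (D - 1)) (M.det - T.det) := by
    rw [Matrix.det_apply', Matrix.det_apply', ← Finset.sum_sub_distrib]
    refine Res1b_sum _ fun σ _ => ?_
    rw [← mul_sub, ← map_intCast (C : B →+* MvPolynomial (Fin n) B)]
    have := (Res1b_prod Finset.univ (fun i => hT (σ i) i) (fun i => hMT (σ i) i)).2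
    rw [Finset.card_univ, Fintype.card_fin] at this
    exact Res1b_C_mul this _
  have h2 : Dl (n * (D - 1) + 1) M.det := by
    have := Res1b_add (Res1b_mono h1 (Nat.le_succ _))
      (hdet ▸ Res1b_monomial (m := n * (D - 1) + 1) (by omega) (∏ i, c i))
    rwa [sub_add_cancel] at this
  have h3 : coeff (rtop D (fun _ : Fin n => 0)) M.det = ∏ i, c i := by
    have : coeff (rtop D (fun _ : Fin n => 0)) (M.det - T.det) = 0 := by
      by_contra hc
      have := h1 _ (mem_support_iff.2 hc)
      omega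
    rw [coeff_sub, hdet, coeff_monomial, if_pos rfl, sub_eq_zero] at this
    exact this
  rw [hρ _ 1 le_rfl (by have := Res1b_totalDegree_lt h2; omega), rho, Fintype.sum_unique, ← h3]
  simp [rterm]

end

end Crest.Agent.R316
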