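import Crest.Agent.R316.Res1b
import Crest.Agent.R316.Eig

/-!
# Row 316 (S0488): Res2
The trace formula `Tr_A(h) = ρ(h J)` for `A = ℂ[X]/(f₁,…,fₙ)`, `fᵢ = a Xᵢ^D - gᵢ`, `u = a⁻¹`.
Let `π : ℂ[X] → A`, `ȳ j = π (X j)`, and work in `A[X]` with the residue `ρ_A` of the mapped system
(`exists_rhoL`, `map_rho`; `totalDegree_map_le`-type bounds).  Since `fᵢ(ȳ) = 0`,
`fᵢ = ∑_j (X j - ȳ j) G i j` with `G i j = [i=j] a (Xᵢ^D - ȳᵢ^D)/(Xᵢ - ȳᵢ) - w i j` (`exists_divdiff` for `gᵢ`,
and `Commute.geom_sum₂`/`geom_sum₂` for the power; `G i j - [i=j] a Xᵢ^(D-1)` is in `Dl (D-1)`).  `Δ = det G`.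
Adjugate: `(X j - ȳ j) Δ ∈ (f₁,…,fₙ)`, so `ρ_A ((X j - ȳ j) q Δ) = 0` (`rhoL_mul_f`), `ρ_A Δ = 1` (`rhoL_det`),
hence `ρ_A (H Δ) = H(ȳ)` for all `H ∈ A[X]` (`exists_divdiff` for `H`).  Write `Δ = ∑_e monomial e δ_e`:
`π w = ∑_e ρ(w X^e) • δ_e` for all `w ∈ ℂ[X]`.  So `A` is spanned by the `δ_e` (finite dimensional), and
multiplication by `π h` is `∑_e (ρ̄ (π(h X^e) · _)) ⊗ δ_e` (`ρ̄ : A → ℂ` induced by `ρ`), whose trace is
`∑_e ρ̄(π(h X^e) δ_e) = ρ̄ (π h * Δ(ȳ))` (`LinearMap.trace_smulRight`), and `Δ(ȳ) = π J` because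
`G i j (ȳ) = ∂_j fᵢ (ȳ)` (differentiate the identity).  `finrank A = Tr 1 = ρ J = D^n` (`rhoL_det` with
`cᵢ = a D`).  Finally `exists_eig` for multiplication by `π h`; it is not injective iff `π h` is not a unit
iff `π h` lies in a maximal ideal `𝔪`, `A/𝔪 = ℂ` (finite over the algebraically closed `ℂ`:
`IsAlgClosed.algebraMap_bijective_of_isIntegral`), which gives the point `ξ`; conversely a point gives a
character of `A` killing `π h`.
-/

set_option autoImplicit false

open MvPolynomial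

noncomputable section

namespace Crest.Agent.R316

/-- the Jacobian determinant of the system -/
def jac {B : Type} [CommRing B] {n : ℕ} (a : B) (D : ℕ) (g : Fin n → MvPolynomial (Fin n) B) :
    MvPolynomial (Fin n) B := Matrix.det (Matrix.of fun i j => pderiv j (C a * X i ^ D - g i))

section aux
variable {B : Type} [CommRing B] {n : ℕ} {u a : B} {D : ℕ} {g : Fin n → MvPolynomial (Fin n) B}

theorem res2_Dl_neg {m : ℕ} {h : MvPolynomial (Fin n) B} (hh : Dl m h) : Dl m (-h) :=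
  fun e he => hh e (by simpa using he)

theorem res2_deg_le {m : ℕ} {h : MvPolynomial (Fin n) B} (hh : Dl (m + 1) h) : h.totalDegree ≤ m :=
  Finset.sup_le fun e he => Nat.lt_succ_iff.mp (hh e he)

theorem res2_deg_C_mul_pow (c : B) (i : Fin n) (k : ℕ) :
    (C c * X i ^ k : MvPolynomial (Fin n) B).totalDegree ≤ k := by
  rw [← smul_eq_C_mul, X_pow_eq_monomial]
  exact (totalDegree_smul_le _ _).trans ((totalDegree_monomial_le _ _).trans (by simp))

theorem res2_deg_map {B' : Type} [CommRing B'] (φ : B →+* B') (w : MvPolynomial (Fin n) B) :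
    (map φ w).totalDegree ≤ w.totalDegree := Finset.sup_mono (support_map_subset _ _)

theorem res2_map_jac {B' : Type} [CommRing B'] (φ : B →+* B') :
    map φ (jac a D g) = jac (φ a) D fun i => map φ (g i) := by
  rw [jac, jac, RingHom.map_det]
  congr 1
  ext1 i j
  simp only [RingHom.mapMatrix_apply, Matrix.map_apply, Matrix.of_apply, ← pderiv_map, map_sub,
    map_mul, map_C, map_pow, map_X]

theorem res2_deg_jac (hD : 1 ≤ D) (hg : ∀ i, (g i).totalDegree < D) :
    (jac a D g).totalDegree ≤ n * (D - 1) := by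
  obtain ⟨m, rfl⟩ : ∃ m, D = m + 1 := ⟨D - 1, by omega⟩
  have h1 : ∀ i j, (pderiv j (C a * X i ^ (m + 1) - g i)).totalDegree ≤ m := fun i j =>
    res2_deg_le (Dl.pderiv (Dl.of_totalDegree_lt (Nat.lt_succ_of_le ((totalDegree_sub _ _).trans
      (max_le (res2_deg_C_mul_pow _ _ _) (hg i).le)))) j)
  rw [jac, Matrix.det_apply]
  refine totalDegree_finsetSum_le fun σ _ => (totalDegree_smul_le _ _).trans
    ((totalDegree_finsetProd _ _).trans ((Finset.sum_le_sum fun i _ => h1 _ _).trans (by simp)))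

variable (hD : 1 ≤ D) (hg : ∀ i, (g i).totalDegree < D) {ρ : MvPolynomial (Fin n) B →ₗ[B] B}
  (hρ : ∀ h N, 1 ≤ N → h.totalDegree < N + n * (D - 1) → ρ h = rho u D g N h) (hu : u * a = 1)
include hD hg hρ hu

theorem res2_rho_jac : ρ (jac a D g) = (D : B) ^ n := by
  obtain ⟨m, rfl⟩ : ∃ m, D = m + 1 := ⟨D - 1, by omega⟩
  rw [jac, rhoL_det hD hg hρ (fun _ => a * (m + 1 : ℕ))]
  · rw [Finset.prod_const, Finset.card_univ, Fintype.card_fin, ← mul_pow, ← mul_assoc, hu, one_mul]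
  · intro i j
    have e : pderiv j (C a * X i ^ (m + 1) - g i) - (if i = j then C (a * (m + 1 : ℕ)) * X i ^ m else 0)
        = -pderiv j (g i) := by
      rw [map_sub, pderiv_C_mul, pderiv_pow, pderiv_X]
      by_cases h : i = j
      · subst h; simp; ring
      · simp [h]
    rw [Matrix.of_apply, Nat.add_sub_cancel, e]
    exact res2_Dl_neg ((Dl.of_totalDegree_lt (hg i)).pderiv j)

/-- the Bezoutian -/
theorem res2_bezout (y : Fin n → B) (hy : ∀ i, a * y i ^ D = eval y (g i)) :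
    ∃ Δ : MvPolynomial (Fin n) B, (∀ H, ρ (H * Δ) = eval y H) ∧ eval y Δ = eval y (jac a D g) := by
  obtain ⟨m, rfl⟩ : ∃ m, D = m + 1 := ⟨D - 1, by omega⟩
  have h1 : ∀ i, ∃ w : Fin n → MvPolynomial (Fin n) B, (∀ j, Dl m (w j)) ∧
      g i - C (a * y i) * X i ^ m = ∑ j, (X j - C (y j)) * w j := fun i => by
    obtain ⟨w, h1, h2⟩ := exists_divdiff (m := m) (h := g i - C (a * y i) * X i ^ m)
      (Dl.of_totalDegree_lt ((totalDegree_sub _ _).trans_lt
        (max_lt (hg i) (Nat.lt_succ_of_le (res2_deg_C_mul_pow _ _ _))))) y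
    refine ⟨w, h1, h2.trans ?_⟩
    have : eval y (g i - C (a * y i) * X i ^ m) = 0 := by
      simp only [map_sub, map_mul, eval_C, map_pow, eval_X, ← hy i]; ring
    rw [this, map_zero, zero_add]
  choose w hw1 hw2 using h1
  obtain ⟨G, hG⟩ : ∃ G : Matrix (Fin n) (Fin n) (MvPolynomial (Fin n) B),
    ∀ i j, G i j = (if i = j then C a * X i ^ m else 0) - w i j := ⟨Matrix.of _, fun _ _ => rfl⟩
  have h2 : ∀ i, C a * X i ^ (m + 1) - g i = ∑ j, G i j * (X j - C (y j)) := fun i => by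
    simp only [hG, sub_mul (ite _ _ _), Finset.sum_sub_distrib, ite_mul, zero_mul, Finset.sum_ite_eq,
      Finset.mem_univ, if_true, mul_comm (w i _), ← hw2, map_mul]
    ring
  have h3 : ρ G.det = 1 := by
    rw [rhoL_det hD hg hρ (fun _ => a) G fun i j => ?_]
    · rw [Finset.prod_const, Finset.card_univ, Fintype.card_fin, ← mul_pow, hu, one_pow]
    · rw [hG, Nat.add_sub_cancel, sub_sub_cancel_left]
      exact res2_Dl_neg (hw1 i j)
  have h4 : ∀ j q, ρ ((X j - C (y j)) * q * G.det) = 0 := fun j q => by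
    have e1 : G.mulVec (fun j => X j - C (y j)) = fun i => C a * X i ^ (m + 1) - g i :=
      funext fun i => (h2 i).symm
    have e2 := congrFun (congrArg G.adjugate.mulVec e1) j
    rw [Matrix.mulVec_mulVec, Matrix.adjugate_mul, Matrix.smul_mulVec, Matrix.one_mulVec] at e2
    have e3 : (X j - C (y j)) * q * G.det =
        ∑ i, q * G.adjugate j i * (C a * X i ^ (m + 1) - g i) := by
      simp only [mul_assoc q, ← Finset.mul_sum]
      rw [mul_comm _ q, mul_assoc, mul_comm _ G.det]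
      exact congrArg _ e2
    rw [e3, map_sum]
    exact Finset.sum_eq_zero fun i _ => rhoL_mul_f hD hg hρ hu _ i
  refine ⟨G.det, fun H => ?_, ?_⟩
  · obtain ⟨q, -, hq⟩ := exists_divdiff (Dl.of_totalDegree_lt (Nat.lt_succ_self H.totalDegree)) y
    conv_lhs => rw [hq]
    rw [add_mul, Finset.sum_mul, map_add, map_sum, Finset.sum_eq_zero fun j _ => h4 j _,
      ← smul_eq_C_mul, map_smul, h3, smul_eq_mul, mul_one, add_zero]
  · rw [jac, RingHom.map_det, RingHom.map_det]
    congr 1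
    ext i j
    simp only [RingHom.mapMatrix_apply, Matrix.map_apply, Matrix.of_apply, h2, map_sum, pderiv_mul,
      map_add, map_mul, map_sub, eval_X, eval_C, sub_self, mul_zero, zero_add, pderiv_X, pderiv_C,
      sub_zero]
    rw [Finset.sum_eq_single j]
    · simp
    · intro k _ hk; simp [hk]
    · simp

end aux

/-- the trace of a multiplication operator from a reproducing formula -/
theorem res2_trace {A ι : Type} [CommRing A] [Algebra ℂ A] (s : Finset ι) (m δ : ι → A)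
    (r : A →ₗ[ℂ] ℂ) (h : ∀ z, z = ∑ e ∈ s, r (z * m e) • δ e) : ∃ _ : FiniteDimensional ℂ A,
    ∀ x, LinearMap.trace ℂ A (LinearMap.mulLeft ℂ x) = r (x * ∑ e ∈ s, δ e * m e) := by
  classical
  have hfin : FiniteDimensional ℂ A := ⟨⟨s.image δ, eq_top_iff.mpr fun z _ => by
    rw [h z]
    exact Submodule.sum_mem _ fun e he => Submodule.smul_mem _ _
      (Submodule.subset_span (Finset.mem_coe.mpr (Finset.mem_image_of_mem _ he)))⟩⟩
  refine ⟨hfin, fun x => ?_⟩
  have e : LinearMap.mulLeft ℂ x =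
      ∑ e ∈ s, (r ∘ₗ LinearMap.mulLeft ℂ (x * m e)).smulRight (δ e) := by
    ext z
    simp only [LinearMap.mulLeft_apply, LinearMap.sum_apply, LinearMap.smulRight_apply,
      LinearMap.comp_apply, mul_right_comm x _ z]
    exact h _
  rw [e, map_sum, Finset.mul_sum, map_sum]
  refine Finset.sum_congr rfl fun e _ => ?_
  rw [LinearMap.trace_smulRight, LinearMap.comp_apply, LinearMap.mulLeft_apply, mul_assoc,
    mul_comm (m e)]

theorem exists_eig_res {n D : ℕ} {a : ℂ} {g : Fin n → MvPolynomial (Fin n) ℂ} (ha : a ≠ 0)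
    (hD : 1 ≤ D) (hg : ∀ i, (g i).totalDegree < D) (h : MvPolynomial (Fin n) ℂ) :
    ∃ lam : Fin (D ^ n) → ℂ,
      (∀ j N : ℕ, j * h.totalDegree < N → rho a⁻¹ D g N (h ^ j * jac a D g) = ∑ i, lam i ^ j) ∧
      ((∃ i, lam i = 0) ↔ ∃ ξ : Fin n → ℂ, (∀ i, a * ξ i ^ D = eval ξ (g i)) ∧ eval ξ h = 0) := by
  obtain ⟨ρ, hρ⟩ := exists_rhoL a⁻¹ hD hg
  have hu : a⁻¹ * a = 1 := inv_mul_cancel₀ ha
  let I : Ideal (MvPolynomial (Fin n) ℂ) := Ideal.span (Set.range fun i => C a * X i ^ D - g i)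
  let A := MvPolynomial (Fin n) ℂ ⧸ I
  let π : MvPolynomial (Fin n) ℂ →ₐ[ℂ] A := Ideal.Quotient.mkₐ ℂ I
  have hπ : Function.Surjective π := Ideal.Quotient.mkₐ_surjective ℂ I
  have hπ0 : ∀ w, π w = 0 ↔ w ∈ I := fun w => Ideal.Quotient.eq_zero_iff_mem
  have hI : ∀ i, C a * X i ^ D - g i ∈ I := fun i => Ideal.subset_span ⟨i, rfl⟩
  have hρI : ∀ w ∈ I, ρ w = 0 := fun w hw => by
    obtain ⟨c, rfl⟩ := Ideal.mem_span_range_iff_exists_fun.mp hw
    rw [map_sum]
    exact Finset.sum_eq_zero fun i _ => rhoL_mul_f hD hg hρ hu _ i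
  obtain ⟨r, hr⟩ : ∃ r : A →ₗ[ℂ] ℂ, ∀ w, r (π w) = ρ w := by
    obtain ⟨t, ht⟩ := π.toLinearMap.exists_rightInverse_of_surjective
      (LinearMap.range_eq_top.mpr hπ)
    refine ⟨ρ ∘ₗ t, fun w => ?_⟩
    rw [LinearMap.comp_apply, ← sub_eq_zero, ← map_sub]
    refine hρI _ ((hπ0 _).mp ?_)
    rw [map_sub, sub_eq_zero]
    exact LinearMap.congr_fun ht (π w)
  have hg' : ∀ i, (map (algebraMap ℂ A) (g i)).totalDegree < D := fun i =>
    (res2_deg_map _ _).trans_lt (hg i)
  obtain ⟨ρA, hρA⟩ := exists_rhoL (algebraMap ℂ A a⁻¹) hD hg'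
  have hcomp : ∀ w, ρA (map (algebraMap ℂ A) w) = algebraMap ℂ A (ρ w) := fun w => by
    rw [hρ w (w.totalDegree + 1) (by omega) (by omega), map_rho,
      hρA _ (w.totalDegree + 1) (by omega) (by have := res2_deg_map (algebraMap ℂ A) w; omega)]
  have hev : ∀ w, eval (fun j => π (X j)) (map (algebraMap ℂ A) w) = π w := fun w => by
    rw [eval_map, ← aeval_def]
    exact DFunLike.congr_fun (algHom_ext (f := aeval fun j => π (X j)) (g := π) fun j => by simp) w
  obtain ⟨Δ, hΔ1, hΔ2⟩ := res2_bezout (a := algebraMap ℂ A a) hD hg' hρA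
    (by rw [← map_mul, hu, map_one]) (fun j => π (X j)) fun i => by
      have := (hπ0 _).mpr (hI i)
      rw [map_sub, map_mul, map_pow, sub_eq_zero, ← algebraMap_eq, AlgHom.commutes] at this
      rw [hev, this]
  have hmono : ∀ (e : Fin n →₀ ℕ) (c : A), monomial e c =
      c • map (algebraMap ℂ A) (monomial e 1) := fun e c => by
    rw [map_monomial, map_one, smul_monomial, smul_eq_mul, mul_one]
  have hJ : ∑ e ∈ Δ.support, coeff e Δ * π (monomial e 1) = π (jac a D g) := by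
    rw [← hev, res2_map_jac, ← hΔ2]
    conv_rhs => rw [Δ.as_sum, map_sum]
    refine Finset.sum_congr rfl fun e _ => ?_
    rw [hmono e (coeff e Δ), smul_eq_C_mul, map_mul, eval_C, hev]
  obtain ⟨_, htr⟩ := res2_trace Δ.support (fun e => π (monomial e 1)) (fun e => coeff e Δ) r fun z => by
    obtain ⟨w, rfl⟩ := hπ z
    conv_lhs => rw [← hev, ← hΔ1, Δ.as_sum, Finset.mul_sum, map_sum]
    refine Finset.sum_congr rfl fun e _ => ?_
    rw [hmono e (coeff e Δ), mul_smul_comm, map_smul, ← map_mul, hcomp, ← map_mul, hr,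
      Algebra.smul_def (ρ _), smul_eq_mul, mul_comm]
  rw [hJ] at htr
  have hfin : Module.finrank ℂ A = D ^ n := by
    have := htr 1
    rw [LinearMap.mulLeft_one, LinearMap.trace_id, one_mul, hr, res2_rho_jac hD hg hρ hu] at this
    exact_mod_cast this
  have key := exists_eig (LinearMap.mulLeft ℂ (π h))
  rw [hfin] at key
  obtain ⟨lam, h1, h2⟩ := key
  refine ⟨lam, fun j N hN => ?_, h2.trans ⟨fun hni => ?_, ?_⟩⟩
  · rw [← h1, LinearMap.pow_mulLeft, htr, ← map_pow, ← map_mul, hr, hρ _ N (by omega)]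
    have b1 := totalDegree_mul (h ^ j) (jac a D g)
    have b2 := totalDegree_pow h j
    have b3 := res2_deg_jac (a := a) hD hg
    omega
  · have hne : I ⊔ Ideal.span {h} ≠ ⊤ := fun htop => hni (by
      obtain ⟨x, hx, y, hy, hxy⟩ := Submodule.mem_sup.mp ((Ideal.eq_top_iff_one _).mp htop)
      obtain ⟨c, rfl⟩ := Ideal.mem_span_singleton'.mp hy
      have := congrArg π hxy
      rw [map_add, (hπ0 x).mpr hx, zero_add, map_mul, map_one] at this
      exact (IsUnit.of_mul_eq_one_right _ this).mul_right_injective)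
    obtain ⟨M, hM, hle⟩ := Ideal.exists_le_maximal _ hne
    obtain ⟨ξ, rfl⟩ := isMaximal_iff_eq_vanishingIdeal_singleton.mp hM
    refine ⟨ξ, fun i => ?_, (mem_vanishingIdeal_singleton_iff ξ _).mp
      (hle (Ideal.mem_sup_right (Ideal.mem_span_singleton_self h)))⟩
    have := (mem_vanishingIdeal_singleton_iff ξ _).mp (hle (Ideal.mem_sup_left (hI i)))
    simpa [sub_eq_zero] using this
  · rintro ⟨ξ, hξ, hh⟩ hinj
    obtain ⟨z, hz⟩ := LinearMap.injective_iff_surjective.mp hinj 1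
    obtain ⟨w, rfl⟩ := hπ z
    rw [LinearMap.mulLeft_apply, ← map_mul, ← map_one π, ← sub_eq_zero, ← map_sub, hπ0] at hz
    obtain ⟨c, hc⟩ := Ideal.mem_span_range_iff_exists_fun.mp hz
    have := congrArg (eval ξ) hc
    simp [hξ, hh] at this

end Crest.Agent.R316
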