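import Crest.Agent.R316.Root0
import Crest.Agent.R316.Gap

/-!
# Row 316 (S0488): Root
Rational approximations of the real roots.
`exists_re_im`: `re = ∑_{k<D} (-1)^k coeff (2k)`, `im = ∑_{k<D} (-1)^k coeff (2k+1)` (`EV.exists_natDegree_lt`).
`exists_approx`: `Λ` from `exists_sep`; the name `c` codes `t = c / (Λ+1)`, `k = c % (Λ+1)`, `b = (Λ²+1)(Λ+1)`; index
the families by `(a, c)`.  Rings `R₁ = ℤ[I]`, `R₂ = R₁[ξ]`, `R₂[η]`.  `exists_sum_roots` for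
`rkA Λ L t (C (C X)) (C X - X)`, `rkB …` (unfold `nwP`; ring homomorphisms commute with `rkA`, `rkB`: `map_rkA`) gives
`U, V ∈ R₂` with `U(ρ i)/V(ρ i) = rkN i` (`φ = eval₂RingHom (zev I) (ρ i)`).  Then `rkWt i = V/(V + T₀ (U - k V))` at
`ρ i`; two more applications of `exists_sum_roots` (numerators `X * V` and `V`, `φ = zev I`) give
`A₁/B₁`, `A₂/B₂`, and `X = A₁ B₂/(B₁ A₂)`; real part through `exists_re_im`:
`A = re n re d + im n im d`, `B = (re d)² + (im d)²`; `|re X - ξ| ≤ ‖X - ξ‖`; `rank_approx`.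
-/

set_option autoImplicit false

open Polynomial

noncomputable section

namespace Crest.Agent.R316

open Crest.Agent.Lib.PolyTime
variable {α R S : Type} [Enc α] [CommRing R] [PR R] [CommRing S] [PR S]


theorem Root_zev_ofReal (ξ : ℝ) (f : ℤ[X]) : zev (ξ : ℂ) f = ((zev ξ f : ℝ) : ℂ) := by
  have h := Polynomial.hom_eval₂ f (Int.castRingHom ℝ) Complex.ofRealHom ξ
  rw [RingHom.ext_int (Complex.ofRealHom.comp (Int.castRingHom ℝ)) (Int.castRingHom ℂ)] at h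
  exact h.symm

theorem Root_re_div {nr ni dr di : ℤ} (h : (dr : ℂ) + di * Complex.I ≠ 0) :
    0 < dr * dr + di * di ∧ (((nr : ℂ) + ni * Complex.I) / (dr + di * Complex.I)).re =
      ((nr * dr + ni * di : ℤ) : ℝ) / ((dr * dr + di * di : ℤ) : ℝ) := by
  have h1 : Complex.normSq ((dr : ℂ) + di * Complex.I) = ((dr * dr + di * di : ℤ) : ℝ) := by
    rw [Complex.normSq_apply]; simp
  refine ⟨?_, ?_⟩
  · have h2 := Complex.normSq_pos.2 h
    rw [h1] at h2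
    exact_mod_cast h2
  · rw [Complex.div_re, h1, ← add_div]
    simp

theorem exists_approx {ψ : α → ℤ[X]} {L : α → ℕ} (hψ : EV ψ) (h0 : ∀ a, ψ a ≠ 0) (hL : CF L) :
    ∃ (A B : α × ℕ → ℤ) (b : α → ℕ), EV A ∧ EV B ∧ CF b ∧ ∀ a (ξ : ℝ), zev ξ (ψ a) = 0 →
      ∃ c < b a, 0 < B (a, c) ∧ |(A (a, c) : ℝ) / B (a, c) - ξ| ≤ ((2 : ℝ) ^ L a)⁻¹ := by
  obtain ⟨Λ, hΛ, hsep⟩ := exists_sep hψ h0
  have hΛ' : CF fun x : α × ℕ => Λ x.1 := by fun_prop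
  have hL' : CF fun x : α × ℕ => L x.1 := by fun_prop
  have ht : CF fun x : α × ℕ => x.2 / (Λ x.1 + 1) := by fun_prop
  have hk : CF fun x : α × ℕ => x.2 % (Λ x.1 + 1) := by fun_prop
  have hψ' : EV fun x : α × ℕ => ψ x.1 := hψ.comp (by fun_prop)
  have h0' : ∀ x : α × ℕ, ψ x.1 ≠ 0 := fun x => h0 x.1
  obtain ⟨U, V, hU, hV, hUV⟩ := exists_sum_roots (R := ℤ[X][X]) hψ' h0'
    (EV.rkA hΛ' hL' ht (EV.const (C (C X))) (EV.const (C X - X)))
    (EV.rkB hΛ' hL' ht (EV.const (C (C X))) (EV.const (C X - X)))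
  have hDen : EV fun x : α × ℕ => V x + 2 ^ (2 * (Λ x.1 + L x.1 + 10)) *
      (U x - ((x.2 % (Λ x.1 + 1) : ℕ) : ℤ[X][X]) * V x) :=
    hV.add ((EV.two_pow (by fun_prop)).mul (hU.sub ((EV.natCast hk).mul hV)))
  obtain ⟨A₁, B₁, hA₁, hB₁, h₁⟩ := exists_sum_roots (R := ℤ[X]) hψ' h0' (EV.X.mul hV) hDen
  obtain ⟨A₂, B₂, hA₂, hB₂, h₂⟩ := exists_sum_roots (R := ℤ[X]) hψ' h0' hV hDen
  obtain ⟨nr, ni, hnr, hni, hn⟩ := exists_re_im (hA₁.mul hB₂)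
  obtain ⟨dr, di, hdr, hdi, hd⟩ := exists_re_im (hB₁.mul hA₂)
  refine ⟨fun x => nr x * dr x + ni x * di x, fun x => dr x * dr x + di x * di x,
    fun a => (Λ a * Λ a + 1) * (Λ a + 1), (hnr.mul hdr).add (hni.mul hdi),
    (hdr.mul hdr).add (hdi.mul hdi), by fun_prop, fun a ξ hξ => ?_⟩
  obtain ⟨ρ, hρ⟩ := exists_enum (h0 a)
  obtain ⟨-, hdeg, hbd, hs⟩ := hsep a
  have hroot : ∀ i, zev (ρ i) (ψ a) = 0 := fun i => (hρ.root_iff (h0 a) _).2 ⟨i, rfl⟩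
  obtain ⟨i₀, hi₀⟩ := (hρ.root_iff (h0 a) (ξ : ℂ)).1 (by rw [Root_zev_ofReal, hξ]; simp)
  obtain ⟨t, ht', k, hk', r1, r2, r3, r4⟩ := rank_approx (L := L a) hdeg (fun i => hbd _ (hroot i))
    (fun i j hij => hs _ _ (hroot i) (hroot j) hij) i₀
  have e1 : (t * (Λ a + 1) + k) / (Λ a + 1) = t := by
    rw [mul_comm, Nat.mul_add_div (by omega), Nat.div_eq_of_lt (by omega), add_zero]
  have e2 : (t * (Λ a + 1) + k) % (Λ a + 1) = k := by
    rw [mul_comm, Nat.mul_add_mod, Nat.mod_eq_of_lt (by omega)]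
  obtain ⟨c, hc⟩ : ∃ c, c = t * (Λ a + 1) + k := ⟨_, rfl⟩
  rw [← hc] at e1 e2
  refine ⟨c, ?_, ?_⟩
  · have : t * (Λ a + 1) ≤ Λ a * Λ a * (Λ a + 1) := Nat.mul_le_mul_right _ (by simpa [sq] using ht')
    show c < (Λ a * Λ a + 1) * (Λ a + 1)
    rw [hc, add_mul]; omega
  -- the rank as a rational function of the root
  have hA : ∀ i j, (rkA (Λ a) (L a) t (C (C X)) (C X - X) : ℤ[X][X][X]).eval₂
      (eval₂RingHom (zev Complex.I) (ρ i)) (ρ j) = rkA (Λ a) (L a) t Complex.I (ρ i - ρ j) :=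
    fun i j => by
      refine (map_rkA (K := ℤ[X][X][X])
        (eval₂RingHom (eval₂RingHom (zev Complex.I) (ρ i)) (ρ j)) _ _ _ _ _).trans ?_
      simp [zev]
  have hB : ∀ i j, (rkB (Λ a) (L a) t (C (C X)) (C X - X) : ℤ[X][X][X]).eval₂
      (eval₂RingHom (zev Complex.I) (ρ i)) (ρ j) = rkB (Λ a) (L a) t Complex.I (ρ i - ρ j) :=
    fun i j => by
      refine (map_rkB (K := ℤ[X][X][X])
        (eval₂RingHom (eval₂RingHom (zev Complex.I) (ρ i)) (ρ j)) _ _ _ _ _).trans ?_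
      simp [zev]
  have hN : ∀ i, (V (a, c)).eval₂ (zev Complex.I) (ρ i) ≠ 0 ∧
      (U (a, c)).eval₂ (zev Complex.I) (ρ i) / (V (a, c)).eval₂ (zev Complex.I) (ρ i) =
        rkN (Λ a) (L a) t ρ i := fun i => by
    have := hUV (a, c) _ ρ hρ (eval₂RingHom (zev Complex.I) (ρ i))
    simp only [e1, hA, hB, coe_eval₂RingHom] at this
    exact this (r1 i)
  have hD : ∀ i, (V (a, c) + 2 ^ (2 * (Λ a + L a + 10)) *
      (U (a, c) - (k : ℤ[X][X]) * V (a, c))).eval₂ (zev Complex.I) (ρ i) =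
      (V (a, c)).eval₂ (zev Complex.I) (ρ i) *
        (1 + 2 ^ (2 * (Λ a + L a + 10)) * (rkN (Λ a) (L a) t ρ i - k)) := fun i => by
    rw [← (hN i).2, ← coe_eval₂RingHom]
    simp only [map_add, map_mul, map_sub, map_pow, map_natCast, map_ofNat, coe_eval₂RingHom]
    field_simp [(hN i).1]
  have hD0 : ∀ i, (V (a, c) + 2 ^ (2 * (Λ a + L a + 10)) *
      (U (a, c) - (k : ℤ[X][X]) * V (a, c))).eval₂ (zev Complex.I) (ρ i) ≠ 0 := fun i => by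
    rw [hD]; exact mul_ne_zero (hN i).1 (r2 i)
  have g₁ := h₁ (a, c) _ ρ hρ (zev Complex.I)
  have g₂ := h₂ (a, c) _ ρ hρ (zev Complex.I)
  simp only [e2] at g₁ g₂
  obtain ⟨b₁, q₁⟩ := g₁ hD0
  obtain ⟨b₂, q₂⟩ := g₂ hD0
  have q₁' : zev Complex.I (A₁ (a, c)) / zev Complex.I (B₁ (a, c)) =
      ∑ i, ρ i * rkWt (Λ a) (L a) t k ρ i := by
    rw [q₁]
    refine Finset.sum_congr rfl fun i _ => ?_
    rw [hD, eval₂_mul, eval₂_X, rkWt]
    field_simp [(hN i).1, r2 i]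
  have q₂' : zev Complex.I (A₂ (a, c)) / zev Complex.I (B₂ (a, c)) =
      ∑ i, rkWt (Λ a) (L a) t k ρ i := by
    rw [q₂]
    refine Finset.sum_congr rfl fun i _ => ?_
    rw [hD, rkWt]
    field_simp [(hN i).1, r2 i]
  have a₂ : zev Complex.I (A₂ (a, c)) ≠ 0 := fun h => r3 (by rw [← q₂', h, zero_div])
  have hd' := hd (a, c)
  have hn' := hn (a, c)
  have hd0 : (dr (a, c) : ℂ) + di (a, c) * Complex.I ≠ 0 := by
    rw [← hd', map_mul]; exact mul_ne_zero b₁ a₂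
  obtain ⟨p1, p2⟩ := Root_re_div (nr := nr (a, c)) (ni := ni (a, c)) hd0
  refine ⟨p1, ?_⟩
  have p3 : ((nr (a, c) : ℂ) + ni (a, c) * Complex.I) / (dr (a, c) + di (a, c) * Complex.I) =
      (∑ i, ρ i * rkWt (Λ a) (L a) t k ρ i) / ∑ i, rkWt (Λ a) (L a) t k ρ i := by
    rw [← hd', ← hn', ← q₁', ← q₂', map_mul, map_mul]
    field_simp
  rw [← p3, hi₀] at r4
  refine le_trans ?_ ((Complex.abs_re_le_norm _).trans r4)
  rw [Complex.sub_re, p2, Complex.ofReal_re]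

end Crest.Agent.R316
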