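import Crest.Agent.R316.Rank
import Crest.Agent.R316.Coeff

/-!
# Row 316 (S0488): Root0
Rational approximations of the real roots.
`exists_re_im`: `re = ∑_{k<D} (-1)^k coeff (2k)`, `im = ∑_{k<D} (-1)^k coeff (2k+1)` (`EV.exists_natDegree_lt`).
`exists_approx`: `Λ` from `exists_sep`; the name `c` codes `t = c / (Λ+1)`, `k = c % (Λ+1)`, `b = (Λ²+1)(Λ+1)`; index
the families by `(a, c)`.  Rings `R₁ = ℤ[I]`, `R₂ = R₁[ξ]`, `R₂[η]`.  `exists_sum_roots` for
`rkA Λ L t (C (C X)) (C X - X)`, `rkB …` (unfold `nwP`; ring homomorphisms commute with `rkA`, `rkB`: `map_rkA`) gives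
`U, V ∈ R₂` with `U(ρ i)/V(ρ i) = rkN i` (`φ = eval₂RingHom (zev I) (ρ i)`).  Then `rkWt i = V/(V + T₀ (U - k V))` at
`ρ i`; two more applications of `exists_sum_roots` (numerators `X * V` and `V`, `φ = zev I`) give
`A₁/B₁`, `A₂/B₂`, and `X = A₁ B₂/(B₁ A₂)`; real part through `exists_re_im`:
`A = re n re d + im n im d`, `B = (re d)² + (im d)²`; `|re X - ξ| ≤ ‖X - ξ‖`; `rank_approx`.
-/

set_option autoImplicit false

open Polynomial

noncomputable section

namespace Crest.Agent.R316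

open Crest.Agent.Lib.PolyTime
variable {α R S : Type} [Enc α] [CommRing R] [PR R] [CommRing S] [PR S]


theorem Root0_map_nwP {K K' : Type} [CommRing K] [CommRing K'] (φ : K →+* K') (L : ℕ) (w : K) :
    φ (nwP L w) = nwP L (φ w) := by
  simp only [nwP, map_prod, map_add, map_pow, map_ofNat]

theorem Root0_map_rkW {K K' : Type} [CommRing K] [CommRing K'] (φ : K →+* K') (Λ L t : ℕ)
    (I z : K) : φ (rkW Λ L t I z) = rkW Λ L t (φ I) (φ z) := by
  simp only [rkW, map_sub, map_mul, map_pow, map_ofNat, map_one, map_natCast]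

theorem map_rkA {K K' : Type} [CommRing K] [CommRing K'] (φ : K →+* K') (Λ L t : ℕ) (I z : K) :
    φ (rkA Λ L t I z) = rkA Λ L t (φ I) (φ z) := by
  rw [rkA, rkA, map_pow, Root0_map_nwP, Root0_map_rkW]
theorem map_rkB {K K' : Type} [CommRing K] [CommRing K'] (φ : K →+* K') (Λ L t : ℕ) (I z : K) :
    φ (rkB Λ L t I z) = rkB Λ L t (φ I) (φ z) := by
  rw [rkB, rkB, map_add, map_pow, map_pow, Root0_map_nwP, Root0_map_nwP, map_neg, Root0_map_rkW]

theorem Root0_EV_nwP {L : α → ℕ} {w : α → R} (hL : CF L) (hw : EV w) :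
    EV fun a => nwP (L a) (w a) :=
  EV.prod_range (n := fun a => L a + 1) (F := fun a k => 2 ^ k + w a) (by fun_prop)
    ((EV.two_pow (n := fun x : α × ℕ => x.2) (by fun_prop)).add
      (hw.comp (f := fun x : α × ℕ => x.1) (by fun_prop)))

theorem Root0_EV_rkW {Λ L t : α → ℕ} {I z : α → R} (hΛ : CF Λ) (hL : CF L) (ht : CF t) (hI : EV I)
    (hz : EV z) : EV fun a => rkW (Λ a) (L a) (t a) (I a) (z a) :=
  (((EV.two_pow (n := fun a => 2 * (Λ a + L a + 10) + 1) (by fun_prop)).mul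
    ((EV.const 1).sub ((EV.natCast ht).mul hI))).mul hz).sub (EV.const 1)

theorem Root0_CF_rkM {Λ L : α → ℕ} (hΛ : CF Λ) (hL : CF L) : CF fun a => rkM (Λ a) (L a) := by
  simp only [rkM, sq]
  fun_prop

theorem EV.rkA {Λ L t : α → ℕ} {I z : α → R} (hΛ : CF Λ) (hL : CF L) (ht : CF t) (hI : EV I)
    (hz : EV z) : EV fun a => rkA (Λ a) (L a) (t a) (I a) (z a) :=
  (Root0_EV_nwP (L := fun a => 4 * (Λ a + L a + 10) + 1) (by fun_prop)
    (Root0_EV_rkW hΛ hL ht hI hz)).pow (Root0_CF_rkM hΛ hL)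
theorem EV.rkB {Λ L t : α → ℕ} {I z : α → R} (hΛ : CF Λ) (hL : CF L) (ht : CF t) (hI : EV I)
    (hz : EV z) : EV fun a => rkB (Λ a) (L a) (t a) (I a) (z a) :=
  ((Root0_EV_nwP (L := fun a => 4 * (Λ a + L a + 10) + 1) (by fun_prop)
    (Root0_EV_rkW hΛ hL ht hI hz)).pow (Root0_CF_rkM hΛ hL)).add
  ((Root0_EV_nwP (L := fun a => 4 * (Λ a + L a + 10) + 1) (by fun_prop)
    (Root0_EV_rkW hΛ hL ht hI hz).neg).pow (Root0_CF_rkM hΛ hL))

theorem Root0_sum_two_mul {M : Type} [AddCommMonoid M] (f : ℕ → M) (D : ℕ) :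
    ∑ j ∈ Finset.range (2 * D), f j = ∑ k ∈ Finset.range D, (f (2 * k) + f (2 * k + 1)) := by
  induction D with
  | zero => simp
  | succ D ih =>
    rw [Nat.mul_succ, Finset.sum_range_succ, Finset.sum_range_succ, Finset.sum_range_succ, ih,
      add_assoc]

theorem exists_re_im {F : α → ℤ[X]} (hF : EV F) : ∃ re im : α → ℤ, EV re ∧ EV im ∧
    ∀ a, zev Complex.I (F a) = re a + im a * Complex.I := by
  obtain ⟨D, hD, h⟩ := hF.exists_natDegree_lt
  have h1 : EV fun x : α × ℕ => (-1 : ℤ) ^ x.2 := (EV.const (-1)).pow (by fun_prop)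
  have h2 : EV fun x : α × ℕ => F x.1 := hF.comp (by fun_prop)
  refine ⟨fun a => ∑ k ∈ Finset.range (D a), (-1) ^ k * (F a).coeff (2 * k),
    fun a => ∑ k ∈ Finset.range (D a), (-1) ^ k * (F a).coeff (2 * k + 1),
    EV.sum_range (F := fun a k => (-1) ^ k * (F a).coeff (2 * k)) hD
      (h1.mul (h2.coeff (k := fun x : α × ℕ => 2 * x.2) (by fun_prop))),
    EV.sum_range (F := fun a k => (-1) ^ k * (F a).coeff (2 * k + 1)) hD
      (h1.mul (h2.coeff (k := fun x : α × ℕ => 2 * x.2 + 1) (by fun_prop))), fun a => ?_⟩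
  have h3 : (F a).natDegree < 2 * D a := by have := h a; omega
  rw [zev, coe_eval₂RingHom, eval₂_eq_sum_range' _ h3, Root0_sum_two_mul]
  push_cast
  rw [Finset.sum_mul, ← Finset.sum_add_distrib]
  refine Finset.sum_congr rfl fun k _ => ?_
  rw [pow_succ, pow_mul, Complex.I_sq, eq_intCast, eq_intCast]
  ring

end Crest.Agent.R316
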