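import Crest.Agent.R316.Elim
import Crest.Agent.R316.CritA
import Crest.Agent.R316.CritS

/-!
# Row 316 (S0488): Sample
Sample points.  `exists_elim_crit` packages `exists_elim` for the critical points of `G + ε ∑_{i<n} Xᵢ^(2d)`:
`2d > totalDegree G`, `d ≥ 1`, `A = 2d ε`, `D = 2d - 1`, `gᵢ = -map Φ (pderiv i G)` (write the index as `min i n`;
`totalDegree (pderiv i G) < 2d - 1`: it is `0` or `≤ totalDegree G - 1`; to be safe take `2d ≥ totalDegree G + 2`).
`exists_sample`: `S = R[T][ε]`, `Φ = C ∘ C`, `h = ∏_{i<n} (C T - X i)`.  For `φ : R → ℂ` and `t, ε ∈ ℂ` use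
`φ' = eval₂RingHom (eval₂RingHom φ t) ε`.  Nonvanishing: `ε = 1`, `t` larger than the bound of
`exists_bound_roots`.  Samples: `exists_sample_seq`, `crit_of_isLocalMin` (cast to `ℂ` with `map_evl`,
`φ_ℂ = ofRealHom ∘ φ`), `eval_trailingCoeff_eq_zero`.
-/

set_option autoImplicit false

open Polynomial Filter Topology

noncomputable section

namespace Crest.Agent.R316

open Crest.Agent.Lib.PolyTime
variable {α R S : Type} [Enc α] [CommRing R] [PR R] [CommRing S] [PR S]


theorem Sample_totalDegree_pderiv_le {A : Type} [CommRing A] (i : ℕ) (f : MvPolynomial ℕ A) :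
    (MvPolynomial.pderiv i f).totalDegree ≤ f.totalDegree := by
  refine Finset.sup_le fun m hm => ?_
  have h1 : f.coeff (m + Finsupp.single i 1) ≠ 0 := fun h0 => by
    rw [MvPolynomial.mem_support_iff, MvPolynomial.coeff_pderiv, h0, zero_mul] at hm
    exact hm rfl
  refine le_trans ?_ (MvPolynomial.le_totalDegree (MvPolynomial.mem_support_iff.2 h1))
  rw [Finsupp.sum_add_index' (fun _ => rfl) (fun _ _ _ => rfl)]
  exact Nat.le_add_right _ _

theorem Sample_totalDegree_map_le {A B : Type} [CommRing A] [CommRing B] (Φ : A →+* B)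
    (f : MvPolynomial ℕ A) : (MvPolynomial.map Φ f).totalDegree ≤ f.totalDegree :=
  Finset.sup_mono (MvPolynomial.support_map_subset _ _)

theorem Sample_eval {A K : Type} [CommRing A] [CommRing K] (φ : A →+* K) (t ε : K) (χ : A[X][X]) :
    eval₂RingHom (eval₂RingHom φ t) ε χ = ((χ.map (mapRingHom φ)).eval (C ε)).eval t := by
  have h : eval₂RingHom (eval₂RingHom φ t) ε =
      (evalRingHom t).comp ((evalRingHom (C ε)).comp (mapRingHom (mapRingHom φ))) := by
    refine Polynomial.ringHom_ext' (Polynomial.ringHom_ext' ?_ ?_) ?_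
    · ext c; simp
    · simp
    · simp
  rw [h]; rfl

theorem Sample_map_eval {A K L : Type} [CommRing A] [CommRing K] [CommRing L] (φ : A →+* K)
    (θ : K →+* L) (t ε : K) (χ : A[X][X]) :
    θ (eval₂RingHom (eval₂RingHom φ t) ε χ) =
      eval₂RingHom (eval₂RingHom (θ.comp φ) (θ t)) (θ ε) χ := by
  have h : θ.comp (eval₂RingHom (eval₂RingHom φ t) ε) =
      eval₂RingHom (eval₂RingHom (θ.comp φ) (θ t)) (θ ε) := by
    refine Polynomial.ringHom_ext' (Polynomial.ringHom_ext' ?_ ?_) ?_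
    · ext c; simp
    · simp
    · simp
  rw [← h]; rfl

theorem Sample_comp {A K : Type} [CommRing A] [CommRing K] (φ : A →+* K) (t ε : K) :
    (eval₂RingHom (eval₂RingHom φ t) ε).comp ((C : A[X] →+* A[X][X]).comp (C : A →+* A[X])) = φ := by
  ext c; simp

theorem Sample_evl_prod {A K : Type} [CommRing A] [CommRing K] (φ : A →+* K) (t ε : K) {n : ℕ}
    (ξ : Fin n → K) :
    evl (eval₂RingHom (eval₂RingHom φ t) ε) ξ (∏ i ∈ Finset.range n,
      (MvPolynomial.C (C (X : A[X])) - MvPolynomial.X i : MvPolynomial ℕ (Polynomial A[X]))) =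
        ∏ i, (t - ξ i) := by
  rw [map_prod, Finset.prod_range]
  refine Finset.prod_congr rfl fun i _ => ?_
  rw [map_sub, evl_C, evl_X, ext0_val]
  simp

theorem exists_elim_crit {n : α → ℕ} {G : α → MvPolynomial ℕ R} (hn : CF n) (hn' : PB n)
    (hG : EV G) : ∃ d : α → ℕ, CF d ∧ (∀ a, 1 ≤ d a) ∧
      (∀ a i, (MvPolynomial.pderiv i (G a)).totalDegree < 2 * d a - 1) ∧
      ∀ (S : Type) [CommRing S] [PR S] (Φ : α → R →+* S) (e : α → S) (h : α → MvPolynomial ℕ S),
        EH Φ → EV e → EV h → ∃ N : α → S, EV N ∧ ∀ a (φ : S →+* ℂ), φ (e a) ≠ 0 →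
          (φ (N a) = 0 ↔ ∃ ξ : Fin (n a) → ℂ, (∀ i : Fin (n a),
            evl (φ.comp (Φ a)) ξ (MvPolynomial.pderiv (i : ℕ) (G a)) +
              φ (e a) * (2 * d a) * ξ i ^ (2 * d a - 1) = 0) ∧ evl φ ξ (h a) = 0) := by
  obtain ⟨H, hH, hH'⟩ := hG.exists_totalDegree_lt
  have hdeg : ∀ a i, (MvPolynomial.pderiv i (G a)).totalDegree < 2 * (H a + 1) - 1 := fun a i => by
    have h1 := Sample_totalDegree_pderiv_le i (G a)
    have h2 := hH' a
    omega
  refine ⟨fun a => H a + 1, by fun_prop, fun a => Nat.le_add_left _ _, hdeg, ?_⟩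
  intro S _ _ Φ e h hΦ he hh
  have hn1 : CF fun x : α × ℕ => n x.1 := hn.comp (by fun_prop)
  have hmin : CF fun x : α × ℕ => min x.2 (n x.1) :=
    (CF.of_PT (f := fun y : ℕ × ℕ => min y.1 y.2) (by fun_prop)).comp
      ((CF.of_PT (f := fun x : α × ℕ => x.2) (by fun_prop)).prodMk hn1)
  have hmin' : PB fun x : α × ℕ => min x.2 (n x.1) :=
    PB.min_right (hn'.comp (f := fun x : α × ℕ => x.1) (by fun_prop))
  have hG1 : EV fun x : α × ℕ => G x.1 := hG.comp (by fun_prop)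
  have hΦ1 : EH fun x : α × ℕ => Φ x.1 := hΦ.reindex (by fun_prop)
  have hg : EV fun x : α × ℕ =>
      -MvPolynomial.map (Φ x.1) (MvPolynomial.pderiv (min x.2 (n x.1)) (G x.1)) :=
    (EV.hom hΦ1.mvMap (hG1.pderiv hmin hmin')).neg
  have hd2 : CF fun a => 2 * (H a + 1) := by fun_prop
  have hD : CF fun a => 2 * (H a + 1) - 1 := by fun_prop
  have hA : EV fun a => e a * ((2 * (H a + 1) : ℕ) : S) := he.mul (EV.natCast hd2)
  obtain ⟨N, hN, hN'⟩ := exists_elim hn hn' hD (fun a => by omega) hA hg hh (fun a i _ => by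
    rw [MvPolynomial.totalDegree_neg]
    exact (Sample_totalDegree_map_le _ _).trans_lt (hdeg a _))
  refine ⟨N, hN, fun a φ hφ => ?_⟩
  have h1 : φ (e a * ((2 * (H a + 1) : ℕ) : S)) = φ (e a) * (2 * ((H a + 1 : ℕ) : ℂ)) := by
    rw [map_mul, map_natCast, Nat.cast_mul, Nat.cast_ofNat]
  have h2 : φ (e a * ((2 * (H a + 1) : ℕ) : S)) ≠ 0 := by
    rw [h1]
    exact mul_ne_zero hφ (mul_ne_zero two_ne_zero (Nat.cast_ne_zero.2 (by omega)))
  rw [hN' a φ h2]
  refine exists_congr fun ξ => and_congr_left fun _ => forall_congr' fun i => ?_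
  rw [h1, min_eq_left i.2.le, map_neg, evl_map]
  constructor
  · intro h3; rw [h3, add_neg_cancel]
  · intro h3; exact eq_neg_of_add_eq_zero_right h3

theorem exists_sample {n : α → ℕ} {G : α → MvPolynomial ℕ R} (hn : CF n) (hn' : PB n) (hG : EV G) :
    ∃ χ : α → R[X][X], EV χ ∧ (∀ a (φ : R →+* ℂ), (χ a).map (mapRingHom φ) ≠ 0) ∧
      ∀ a (φ : R →+* ℝ), (∀ y : Fin (n a) → ℝ, 0 ≤ evl φ y (G a)) →
        ∀ Z : Set (Fin (n a) → ℝ), Z.Nonempty → (∀ y ∈ Z, evl φ y (G a) = 0) → IsClosed Z →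
          IsClosed ({y | evl φ y (G a) = 0} \ Z) →
            ∃ y ∈ Z, ∀ i, ((χ a).map (mapRingHom φ)).trailingCoeff.eval (y i) = 0 := by
  obtain ⟨d, -, hd1, hdeg, hel⟩ := exists_elim_crit hn hn' hG
  have hh : EV fun a => ∏ i ∈ Finset.range (n a),
      (MvPolynomial.C (C (X : R[X])) - MvPolynomial.X i : MvPolynomial ℕ (Polynomial R[X])) :=
    EV.prod_range hn ((EV.const _).sub (EV.mvX (CF.of_PT (by fun_prop))))
  obtain ⟨χ, hχ, hχ'⟩ := hel R[X][X] (fun _ => (C : R[X] →+* R[X][X]).comp (C : R →+* R[X]))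
    (fun _ => X) _ (EH.C.comp EH.C) EV.X hh
  have key : ∀ a (φ : R →+* ℂ) (t ε : ℂ), ε ≠ 0 →
      (eval₂RingHom (eval₂RingHom φ t) ε (χ a) = 0 ↔ ∃ ξ : Fin (n a) → ℂ, (∀ i : Fin (n a),
        evl φ ξ (MvPolynomial.pderiv (i : ℕ) (G a)) + ε * (2 * d a) * ξ i ^ (2 * d a - 1) = 0) ∧
          ∃ i, t = ξ i) := fun a φ t ε hε => by
    have hX : eval₂RingHom (eval₂RingHom φ t) ε (X : R[X][X]) = ε := by simp
    rw [hχ' a _ (by rw [hX]; exact hε), Sample_comp, hX]
    refine exists_congr fun ξ => and_congr_right fun _ => ?_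
    rw [Sample_evl_prod, Finset.prod_eq_zero_iff]
    simp only [Finset.mem_univ, true_and, sub_eq_zero]
  refine ⟨χ, hχ, fun a φ h0 => ?_, fun a φ hG0 Z hne hZ hc hc' => ?_⟩
  · have ha : (2 * d a : ℂ) ≠ 0 :=
      mul_ne_zero two_ne_zero (Nat.cast_ne_zero.2 (by have := hd1 a; omega))
    obtain ⟨M, hM⟩ := exists_bound_roots φ (D := 2 * d a - 1) ha
      (fun i : Fin (n a) => -MvPolynomial.pderiv (i : ℕ) (G a)) fun i => by
        rw [MvPolynomial.totalDegree_neg]; exact hdeg a i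
    obtain ⟨ξ, h1, i, h2⟩ := (key a φ ((|M| + 1 : ℝ) : ℂ) 1 one_ne_zero).1 (by
      rw [Sample_eval, h0]; simp)
    have h3 := hM ξ (fun j => by
      have h4 := h1 j
      rw [one_mul] at h4
      rw [map_neg]
      exact eq_neg_of_add_eq_zero_right h4) i
    rw [← h2, Complex.norm_real, Real.norm_eq_abs, abs_of_nonneg (by positivity)] at h3
    linarith [le_abs_self M]
  · obtain ⟨y, hy, ε, z, hε, hε0, hz, hmin⟩ :=
      exists_sample_seq (continuous_evl φ (G a)) hG0 (hd1 a) hne hZ hc hc'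
    refine ⟨y, hy, fun i => eval_trailingCoeff_eq_zero _ (t := fun j => z j i)
      (fun j => (hε j).ne') hε0 (((continuous_apply i).tendsto y).comp hz) fun j => ?_⟩
    rw [← Sample_eval]
    refine Complex.ofReal_injective ?_
    have h1 := Sample_map_eval φ Complex.ofRealHom (z j i) (ε j) (χ a)
    rw [Complex.ofReal_zero]
    refine h1.trans ((key a _ _ _ ?_).2 ⟨fun l => Complex.ofRealHom (z j l), fun l => ?_, i, rfl⟩)
    · exact Complex.ofReal_ne_zero.2 (hε j).ne'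
    · have h2 := congrArg Complex.ofRealHom (crit_of_isLocalMin φ (G a) (d a) (ε j) (hmin j) l)
      rw [map_add, map_evl, map_zero, map_mul, map_mul, map_mul, map_pow, map_natCast,
        map_ofNat] at h2
      exact h2

end Crest.Agent.R316
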