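import Crest.Agent.R316.Defs

/-!
# Row 316 (S0488): SignA
The sign of a huge integer from its residues.  Let `|X| ≤ 2^2^k`, residues known for the primes `≥ 2^k`
(`k` majorised by a `PT` function: `PB.exists_PT`).  `hi = 2^(2(k + (k+3)) + 6)`, `𝒫` the primes in
`[2^k, hi)` (at least `2^(k+3) ≥ 2^k + 4` of them: `card_primes_ge`), `M = ∏ 𝒫 ≥ 16 |X|`.
For `q ∈ 𝒫`: `m_q ≡ M/q` (`CF.exists_prodMod` with the factor `if i.Prime ∧ 2^k ≤ i ∧ i ≠ q then i else 1`),
`u j q = (powMod 2 j q * x_q * powMod m_q (q-2) q) % q`.  CRT: `∑_q u j q * (M/q) ≡ 2^j X (mod M)`, so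
`∑_q u j q / q - 2^j X / M ∈ ℤ` (`crt_frac`).  `S j = ∑_q u j q * 2^s / q` (integer division, `2^s = 64 hi`),
`A j = S j % 2^s`; then `doubling` applies with `J = hi * hi` (`M ≤ hi^hi ≤ 2^J`).
`doubling`: by induction, as long as all `j' < j` are "near", `|t_j| ≤ 1/4` for `t_j = 2^j x`, and
`A j = N (t_j - e_j)` or `N (1 + t_j - e_j)` according to the sign of `t_j - e_j`.
Zero tests in `R[X]`: all coefficients below a degree bound vanish.  `natTrailingDegree` is a bounded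
minimum (`CF.sInf`), `natDegree f = sInf {d | d < D ∧ ∀ j < D, d < j → coeff j = 0}`.
-/

set_option autoImplicit false

open Polynomial

noncomputable section

namespace Crest.Agent.R316

open Crest.Agent.Lib.PolyTime
variable {α R S : Type} [Enc α] [CommRing R] [PR R] [CommRing S] [PR S]


theorem crt_frac (P : Finset ℕ) (hP : ∀ q ∈ P, q.Prime) (X : ℤ) (u : ℕ → ℕ)
    (hu : ∀ q ∈ P, (u q : ZMod q) * ∏ r ∈ P.erase q, (r : ZMod q) = (X : ZMod q)) :
    ∃ z : ℤ, ∑ q ∈ P, (u q : ℝ) / q = X / (∏ q ∈ P, (q : ℝ)) + z := by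
  have hdvd : ∀ q ∈ P, (q : ℤ) ∣ (∑ q ∈ P, (u q : ℤ) * ∏ r ∈ P.erase q, (r : ℤ)) - X := by
    intro q hq
    rw [← ZMod.intCast_zmod_eq_zero_iff_dvd]
    push_cast
    rw [Finset.sum_eq_single_of_mem q hq fun q' _ hne => by
      rw [Finset.prod_eq_zero (Finset.mem_erase.2 ⟨hne.symm, hq⟩) (ZMod.natCast_self q), mul_zero],
      hu q hq, sub_self]
  obtain ⟨z, hz⟩ := Finset.prod_dvd_of_coprime (fun q hq q' hq' hne =>
    Nat.isCoprime_iff_coprime.2 ((Nat.coprime_primes (hP q hq) (hP q' hq')).2 hne)) hdvd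
  refine ⟨z, ?_⟩
  have hpos : ∀ q ∈ P, (0 : ℝ) < q := fun q hq => by exact_mod_cast (hP q hq).pos
  have hM : (0 : ℝ) < ∏ q ∈ P, (q : ℝ) := Finset.prod_pos hpos
  have hz' : (∑ q ∈ P, (u q : ℝ) * ∏ r ∈ P.erase q, (r : ℝ)) - X = (∏ q ∈ P, (q : ℝ)) * z := by
    have := congrArg (Int.cast : ℤ → ℝ) hz
    push_cast at this
    exact this
  have e : ∑ q ∈ P, (u q : ℝ) / q =
      (∑ q ∈ P, (u q : ℝ) * ∏ r ∈ P.erase q, (r : ℝ)) / ∏ q ∈ P, (q : ℝ) := by
    rw [Finset.sum_div]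
    refine Finset.sum_congr rfl fun q hq => ?_
    rw [div_eq_div_iff (hpos q hq).ne' hM.ne', ← Finset.mul_prod_erase P _ hq]
    ring
  rw [e, sub_eq_iff_eq_add.1 hz']
  field_simp
  ring

theorem doubling (x : ℝ) (N J : ℕ) (A : ℕ → ℕ) (hN : 0 < N) (hx : |x| ≤ 1 / 16)
    (hJ : 0 < x → 1 ≤ 2 ^ J * x) (hA : ∀ j, A j < N)
    (h : ∀ j, ∃ (z : ℤ) (e : ℝ), 0 ≤ e ∧ e ≤ 1 / 64 ∧ (A j : ℝ) / N = 2 ^ j * x - e + z) :
    0 < x ↔ ∃ j < J + 1, (N < 16 * A j ∧ 2 * A j < N) ∧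
      ∀ j' < j, 16 * A j' ≤ N ∨ 15 * N ≤ 16 * A j' := by
  have hN' : (0 : ℝ) < N := by exact_mod_cast hN
  have cases : ∀ j, |2 ^ j * x| ≤ 1 / 4 → ∃ e : ℝ, 0 ≤ e ∧ e ≤ 1 / 64 ∧
      ((A j : ℝ) = N * (2 ^ j * x - e) ∨ (A j : ℝ) = N * (2 ^ j * x - e + 1)) := by
    intro j hj
    obtain ⟨z, e, h0, h1, h2⟩ := h j
    have a0 : (0 : ℝ) ≤ A j / N := by positivity
    have a1 : (A j : ℝ) / N < 1 := (div_lt_one hN').2 (by exact_mod_cast hA j)
    obtain ⟨h3, h4⟩ := abs_le.1 hj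
    have z0 : (-1 : ℤ) < z := by
      have : (-1 : ℝ) < z := by linarith
      exact_mod_cast this
    have z1 : z < 2 := by
      have : (z : ℝ) < 2 := by linarith
      exact_mod_cast this
    rw [div_eq_iff hN'.ne', mul_comm] at h2
    refine ⟨e, h0, h1, ?_⟩
    obtain rfl | rfl : z = 0 ∨ z = 1 := by omega
    · left
      simpa using h2
    · right
      simpa using h2
  have key : ∀ j, (∀ j' < j, 16 * A j' ≤ N ∨ 15 * N ≤ 16 * A j') → |2 ^ j * x| ≤ 1 / 4 := by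
    intro j
    induction j with
    | zero =>
      intro _
      rw [pow_zero, one_mul]
      linarith
    | succ j ih =>
      intro hj
      have h1 := ih fun j' hj' => hj j' (by omega)
      obtain ⟨e, h2, h3, h4⟩ := cases j h1
      obtain ⟨h5, h6⟩ := abs_le.1 h1
      have h7 : (16 * A j : ℝ) ≤ N ∨ (15 * N : ℝ) ≤ 16 * A j := by
        exact_mod_cast hj j (by omega)
      have a0 : (0 : ℝ) ≤ A j := Nat.cast_nonneg _
      have a1 : (A j : ℝ) < N := by exact_mod_cast hA j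
      have e2 : (2 : ℝ) ^ (j + 1) * x = 2 * (2 ^ j * x) := by ring
      rw [e2, abs_le]
      generalize (2 : ℝ) ^ j * x = t at *
      rcases h4 with h4 | h4 <;> rcases h7 with h7 | h7 <;> rw [h4] at h7 a0 a1 <;>
        constructor <;> nlinarith
  constructor
  · intro hx0
    have hex : ∃ j, j < J ∧ ¬ (16 * A j ≤ N ∨ 15 * N ≤ 16 * A j) := by
      by_contra hne
      have h1 := key J fun j hj => by
        by_contra h'
        exact hne ⟨j, hj, h'⟩
      have h2 := hJ hx0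
      have h3 := (abs_le.1 h1).2
      linarith
    classical
    have hmin : ∀ j' < Nat.find hex, 16 * A j' ≤ N ∨ 15 * N ≤ 16 * A j' := fun j' hj' => by
      by_contra h'
      exact Nat.find_min hex hj' ⟨hj'.trans (Nat.find_spec hex).1, h'⟩
    obtain ⟨h1, h2⟩ := Nat.find_spec hex
    refine ⟨Nat.find hex, by omega, ⟨by omega, ?_⟩, hmin⟩
    have h3 := key _ hmin
    obtain ⟨e, h4, h5, h6⟩ := cases _ h3
    have h7 : (16 * A (Nat.find hex) : ℝ) < 15 * N := by exact_mod_cast (by omega)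
    have h8 : (0 : ℝ) < 2 ^ Nat.find hex * x := by positivity
    have h9 := (abs_le.1 h3).2
    have : (2 * A (Nat.find hex) : ℝ) < N := by
      generalize (2 : ℝ) ^ Nat.find hex * x = t at *
      rcases h6 with h6 | h6 <;> rw [h6] at h7 ⊢ <;> nlinarith
    exact_mod_cast this
  · rintro ⟨j, -, ⟨h1, h2⟩, h3⟩
    have h4 := key j h3
    obtain ⟨e, h5, h6, h7⟩ := cases j h4
    have h1' : (N : ℝ) < 16 * A j := by exact_mod_cast h1
    have h2' : (2 * A j : ℝ) < N := by exact_mod_cast h2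
    have h8 := (abs_le.1 h4).1
    have : (0 : ℝ) < 2 ^ j * x := by
      generalize (2 : ℝ) ^ j * x = t at *
      rcases h7 with h7 | h7 <;> rw [h7] at h1' h2' <;> nlinarith
    exact (mul_pos_iff_of_pos_left (by positivity)).1 this

end Crest.Agent.R316
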