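import Crest.Agent.R316.Coeff
import Crest.Agent.R316.Primes
import Crest.Agent.R316.SignA

/-!
# Row 316 (S0488): Sign
The sign of a huge integer from its residues.  Let `|X| ≤ 2^2^k`, residues known for the primes `≥ 2^k`
(`k` majorised by a `PT` function: `PB.exists_PT`).  `hi = 2^(2(k + (k+3)) + 6)`, `𝒫` the primes in
`[2^k, hi)` (at least `2^(k+3) ≥ 2^k + 4` of them: `card_primes_ge`), `M = ∏ 𝒫 ≥ 16 |X|`.
For `q ∈ 𝒫`: `m_q ≡ M/q` (`CF.exists_prodMod` with the factor `if i.Prime ∧ 2^k ≤ i ∧ i ≠ q then i else 1`),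
`u j q = (powMod 2 j q * x_q * powMod m_q (q-2) q) % q`.  CRT: `∑_q u j q * (M/q) ≡ 2^j X (mod M)`, so
`∑_q u j q / q - 2^j X / M ∈ ℤ` (`crt_frac`).  `S j = ∑_q u j q * 2^s / q` (integer division, `2^s = 64 hi`),
`A j = S j % 2^s`; then `doubling` applies with `J = hi * hi` (`M ≤ hi^hi ≤ 2^J`).
`doubling`: by induction, as long as all `j' < j` are "near", `|t_j| ≤ 1/4` for `t_j = 2^j x`, and
`A j = N (t_j - e_j)` or `N (1 + t_j - e_j)` according to the sign of `t_j - e_j`.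
Zero tests in `R[X]`: all coefficients below a degree bound vanish.  `natTrailingDegree` is a bounded
minimum (`CF.sInf`), `natDegree f = sInf {d | d < D ∧ ∀ j < D, d < j → coeff j = 0}`.
-/

set_option autoImplicit false

open Polynomial

noncomputable section

namespace Crest.Agent.R316

open Crest.Agent.Lib.PolyTime
variable {α R S : Type} [Enc α] [CommRing R] [PR R] [CommRing S] [PR S]


/-- the primes in `[2^k, hi)` -/
def signP (k hi : ℕ) : Finset ℕ := (Finset.range hi).filter fun p => p.Prime ∧ 2 ^ k ≤ p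

theorem sign_prime {k hi q : ℕ} (hq : q ∈ signP k hi) : q.Prime := (Finset.mem_filter.1 hq).2.1

theorem sign_card_le (k hi : ℕ) : (signP k hi).card ≤ hi :=
  (Finset.card_filter_le _ _).trans (by simp)

theorem sign_pure (k hi : ℕ) (X : ℤ) (hX : X.natAbs ≤ 2 ^ 2 ^ k)
    (hhi : hi = 2 ^ (2 * (k + (k + 3)) + 6)) (u : ℕ → ℕ → ℕ)
    (hu : ∀ j, ∀ q ∈ signP k hi,
      (u j q : ZMod q) * ∏ r ∈ (signP k hi).erase q, (r : ZMod q) = ((2 ^ j * X : ℤ) : ZMod q))
    (A : ℕ → ℕ) (hA : ∀ j, A j = (∑ q ∈ signP k hi, u j q * (64 * hi) / q) % (64 * hi)) :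
    0 < X ↔ ∃ j < hi * hi + 1, (64 * hi < 16 * A j ∧ 2 * A j < 64 * hi) ∧
      ∀ j' < j, 16 * A j' ≤ 64 * hi ∨ 15 * (64 * hi) ≤ 16 * A j' := by
  set P := signP k hi with hP
  have hpos : 0 < hi := by rw [hhi]; positivity
  have hN : 0 < 64 * hi := by omega
  have hM1 : 2 ^ P.card ≤ ∏ q ∈ P, q :=
    Finset.pow_card_le_prod _ _ _ fun q hq => (sign_prime hq).two_le
  have hM2 : ∏ q ∈ P, q ≤ 2 ^ (hi * hi) := by
    calc ∏ q ∈ P, q ≤ (2 ^ hi) ^ P.card := Finset.prod_le_pow_card _ _ _ fun q hq =>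
          ((Finset.mem_range.1 (Finset.mem_filter.1 hq).1).le.trans Nat.lt_two_pow_self.le)
      _ ≤ (2 ^ hi) ^ hi := Nat.pow_le_pow_right (by positivity) (sign_card_le k hi)
      _ = 2 ^ (hi * hi) := by rw [← pow_mul]
  have hcard : 2 ^ k + 4 ≤ P.card := by
    have h1 := card_primes_ge k (k + 3)
    rw [← hhi] at h1
    have h2 : 1 ≤ 2 ^ k := Nat.one_le_two_pow
    have h3 : 2 ^ (k + 3) = 8 * 2 ^ k := by ring
    change 2 ^ (k + 3) ≤ P.card at h1
    omega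
  have hM3 : 16 * X.natAbs ≤ ∏ q ∈ P, q := by
    calc 16 * X.natAbs ≤ 16 * 2 ^ 2 ^ k := by omega
      _ = 2 ^ (2 ^ k + 4) := by ring
      _ ≤ 2 ^ P.card := Nat.pow_le_pow_right (by omega) hcard
      _ ≤ _ := hM1
  set M : ℝ := ∏ q ∈ P, (q : ℝ) with hM
  have hMc : M = ((∏ q ∈ P, q : ℕ) : ℝ) := by rw [hM, Nat.cast_prod]
  have hMpos : 0 < M := by
    rw [hMc]; exact_mod_cast lt_of_lt_of_le (by positivity) hM1
  have key := doubling (X / M) (64 * hi) (hi * hi) A hN ?_ ?_ ?_ ?_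
  · rw [← key, div_pos_iff_of_pos_right hMpos]; exact_mod_cast Iff.rfl
  · rw [abs_div, abs_of_pos hMpos, div_le_iff₀ hMpos, hMc]
    have : ((16 * X.natAbs : ℕ) : ℝ) ≤ ((∏ q ∈ P, q : ℕ) : ℝ) := by exact_mod_cast hM3
    rw [Nat.cast_mul, Nat.cast_natAbs, Int.cast_abs] at this
    push_cast at this ⊢
    linarith
  · intro h
    have h1 : (0 : ℝ) < X := (div_pos_iff_of_pos_right hMpos).1 h
    have h2 : (1 : ℝ) ≤ X := by exact_mod_cast (show (1 : ℤ) ≤ X by exact_mod_cast h1)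
    have h3 : M ≤ 2 ^ (hi * hi) := by rw [hMc]; exact_mod_cast hM2
    rw [← mul_div_assoc, le_div_iff₀ hMpos]
    nlinarith [show (0 : ℝ) < 2 ^ (hi * hi) by positivity]
  · intro j; rw [hA]; exact Nat.mod_lt _ hN
  · intro j
    obtain ⟨z, hz⟩ := crt_frac P (fun q hq => sign_prime hq) (2 ^ j * X) (u j) (hu j)
    set N := 64 * hi with hNdef
    set Sj := ∑ q ∈ P, u j q * N / q with hS
    have hNr : (0 : ℝ) < N := by exact_mod_cast hN
    have hterm : ∀ q ∈ P, ((u j q * N / q : ℕ) : ℝ) ≤ (u j q : ℝ) / q * N ∧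
        (u j q : ℝ) / q * N ≤ ((u j q * N / q : ℕ) : ℝ) + 1 := by
      intro q hq
      have hq0 : 0 < q := (sign_prime hq).pos
      have hqr : (0 : ℝ) < q := by exact_mod_cast hq0
      have e1 : (u j q : ℝ) / q * N = ((u j q * N : ℕ) : ℝ) / q := by push_cast; ring
      rw [e1]
      refine ⟨Nat.cast_div_le, ?_⟩
      rw [div_le_iff₀ hqr]
      have := Nat.lt_mul_div_succ (u j q * N) hq0
      have h2 : ((u j q * N : ℕ) : ℝ) ≤ ((q * (u j q * N / q + 1) : ℕ) : ℝ) := by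
        exact_mod_cast this.le
      rw [Nat.cast_mul q, Nat.cast_add, Nat.cast_one] at h2
      linarith
    have hS1 : (Sj : ℝ) ≤ (∑ q ∈ P, (u j q : ℝ) / q) * N := by
      rw [hS, Nat.cast_sum, Finset.sum_mul]
      exact Finset.sum_le_sum fun q hq => (hterm q hq).1
    have hS2 : (∑ q ∈ P, (u j q : ℝ) / q) * N ≤ Sj + hi := by
      rw [hS, Nat.cast_sum, Finset.sum_mul]
      refine (Finset.sum_le_sum fun q hq => (hterm q hq).2).trans ?_
      rw [Finset.sum_add_distrib]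
      have : (P.card : ℝ) ≤ hi := by exact_mod_cast sign_card_le k hi
      simpa using this
    have hAj : (A j : ℝ) = Sj - N * ((Sj / N : ℕ) : ℝ) := by
      rw [hA j]
      have := Nat.mod_add_div Sj N
      have h2 : ((Sj % N + N * (Sj / N) : ℕ) : ℝ) = Sj := by rw [this]
      rw [Nat.cast_add, Nat.cast_mul] at h2
      linarith
    refine ⟨z - ((Sj / N : ℕ) : ℤ), (∑ q ∈ P, (u j q : ℝ) / q) - Sj / N, ?_, ?_, ?_⟩
    · rw [sub_nonneg, div_le_iff₀ hNr]; exact hS1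
    · have h3 : (N : ℝ) = 64 * hi := by rw [hNdef]; push_cast; ring
      rw [sub_le_iff_le_add, ← mul_le_mul_iff_left₀ hNr, add_mul, div_mul_cancel₀ _ hNr.ne']
      linarith
    · rw [hAj, hz, Int.cast_sub, Int.cast_natCast, ← hM]
      generalize ((Sj / N : ℕ) : ℝ) = w
      push_cast
      field_simp
      ring

theorem EV.pos {F : α → ℤ} (hF : EV F) : CF fun a => 0 < F a := by
  classical
  obtain ⟨k0, E, hk0, hE, hb, hev⟩ := EV.int_iff.1 hF
  obtain ⟨k, hk1, hk2, hk3⟩ := PB.exists_PT hk0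
  have h2k : CF fun a => 2 ^ k a := CF.of_PT (by fun_prop)
  have hhi : CF fun a => 2 ^ (2 * (k a + (k a + 3)) + 6) :=
    CF.of_PT (PT.nat_pow (PT.const 2) (by fun_prop)
      (((PB.const 2).mul (hk2.add (hk2.add (PB.const 3)))).add (PB.const 6)))
  obtain ⟨hi, hhi', hhiCF⟩ : ∃ hi : α → ℕ, (∀ a, hi a = 2 ^ (2 * (k a + (k a + 3)) + 6)) ∧ CF hi :=
    ⟨_, fun _ => rfl, hhi⟩
  obtain ⟨lo, hlo', hloCF⟩ : ∃ lo : α → ℕ, (∀ a, lo a = 2 ^ k a) ∧ CF lo :=
    ⟨_, fun _ => rfl, h2k⟩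
  obtain ⟨m, hm, hm'⟩ := CF.exists_prodMod (α := α × ℕ) (n := fun x => hi x.1) (p := fun x => x.2)
    (f := fun x i => if i.Prime ∧ lo x.1 ≤ i ∧ ¬ i = x.2 then i else 1) (by fun_prop) (by fun_prop)
    (by fun_prop)
  obtain ⟨u, hu', huCF⟩ : ∃ u : α × ℕ × ℕ → ℕ, (∀ a j q, u (a, j, q) =
      powMod 2 j q * E (a, q, ()) * powMod (m (a, q)) (q - 2) q) ∧ CF u :=
    ⟨fun x => powMod 2 x.2.1 x.2.2 * E (x.1, x.2.2, ()) * powMod (m (x.1, x.2.2)) (x.2.2 - 2) x.2.2,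
      fun _ _ _ => rfl, by fun_prop⟩
  obtain ⟨A, hA', hACF⟩ : ∃ A : α × ℕ → ℕ, (∀ a j, A (a, j) = (∑ q ∈ Finset.range (hi a),
      if q.Prime ∧ lo a ≤ q then u (a, j, q) * (64 * hi a) / q else 0) % (64 * hi a)) ∧ CF A :=
    ⟨fun x => (∑ q ∈ Finset.range (hi x.1),
      if q.Prime ∧ lo x.1 ≤ q then u (x.1, x.2, q) * (64 * hi x.1) / q else 0) % (64 * hi x.1),
      fun _ _ => rfl, by fun_prop⟩
  have h1 : CF fun x : α × ℕ => ∀ j' < x.2,
      16 * A (x.1, j') ≤ 64 * hi x.1 ∨ 15 * (64 * hi x.1) ≤ 16 * A (x.1, j') :=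
    CF.forall_lt (by fun_prop) (by fun_prop)
  have h2 : CF fun a => ∃ j < hi a * hi a + 1,
      (64 * hi a < 16 * A (a, j) ∧ 2 * A (a, j) < 64 * hi a) ∧ ∀ j' < j,
      16 * A (a, j') ≤ 64 * hi a ∨ 15 * (64 * hi a) ≤ 16 * A (a, j') :=
    CF.exists_lt (by fun_prop) (CF.and (by fun_prop) h1)
  refine h2.of_iff fun a => (sign_pure (k a) (hi a) (F a) ?_ (hhi' a) (fun j q => u (a, j, q)) ?_
    (fun j => A (a, j)) fun j => ?_).symm
  · exact (hb a).trans (Nat.pow_le_pow_right (by omega) (Nat.pow_le_pow_right (by omega) (hk3 a)))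
  · intro j q hq
    have hqp := sign_prime hq
    have := Fact.mk hqp
    have hq2 : 2 ^ k a ≤ q := (Finset.mem_filter.1 hq).2.2
    have e1 : (m (a, q) : ZMod q) = ∏ r ∈ (signP (k a) (hi a)).erase q, (r : ZMod q) := by
      rw [hm' (a, q) hqp]
      have : (signP (k a) (hi a)).erase q =
          (Finset.range (hi a)).filter fun i => i.Prime ∧ lo a ≤ i ∧ ¬ i = q := by
        ext i
        simp only [signP, Finset.mem_erase, Finset.mem_filter, hlo']
        tauto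
      rw [this, Finset.prod_filter]
      exact Finset.prod_congr rfl fun i _ => by split_ifs <;> simp
    have e2 : (m (a, q) : ZMod q) ≠ 0 := by
      rw [e1]
      refine Finset.prod_ne_zero_iff.2 fun r hr => ?_
      rw [Ne, ZMod.natCast_eq_zero_iff,
        Nat.prime_dvd_prime_iff_eq hqp (sign_prime (Finset.mem_of_mem_erase hr))]
      exact fun h => (Finset.ne_of_mem_erase hr) h.symm
    have e3 := hev a q () hqp ((Nat.pow_le_pow_right (by omega) (hk3 a)).trans hq2)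
    have e4 : (m (a, q) : ZMod q) ^ (q - 2) * (m (a, q) : ZMod q) = 1 := by
      rw [← pow_succ, show q - 2 + 1 = q - 1 by have := hqp.two_le; omega]
      exact ZMod.pow_card_sub_one_eq_one e2
    rw [← e1, hu', Nat.cast_mul, Nat.cast_mul, cast_powMod _ _ hqp.ne_zero,
      cast_powMod _ _ hqp.ne_zero, e3, mul_assoc, e4]
    push_cast
    ring
  · rw [hA', signP, Finset.sum_filter, hlo']

theorem EV.lt {F G : α → ℤ} (hF : EV F) (hG : EV G) : CF fun a => F a < G a :=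
  (EV.pos (hG.sub hF)).of_iff fun _ => sub_pos

end Crest.Agent.R316
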