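import Crest.Agent.R316.Sample
import Crest.Agent.R316.CritC

/-!
# Row 316 (S0488): Strata
Strata on which solvability is locally constant.  Index the family by `(a, σ) : α × ℕ`; `R = MvPolynomial ℕ ℤ`,
`S = R[η][ε]`, `Φ = C ∘ C`, `exists_elim_crit` with `h = C ε - C η * (map Φ G + C ε * ∑_{i<n} X i^(2d))` gives `Rp`.
For a real point `x`, `Rp^x = Rp.map (mapRingHom (ivl x))` is nonzero (`η = 0`, `ε = 1`: `h = 1`), and vanishes at
`(η, ε)` when `η m(x,ε) = ε` (`exists_mfun_eq`, `crit_of_isLocalMin`).  `N (a,σ) = Λ + 1` with `nrm Rp ≤ 2^Λ`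
(`nrm_coeff_le`, `natDegree_le_of_nrm_le`, `natDegree_map_le`), `Θ_σ = Rp.eval (X^N)`, `Θ = ∏_{σ<m} Θ_σ`;
`Θ_σ^x ≠ 0` by `kronecker_ne_zero` at `ε = η^N`; apply `strata_const` for each `σ` with the product `Θ`
(`state_iff`, `continuous_evl`, `continuous_evl₂`), and `Finset.eventually_all`/`eventually_all_finset`.
-/

set_option autoImplicit false

open Polynomial Filter Topology

noncomputable section

namespace Crest.Agent.R316

open Crest.Agent.Lib.PolyTime
variable {α R S : Type} [Enc α] [CommRing R] [PR R] [CommRing S] [PR S]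

/-- substitution of real numbers for the two infinitesimals -/
def strataSv {A : Type} [CommRing A] (φ : A →+* ℝ) (η ε : ℝ) : A[X][X] →+* ℝ :=
  eval₂RingHom (eval₂RingHom φ η) ε

theorem strataSv_eq {A : Type} [CommRing A] (φ : A →+* ℝ) (η ε : ℝ) (p : A[X][X]) :
    strataSv φ η ε p = ((p.map (mapRingHom φ)).eval (C ε)).eval η := by
  have h : strataSv φ η ε = (evalRingHom η).comp ((evalRingHom (C ε)).comp
      (mapRingHom (mapRingHom φ))) := by
    refine Polynomial.ringHom_ext (fun c => ?_) (by simp [strataSv])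
    simp [strataSv, eval_map]
  rw [h]
  rfl

theorem strataSv_kron {A : Type} [CommRing A] (φ : A →+* ℝ) (η : ℝ) (N : ℕ) (p : A[X][X]) :
    ((p.eval (X ^ N)).map φ).eval η = strataSv φ η (η ^ N) p := by
  rw [eval_map, ← coe_eval₂RingHom, ← eval₂_at_apply]
  simp [strataSv]

theorem strataSv_CC {A : Type} [CommRing A] (φ : A →+* ℝ) (η ε : ℝ) :
    (strataSv φ η ε).comp ((C : A[X] →+* A[X][X]).comp (C : A →+* A[X])) = φ :=
  RingHom.ext fun c => by simp [strataSv]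

/-- the eliminant in the two infinitesimals -/
theorem strata_elim {n : α → ℕ} {G : α → MvPolynomial ℕ R} (hn : CF n) (hn' : PB n) (hG : EV G) :
    ∃ (d : α → ℕ) (Rp : α → R[X][X]), (∀ a, 1 ≤ d a) ∧ EV Rp ∧ ∀ a (φ : R →+* ℝ),
      (Rp a).map (mapRingHom φ) ≠ 0 ∧ ∀ (η ε : ℝ) (y : Fin (n a) → ℝ), 0 < ε →
        IsLocalMin (fun y => evl φ y (G a) + ε * ∑ i, y i ^ (2 * d a)) y →
        η * (evl φ y (G a) + ε * ∑ i, y i ^ (2 * d a)) = ε → strataSv φ η ε (Rp a) = 0 := by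
  obtain ⟨d, hd, hd1, -, H⟩ := exists_elim_crit hn hn' hG
  have hΦ : EH fun _ : α => (C : R[X] →+* R[X][X]).comp (C : R →+* R[X]) := EH.comp EH.C EH.C
  have hs : EV fun a => ∑ i ∈ Finset.range (n a),
      (MvPolynomial.X i : MvPolynomial ℕ R[X][X]) ^ (2 * d a) :=
    EV.sum_range hn (EV.pow (EV.mvX (by fun_prop)) (by fun_prop))
  obtain ⟨Rp, hRp, HR⟩ := H R[X][X] _ (fun _ => X)
    (fun a => MvPolynomial.C (X : R[X][X]) - MvPolynomial.C (C X : R[X][X]) *
      (MvPolynomial.map ((C : R[X] →+* R[X][X]).comp (C : R →+* R[X])) (G a) +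
        MvPolynomial.C (X : R[X][X]) * ∑ i ∈ Finset.range (n a), MvPolynomial.X i ^ (2 * d a)))
    hΦ EV.X ((EV.const _).sub ((EV.const _).mul
      ((EV.hom (EH.mvMap hΦ) hG).add ((EV.const _).mul hs))))
  refine ⟨d, Rp, hd1, hRp, fun a φ => ⟨fun h0 => ?_, fun η ε y hε hy he => ?_⟩⟩
  · obtain ⟨ξ, -, h2⟩ := (HR a (Complex.ofRealHom.comp (strataSv φ 0 1))
      (by simp [strataSv])).1 (by rw [RingHom.comp_apply, strataSv_eq, h0]; simp)
    rw [map_sub, map_mul, evl_C, evl_C] at h2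
    simp [strataSv] at h2
  · have e1 : (Complex.ofRealHom.comp (strataSv φ η ε)).comp
        ((C : R[X] →+* R[X][X]).comp (C : R →+* R[X])) = Complex.ofRealHom.comp φ := by
      rw [RingHom.comp_assoc, strataSv_CC]
    have e2 : (Complex.ofRealHom.comp (strataSv φ η ε)) X = (ε : ℂ) := by simp [strataSv]
    have e3 : (Complex.ofRealHom.comp (strataSv φ η ε)) (C X) = (η : ℂ) := by simp [strataSv]
    have h1 := (HR a (Complex.ofRealHom.comp (strataSv φ η ε))
      (by rw [e2]; exact_mod_cast hε.ne')).2 ⟨fun i => Complex.ofRealHom (y i), fun i => ?_, ?_⟩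
    · exact Complex.ofReal_eq_zero.1 h1
    · rw [e1, e2, ← map_evl]
      have h2 := congrArg Complex.ofRealHom (crit_of_isLocalMin φ (G a) (d a) ε hy i)
      simpa using h2
    · rw [map_sub, map_mul, map_add, map_mul, evl_C, evl_C, evl_map, e1, e2, e3, ← map_evl,
        map_sum, Finset.sum_range]
      have h2 := congrArg Complex.ofRealHom he
      simp only [map_pow, evl_X, ext0_val]
      simp only [map_mul, map_add, map_sum, map_pow] at h2
      exact sub_eq_zero.2 h2.symm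

theorem exists_strata {n m : α → ℕ} {G : α × ℕ → MvPolynomial ℕ (MvPolynomial ℕ ℤ)} (hn : CF n)
    (hn' : PB n) (hm : CF m) (hG : EV G) :
    ∃ Θ : α → (MvPolynomial ℕ ℤ)[X], EV Θ ∧ ∀ a (r : ℕ),
      (∀ σ < m a, ∀ (x : Fin r → ℝ) (y : Fin (n a) → ℝ), 0 ≤ evl (ivl x) y (G (a, σ))) →
      (∀ x : Fin r → ℝ, (Θ a).map (ivl x) ≠ 0) ∧
      ∀ x₀ : Fin r → ℝ, ∀ᶠ x in 𝓝 x₀,
        ((Θ a).map (ivl x)).natTrailingDegree = ((Θ a).map (ivl x₀)).natTrailingDegree →
          ∀ σ < m a, ((∃ y : Fin (n a) → ℝ, evl (ivl x) y (G (a, σ)) = 0) ↔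
            ∃ y : Fin (n a) → ℝ, evl (ivl x₀) y (G (a, σ)) = 0) := by
  obtain ⟨d, Rp, hd, hRp, H⟩ := strata_elim (n := fun b : α × ℕ => n b.1) (by fun_prop)
    (hn'.comp PT.fst') hG
  obtain ⟨Λ, hΛ, hΛ'⟩ := hRp.exists_nrm
  have hN : ∀ b (φ : MvPolynomial ℕ ℤ →+* ℝ) j,
      (((Rp b).map (mapRingHom φ)).coeff j).natDegree < Λ b + 1 := fun b φ j => by
    rw [coeff_map, coe_mapRingHom]
    refine Nat.lt_succ_of_le (natDegree_map_le.trans (natDegree_le_of_nrm_le ?_))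
    exact (Nat.le_mul_of_pos_right _ (by positivity)).trans
      ((nrm_coeff_le (Rp b) j).trans (hΛ' b))
  have hT : EV fun b : α × ℕ => (Rp b).eval (X ^ (Λ b + 1)) :=
    EV.eval hRp (EV.pow EV.X (by fun_prop))
  have hne : ∀ a (φ : MvPolynomial ℕ ℤ →+* ℝ),
      (∏ σ ∈ Finset.range (m a), (Rp (a, σ)).eval (X ^ (Λ (a, σ) + 1))).map φ ≠ 0 := fun a φ => by
    rw [Polynomial.map_prod]
    refine Finset.prod_ne_zero_iff.2 fun σ _ h0 => ?_
    obtain ⟨η, h1, h2⟩ := ((kronecker_ne_zero (H (a, σ) φ).1 (hN (a, σ) φ)).and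
      self_mem_nhdsWithin).exists
    refine h1 _ ⟨pow_pos h2 _, le_rfl⟩ ?_
    rw [← strataSv_eq, ← strataSv_kron, h0, eval_zero]
  refine ⟨fun a => ∏ σ ∈ Finset.range (m a), (Rp (a, σ)).eval (X ^ (Λ (a, σ) + 1)),
    EV.prod_range (F := fun a σ => (Rp (a, σ)).eval (X ^ (Λ (a, σ) + 1))) hm hT,
    fun a r h0 => ⟨fun x => hne a _, fun x₀ => ?_⟩⟩
  have key : ∀ σ ∈ Finset.range (m a), ∀ᶠ x in 𝓝 x₀,
      ((∏ σ ∈ Finset.range (m a), (Rp (a, σ)).eval (X ^ (Λ (a, σ) + 1))).map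
        (ivl x)).natTrailingDegree =
      ((∏ σ ∈ Finset.range (m a), (Rp (a, σ)).eval (X ^ (Λ (a, σ) + 1))).map
        (ivl x₀)).natTrailingDegree →
      ((∃ y : Fin (n a) → ℝ, evl (ivl x) y (G (a, σ)) = 0) ↔
        ∃ y : Fin (n a) → ℝ, evl (ivl x₀) y (G (a, σ)) = 0) := fun σ hσ => by
    have hc := continuous_evl₂ (r := r) (n := n a) (G (a, σ))
    have h1 := h0 σ (Finset.mem_range.1 hσ)
    have hR : ∀ (x : Fin r → ℝ) (η ε : ℝ), 0 < ε →
        η * mfun (fun (x : Fin r → ℝ) (y : Fin (n a) → ℝ) => evl (ivl x) y (G (a, σ)))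
          (d (a, σ)) x ε = ε → strataSv (ivl x) η ε (Rp (a, σ)) = 0 := fun x η ε hε he => by
      obtain ⟨y, h2, h3⟩ := exists_mfun_eq
        (G := fun (x : Fin r → ℝ) (y : Fin (n a) → ℝ) => evl (ivl x) y (G (a, σ)))
        hc h1 (hd (a, σ)) x hε
      exact (H (a, σ) (ivl x)).2 η ε y hε (h2.isLocalMin univ_mem) (h3 ▸ he)
    refine strata_const
      (G := fun (x : Fin r → ℝ) (y : Fin (n a) → ℝ) => evl (ivl x) y (G (a, σ)))
      hc h1 (hd (a, σ)) (N := Λ (a, σ) + 1)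
      (Θ := fun x => (∏ σ ∈ Finset.range (m a), (Rp (a, σ)).eval (X ^ (Λ (a, σ) + 1))).map (ivl x))
      (fun x => natDegree_map_le) (fun j => ?_) (fun x => hne a _) (fun x η hη he => ?_)
      (fun x => state_iff hc h1 (hd (a, σ)) x (H (a, σ) (ivl x)).1 (hN (a, σ) _)
        fun η ε hε he => ?_) x₀
    · simp only [coeff_map]
      exact continuous_evl _ _
    · rw [Polynomial.map_prod, eval_prod]
      refine Finset.prod_eq_zero hσ ?_
      rw [strataSv_kron]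
      exact hR x η _ (pow_pos hη _) he
    · rw [← strataSv_eq]
      exact hR x η ε hε he
  filter_upwards [(Finset.range (m a)).eventually_all.2 key] with x hx h1 σ hσ
  exact hx σ (Finset.mem_range.2 hσ) h1

end Crest.Agent.R316
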