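import Crest.Agent.R316.Defs
import Crest.Prelude.Def_RealEA

/-!
# Row 316 (S0488): Syntax
Sentences as plain data.  The formula is the list of its prefix-order items; it is checked and evaluated from
right to left with a stack.
`exists_of_valid`: by induction on the item list `l` (from the right): if all items are `itemOK` and
`(depth l).1 = true` then there is a list `fs` of well-formed formulas of length `(depth l).2` with
`l = fs.flatMap itemsOf`.  `holds_iff`: `evalF (items φ ++ rest) = decide (Holds φ) :: evalF rest` by induction on `φ`.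
`esize_le_of_valid`: every number of the data is printed (or is `0`/a tag), `natBits k` has length
`2 size k + 2`, `esize k = 6 size k + 1`.
-/

set_option autoImplicit false

noncomputable section

namespace Crest.Agent.R316

open Crest.Agent.Lib.PolyTime Crest.RealEA

/-- gates: tag and two arguments -/
abbrev Gt : Type := ℕ × ℕ × ℕ
/-- items: tag and circuit -/
abbrev Item : Type := ℕ × List Gt
/-- sentences: `r`, `s`, items -/
abbrev Data : Type := ℕ × ℕ × List Item

/-- a gate as data -/
def gtOf : AGate → Gt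
  | .const z => (0, if z < 0 then 1 else 0, z.natAbs)
  | .varX i => (1, i, 0)
  | .varY i => (2, i, 0)
  | .add a b => (3, a, b)
  | .sub a b => (4, a, b)
  | .mul a b => (5, a, b)

/-- a formula as data -/
def itemsOf : Form → List Item
  | .eqZero c => [(6, c.map gtOf)]
  | .pos c => [(7, c.map gtOf)]
  | .and φ ψ => (8, []) :: (itemsOf φ ++ itemsOf ψ)
  | .or φ ψ => (9, []) :: (itemsOf φ ++ itemsOf ψ)
  | .not φ => (10, []) :: itemsOf φ

/-- a sentence as data -/
def dataOf (S : Sentence) : Data := (S.r, S.s, itemsOf S.body)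

/-- printing a gate -/
def gtNats (g : Gt) : List ℕ := if g.1 = 1 ∨ g.1 = 2 then [g.1, g.2.1] else [g.1, g.2.1, g.2.2]

/-- printing an item -/
def itemNats (it : Item) : List ℕ :=
  if it.1 = 6 ∨ it.1 = 7 then it.1 :: it.2.length :: it.2.flatMap gtNats else [it.1]

/-- printing a sentence -/
def print (d : Data) : List Bool := (d.1 :: d.2.1 :: d.2.2.flatMap itemNats).flatMap natBits

/-- well-formed gate at position `t` -/
def gtOK (r s t : ℕ) (g : Gt) : Prop :=
  (g.1 = 0 ∧ (g.2.1 = 0 ∨ (g.2.1 = 1 ∧ g.2.2 ≠ 0))) ∨ (g.1 = 1 ∧ g.2.1 < r ∧ g.2.2 = 0) ∨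
    (g.1 = 2 ∧ g.2.1 < s ∧ g.2.2 = 0) ∨ ((g.1 = 3 ∨ g.1 = 4 ∨ g.1 = 5) ∧ g.2.1 < t ∧ g.2.2 < t)

/-- well-formed item -/
def itemOK (r s : ℕ) (it : Item) : Prop :=
  ((it.1 = 6 ∨ it.1 = 7) ∧ it.2 ≠ [] ∧ ∀ t < it.2.length, gtOK r s t (it.2.getD t (0, 0, 0))) ∨
    ((it.1 = 8 ∨ it.1 = 9 ∨ it.1 = 10) ∧ it.2 = [])

/-- no underflow so far, and the height of the stack -/
def depth (l : List Item) : Bool × ℕ :=
  l.foldr (fun it st => if it.1 = 6 ∨ it.1 = 7 then (st.1, st.2 + 1)
    else if it.1 = 10 then (st.1 && decide (1 ≤ st.2), st.2)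
    else (st.1 && decide (2 ≤ st.2), st.2 - 1)) (true, 0)

/-- data of a well-formed sentence -/
def valid (d : Data) : Prop := (∀ it ∈ d.2.2, itemOK d.1 d.2.1 it) ∧ depth d.2.2 = (true, 1)

/-- stack evaluation of a list of (tag, sign code) -/
def evalF (l : List (ℕ × ℕ)) : List Bool :=
  l.foldr (fun it st => if it.1 = 6 then decide (it.2 = 0) :: st
    else if it.1 = 7 then decide (it.2 = 1) :: st
    else if it.1 = 8 then (st.headD false && st.tail.headD false) :: st.tail.tail
    else if it.1 = 9 then (st.headD false || st.tail.headD false) :: st.tail.tail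
    else (!st.headD false) :: st.tail) []

section
variable {K : Type} [CommRing K]

/-- value of a gate in a ring -/
def gtVal (x y : ℕ → K) (prev : List K) (g : Gt) : K :=
  if g.1 = 0 then (if g.2.1 = 0 then (g.2.2 : K) else -(g.2.2 : K))
  else if g.1 = 1 then x g.2.1 else if g.1 = 2 then y g.2.1
  else if g.1 = 3 then prev.getD g.2.1 0 + prev.getD g.2.2 0
  else if g.1 = 4 then prev.getD g.2.1 0 - prev.getD g.2.2 0
  else prev.getD g.2.1 0 * prev.getD g.2.2 0

/-- values of all gates -/
def cVals (x y : ℕ → K) (c : List Gt) : List K :=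
  c.foldl (fun prev g => prev ++ [gtVal x y prev g]) []

/-- value of a circuit -/
def cVal (x y : ℕ → K) (c : List Gt) : K := (cVals x y c).getLastD 0

end

theorem syntax_gtNats (g : AGate) : gtNats (gtOf g) = g.toNats := by
  cases g <;> simp [gtNats, gtOf, AGate.toNats]

theorem syntax_flat_gt (c : List AGate) :
    (c.map gtOf).flatMap gtNats = c.flatMap AGate.toNats := by
  induction c with
  | nil => rfl
  | cons g c ih => simp only [List.map_cons, List.flatMap_cons, ih, syntax_gtNats]

theorem syntax_itemNats (φ : Form) : (itemsOf φ).flatMap itemNats = φ.toNats := by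
  induction φ with
  | eqZero c =>
    simp only [itemsOf, Form.toNats, circuitToNats, List.flatMap_cons, List.flatMap_nil,
      List.append_nil, itemNats, syntax_flat_gt, List.length_map]
    simp
  | pos c =>
    simp only [itemsOf, Form.toNats, circuitToNats, List.flatMap_cons, List.flatMap_nil,
      List.append_nil, itemNats, syntax_flat_gt, List.length_map]
    simp
  | and φ ψ h1 h2 =>
    simp only [itemsOf, Form.toNats, List.flatMap_cons, List.flatMap_append, h1, h2]
    simp [itemNats]
  | or φ ψ h1 h2 =>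
    simp only [itemsOf, Form.toNats, List.flatMap_cons, List.flatMap_append, h1, h2]
    simp [itemNats]
  | not φ h1 =>
    simp only [itemsOf, Form.toNats, List.flatMap_cons, h1]
    simp [itemNats]

theorem print_dataOf (S : Sentence) : print (dataOf S) = S.encode := by
  simp only [print, dataOf, Sentence.encode, Sentence.toNats, syntax_itemNats]

theorem syntax_gtOK_iff (r s t : ℕ) (g : AGate) : gtOK r s t (gtOf g) ↔ g.WF r s t := by
  cases g with
  | const z =>
    by_cases hz : z < 0
    · have : z ≠ 0 := hz.ne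
      simp [gtOK, gtOf, AGate.WF, hz, this]
    · simp [gtOK, gtOf, AGate.WF, hz]
  | varX i => simp [gtOK, gtOf, AGate.WF]
  | varY i => simp [gtOK, gtOf, AGate.WF]
  | add a b => simp [gtOK, gtOf, AGate.WF]
  | sub a b => simp [gtOK, gtOf, AGate.WF]
  | mul a b => simp [gtOK, gtOf, AGate.WF]

theorem syntax_circ_iff (r s : ℕ) (c : List AGate) :
    (c.map gtOf ≠ [] ∧ ∀ t < (c.map gtOf).length, gtOK r s t ((c.map gtOf).getD t (0, 0, 0))) ↔
      CircuitWF r s c := by
  unfold CircuitWF
  refine and_congr (by simp) ⟨fun h t => ?_, fun h t ht => ?_⟩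
  · have := h t (by simp)
    rw [List.getD_eq_getElem _ _ (by simp), List.getElem_map, syntax_gtOK_iff] at this
    simpa using this
  · have ht' : t < c.length := by simpa using ht
    rw [List.getD_eq_getElem _ _ ht, List.getElem_map, syntax_gtOK_iff]
    simpa using h ⟨t, ht'⟩

theorem syntax_itemOK {r s : ℕ} {φ : Form} (h : φ.WF r s) : ∀ it ∈ itemsOf φ, itemOK r s it := by
  induction φ with
  | eqZero c =>
    intro it hit
    simp only [itemsOf, List.mem_singleton] at hit
    subst hit
    exact Or.inl ⟨Or.inl rfl, (syntax_circ_iff r s c).2 h⟩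
  | pos c =>
    intro it hit
    simp only [itemsOf, List.mem_singleton] at hit
    subst hit
    exact Or.inl ⟨Or.inr rfl, (syntax_circ_iff r s c).2 h⟩
  | and φ ψ h1 h2 =>
    intro it hit
    simp only [itemsOf, List.mem_cons, List.mem_append] at hit
    rcases hit with rfl | hit | hit
    · exact Or.inr ⟨Or.inl rfl, rfl⟩
    · exact h1 h.1 it hit
    · exact h2 h.2 it hit
  | or φ ψ h1 h2 =>
    intro it hit
    simp only [itemsOf, List.mem_cons, List.mem_append] at hit
    rcases hit with rfl | hit | hit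
    · exact Or.inr ⟨Or.inr (Or.inl rfl), rfl⟩
    · exact h1 h.1 it hit
    · exact h2 h.2 it hit
  | not φ h1 =>
    intro it hit
    simp only [itemsOf, List.mem_cons] at hit
    rcases hit with rfl | hit
    · exact Or.inr ⟨Or.inr (Or.inr rfl), rfl⟩
    · exact h1 h it hit

theorem syntax_depth_cons (it : Item) (l : List Item) : depth (it :: l) =
    if it.1 = 6 ∨ it.1 = 7 then ((depth l).1, (depth l).2 + 1)
    else if it.1 = 10 then ((depth l).1 && decide (1 ≤ (depth l).2), (depth l).2)
    else ((depth l).1 && decide (2 ≤ (depth l).2), (depth l).2 - 1) := rfl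

theorem syntax_depth_append (φ : Form) (l : List Item) :
    depth (itemsOf φ ++ l) = ((depth l).1, (depth l).2 + 1) := by
  induction φ generalizing l with
  | eqZero c => simp [itemsOf, syntax_depth_cons]
  | pos c => simp [itemsOf, syntax_depth_cons]
  | and φ ψ h1 h2 =>
    simp only [itemsOf, List.cons_append, List.append_assoc, syntax_depth_cons, h1, h2]
    simp
  | or φ ψ h1 h2 =>
    simp only [itemsOf, List.cons_append, List.append_assoc, syntax_depth_cons, h1, h2]
    simp
  | not φ h1 =>
    simp only [itemsOf, List.cons_append, syntax_depth_cons, h1]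
    simp

theorem valid_dataOf {S : Sentence} (h : S.WF) : valid (dataOf S) := by
  refine ⟨syntax_itemOK h, ?_⟩
  have := syntax_depth_append S.body []
  rw [List.append_nil] at this
  exact this

theorem syntax_exists_gate {r s t : ℕ} {g : Gt} (h : gtOK r s t g) : ∃ a : AGate, gtOf a = g := by
  obtain ⟨a, b, c⟩ := g
  simp only [gtOK] at h
  rcases h with ⟨rfl, rfl | ⟨rfl, hc⟩⟩ | ⟨rfl, -, rfl⟩ | ⟨rfl, -, rfl⟩ | ⟨rfl | rfl | rfl, -⟩
  · exact ⟨.const c, by simp [gtOf]⟩
  · refine ⟨.const (-(c : ℤ)), ?_⟩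
    have : 0 < c := Nat.pos_of_ne_zero hc
    simp [gtOf, this]
  · exact ⟨.varX b, rfl⟩
  · exact ⟨.varY b, rfl⟩
  · exact ⟨.add b c, rfl⟩
  · exact ⟨.sub b c, rfl⟩
  · exact ⟨.mul b c, rfl⟩

theorem syntax_exists_circ {r s : ℕ} {l : List Gt}
    (h : l ≠ [] ∧ ∀ t < l.length, gtOK r s t (l.getD t (0, 0, 0))) :
    ∃ c : List AGate, CircuitWF r s c ∧ c.map gtOf = l := by
  have hall : ∀ g ∈ l, ∃ a : AGate, gtOf a = g := by
    intro g hg
    obtain ⟨t, ht, rfl⟩ := List.getElem_of_mem hg
    have := h.2 t ht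
    rw [List.getD_eq_getElem _ _ ht] at this
    exact syntax_exists_gate this
  have hex : ∀ l : List Gt, (∀ g ∈ l, ∃ a : AGate, gtOf a = g) →
      ∃ c : List AGate, c.map gtOf = l := by
    intro l hl
    induction l with
    | nil => exact ⟨[], rfl⟩
    | cons g l ih =>
      obtain ⟨a, ha⟩ := hl g (by simp)
      obtain ⟨c, hc⟩ := ih fun g' hg' => hl g' (by simp [hg'])
      exact ⟨a :: c, by simp [ha, hc]⟩
  obtain ⟨c, rfl⟩ := hex l hall
  exact ⟨c, (syntax_circ_iff r s c).1 h, rfl⟩

theorem syntax_exists_forms {r s : ℕ} (l : List Item) (h : ∀ it ∈ l, itemOK r s it)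
    (hd : (depth l).1 = true) : ∃ fs : List Form, (∀ φ ∈ fs, φ.WF r s) ∧
      fs.length = (depth l).2 ∧ l = fs.flatMap itemsOf := by
  induction l with
  | nil => exact ⟨[], by simp, rfl, rfl⟩
  | cons it l ih =>
    have hl : ∀ it' ∈ l, itemOK r s it' := fun it' h' => h it' (by simp [h'])
    have hit := h it (by simp)
    obtain ⟨tg, c⟩ := it
    rw [syntax_depth_cons] at hd ⊢
    rcases hit with ⟨htg, hc⟩ | ⟨htg, hc⟩
    · obtain ⟨a, ha, rfl⟩ := syntax_exists_circ hc
      rw [if_pos htg] at hd ⊢
      obtain ⟨fs, h1, h2, h3⟩ := ih hl hd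
      rcases htg with htg | htg
      · simp only at htg
        subst htg
        refine ⟨.eqZero a :: fs, ?_, by simp [h2], by simp [itemsOf, ← h3]⟩
        intro φ hφ
        rcases List.mem_cons.1 hφ with rfl | hφ
        · exact ha
        · exact h1 φ hφ
      · simp only at htg
        subst htg
        refine ⟨.pos a :: fs, ?_, by simp [h2], by simp [itemsOf, ← h3]⟩
        intro φ hφ
        rcases List.mem_cons.1 hφ with rfl | hφ
        · exact ha
        · exact h1 φ hφ
    · simp only at htg hc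
      subst hc
      rcases htg with rfl | rfl | rfl
      · simp only [show ¬ ((8 : ℕ) = 6 ∨ (8 : ℕ) = 7) by decide, show ¬ ((8 : ℕ) = 10) by decide,
          if_false, Bool.and_eq_true, decide_eq_true_eq] at hd ⊢
        obtain ⟨fs, h1, h2, h3⟩ := ih hl hd.1
        match fs, h1, h2, h3 with
        | [], _, h2, _ => simp at h2; omega
        | [_], _, h2, _ => simp at h2; omega
        | φ :: ψ :: fs, h1, h2, h3 =>
          refine ⟨.and φ ψ :: fs, ?_, by simp at h2 ⊢; omega, by simp [itemsOf, h3]⟩
          intro χ hχ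
          rcases List.mem_cons.1 hχ with rfl | hχ
          · exact ⟨h1 φ (by simp), h1 ψ (by simp)⟩
          · exact h1 χ (by simp [hχ])
      · simp only [show ¬ ((9 : ℕ) = 6 ∨ (9 : ℕ) = 7) by decide, show ¬ ((9 : ℕ) = 10) by decide,
          if_false, Bool.and_eq_true, decide_eq_true_eq] at hd ⊢
        obtain ⟨fs, h1, h2, h3⟩ := ih hl hd.1
        match fs, h1, h2, h3 with
        | [], _, h2, _ => simp at h2; omega
        | [_], _, h2, _ => simp at h2; omega
        | φ :: ψ :: fs, h1, h2, h3 =>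
          refine ⟨.or φ ψ :: fs, ?_, by simp at h2 ⊢; omega, by simp [itemsOf, h3]⟩
          intro χ hχ
          rcases List.mem_cons.1 hχ with rfl | hχ
          · exact ⟨h1 φ (by simp), h1 ψ (by simp)⟩
          · exact h1 χ (by simp [hχ])
      · simp only [show ¬ ((10 : ℕ) = 6 ∨ (10 : ℕ) = 7) by decide,
          if_false, if_true, Bool.and_eq_true, decide_eq_true_eq] at hd ⊢
        obtain ⟨fs, h1, h2, h3⟩ := ih hl hd.1
        match fs, h1, h2, h3 with
        | [], _, h2, _ => simp at h2; omega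
        | φ :: fs, h1, h2, h3 =>
          refine ⟨.not φ :: fs, ?_, by simp at h2 ⊢; omega, by simp [itemsOf, h3]⟩
          intro χ hχ
          rcases List.mem_cons.1 hχ with rfl | hχ
          · exact h1 φ (by simp)
          · exact h1 χ (by simp [hχ])

theorem exists_of_valid {d : Data} (h : valid d) : ∃ S : Sentence, S.WF ∧ dataOf S = d := by
  obtain ⟨r, s, l⟩ := d
  obtain ⟨h1, h2⟩ := h
  simp only at h1 h2
  obtain ⟨fs, k1, k2, k3⟩ := syntax_exists_forms l h1 (by rw [h2])
  rw [h2] at k2
  obtain ⟨φ, rfl⟩ := List.length_eq_one_iff.1 k2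
  exact ⟨⟨r, s, φ⟩, k1 φ (by simp), by simp [dataOf, k3]⟩

theorem syntax_gtVal (x y : ℕ → ℝ) (prev : List ℝ) (g : AGate) :
    gtVal x y prev (gtOf g) = g.value x y prev := by
  cases g with
  | const z =>
    by_cases hz : z < 0
    · have h1 : ((z.natAbs : ℤ) : ℝ) = -(z : ℝ) := by
        rw [Int.ofNat_natAbs_of_nonpos hz.le]; simp
      have h2 : (z.natAbs : ℝ) = -(z : ℝ) := by rw [← h1]; simp
      simp only [gtVal, gtOf, AGate.value, hz, if_true, h2]
      simp
    · have h1 : ((z.natAbs : ℤ) : ℝ) = (z : ℝ) := by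
        rw [Int.natAbs_of_nonneg (not_lt.1 hz)]
      have h2 : (z.natAbs : ℝ) = (z : ℝ) := by rw [← h1]; simp
      simp only [gtVal, gtOf, AGate.value, hz, if_false, if_true, h2]
  | varX i => simp [gtVal, gtOf, AGate.value]
  | varY i => simp [gtVal, gtOf, AGate.value]
  | add a b => simp [gtVal, gtOf, AGate.value]
  | sub a b => simp [gtVal, gtOf, AGate.value]
  | mul a b => simp [gtVal, gtOf, AGate.value]

theorem cVal_gtOf (x y : ℕ → ℝ) (c : List AGate) : cVal x y (c.map gtOf) = circuitValue x y c := by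
  simp only [cVal, circuitValue, cVals, circuitValues, List.foldl_map, syntax_gtVal]

theorem syntax_evalF_cons (it : ℕ × ℕ) (l : List (ℕ × ℕ)) : evalF (it :: l) =
    if it.1 = 6 then decide (it.2 = 0) :: evalF l
    else if it.1 = 7 then decide (it.2 = 1) :: evalF l
    else if it.1 = 8 then ((evalF l).headD false && (evalF l).tail.headD false) :: (evalF l).tail.tail
    else if it.1 = 9 then ((evalF l).headD false || (evalF l).tail.headD false) :: (evalF l).tail.tail
    else (!(evalF l).headD false) :: (evalF l).tail := rfl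

theorem syntax_sgc_zero (r : ℝ) : sgc r = 0 ↔ r = 0 := by
  unfold sgc
  split_ifs with h1 h2
  · simp [h1.ne']
  · simp [h2.ne]
  · simp [le_antisymm (not_lt.1 h1) (not_lt.1 h2)]

theorem syntax_sgc_one (r : ℝ) : sgc r = 1 ↔ 0 < r := by
  unfold sgc
  split_ifs with h1 h2 <;> simp [h1]

theorem syntax_evalF (x y : ℕ → ℝ) (φ : Form) (l : List (ℕ × ℕ)) :
    ∃ b : Bool, (φ.Holds x y ↔ b = true) ∧
      evalF (((itemsOf φ).map fun it => (it.1, sgc (cVal x y it.2))) ++ l) = b :: evalF l := by
  induction φ generalizing l with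
  | eqZero c =>
    refine ⟨decide (sgc (circuitValue x y c) = 0), by simp [Form.Holds, syntax_sgc_zero], ?_⟩
    simp [itemsOf, syntax_evalF_cons, cVal_gtOf]
  | pos c =>
    refine ⟨decide (sgc (circuitValue x y c) = 1), by simp [Form.Holds, syntax_sgc_one], ?_⟩
    simp [itemsOf, syntax_evalF_cons, cVal_gtOf]
  | and φ ψ h1 h2 =>
    obtain ⟨b2, k2, e2⟩ := h2 l
    obtain ⟨b1, k1, e1⟩ := h1 (((itemsOf ψ).map fun it => (it.1, sgc (cVal x y it.2))) ++ l)
    refine ⟨b1 && b2, by simp [Form.Holds, k1, k2], ?_⟩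
    simp only [itemsOf, List.map_cons, List.map_append, List.cons_append, List.append_assoc,
      syntax_evalF_cons, e1, e2]
    simp
  | or φ ψ h1 h2 =>
    obtain ⟨b2, k2, e2⟩ := h2 l
    obtain ⟨b1, k1, e1⟩ := h1 (((itemsOf ψ).map fun it => (it.1, sgc (cVal x y it.2))) ++ l)
    refine ⟨b1 || b2, by simp [Form.Holds, k1, k2], ?_⟩
    simp only [itemsOf, List.map_cons, List.map_append, List.cons_append, List.append_assoc,
      syntax_evalF_cons, e1, e2]
    simp
  | not φ h1 =>
    obtain ⟨b1, k1, e1⟩ := h1 l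
    refine ⟨!b1, by simp [Form.Holds, k1], ?_⟩
    simp only [itemsOf, List.map_cons, List.cons_append, syntax_evalF_cons, e1]
    simp

theorem holds_iff (x y : ℕ → ℝ) (φ : Form) : φ.Holds x y ↔
    (evalF ((itemsOf φ).map fun it => (it.1, sgc (cVal x y it.2)))).headD false = true := by
  obtain ⟨b, k, e⟩ := syntax_evalF x y φ []
  rw [List.append_nil] at e
  rw [e, k]
  simp

end Crest.Agent.R316
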